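import Vale.Agent.P132.Homog.Level

/-!
# From an approximate eigenvector to a partial isometry
-/

namespace Vale.Agent.P132.Homog

open scoped InnerProductSpace Topology ComplexOrder
open Filter Vale.Agent.P078.General

universe u

variable {H : Type u} [NormedAddCommGroup H] [InnerProductSpace ℂ H] [CompleteSpace H]
variable {M : VonNeumannAlgebra H} {Ω : H}

/-- A step approximation of `x`. -/
theorem exists_fam (M : VonNeumannAlgebra H) {x : H →L[ℂ] H} (hx : x ∈ M) {δ : ℝ} (hδ : 0 < δ) :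
    ∃ (n : ℕ) (w : Fin n → H →L[ℂ] H), IsFam M w ∧
      (∀ a, a * x = x → ∀ i, a * w i = w i) ∧
      (∀ b, x * b = x → ∀ i, w i * b = w i) ∧
      ∀ u, ‖x u - (δ : ℂ) • (∑ i : Fin n, (((i : ℕ) + 1 : ℝ) : ℂ) • w i) u‖ ≤ 2 * δ * ‖u‖ := by
  set h := CFC.sqrt (star x * x) with hh
  have h0 : 0 ≤ h := CFC.sqrt_nonneg _
  have hs : star h = h := h0.isSelfAdjoint.star_eq
  have hsq : h * h = star x * x := CFC.sqrt_mul_sqrt_self _ (star_mul_self_nonneg x)
  have hM : h ∈ M := mem_of_commute_commutant M fun y hy => by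
    rw [hh, CFC.sqrt_eq_real_sqrt _ (star_mul_self_nonneg x)]
    exact (Commute.cfcₙ_real
      (VonNeumannAlgebra.mem_commutant_iff.1 hy _ (mul_mem (star_mem hx) hx)) _).symm
  have hn : ∀ v, ‖x v‖ = ‖h v‖ := fun v => by
    rw [@norm_eq_sqrt_re_inner ℂ, @norm_eq_sqrt_re_inner ℂ _ _ _ _ (h v), inner_right, inner_right,
      hs, ← mul_apply_eq_comp, ← mul_apply_eq_comp, hsq]
  obtain ⟨n, E, C, g, hE, hEo, hsum, hC, -, hCn, hEn, hgM, hg, hgh, hgE, hghE⟩ :=
    exists_grid M hM h0 hδ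
  have hEs : ∀ i, star (E i) = E i := fun i => (hE i).2.1.isSelfAdjoint.star_eq
  have e0 : ∀ i j, star (x * g * E i) * (x * g * E j) = E i * E j := by
    intro i j
    calc star (x * g * E i) * (x * g * E j) = E i * g * (star x * x) * g * E j := by
          rw [star_mul, star_mul, hEs, hg.star_eq]; noncomm_ring
      _ = E i * (g * h) * (g * h * E j) := by
          rw [← hsq]; simp only [mul_assoc]
          rw [← mul_assoc h g (E j), hgh.symm.eq, mul_assoc g h (E j)]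
      _ = g * h * E i * E j := by
          rw [hghE j, (Commute.mul_right (hgE i).symm (hE i).2.2).eq]
      _ = E i * E j := by rw [hghE i]
  refine ⟨n, fun i => x * g * E i, ⟨fun i => mul_mem (mul_mem hx hgM) (hE i).1, fun i => ?_,
    fun i j hij => ?_, fun i j hij => ?_⟩, fun a ha i => ?_, fun b hb i => ?_, fun u => ?_⟩
  · rw [e0, (hE i).2.1.isIdempotentElem.eq, mul_assoc, (hE i).2.1.isIdempotentElem.eq]
  · rw [e0, hEo i j hij]
  · rw [star_mul, star_mul, hEs, mul_assoc, ← mul_assoc (E i) (E j), hEo i j hij, zero_mul,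
      mul_zero]
  · rw [← mul_assoc, ← mul_assoc, ha]
  · have hhb : h * b = h := ContinuousLinearMap.ext fun v => by
      rw [← sub_eq_zero, ← norm_eq_zero, mul_apply_eq_comp, ← map_sub, ← hn, map_sub,
        ← mul_apply_eq_comp, hb, sub_self, norm_zero]
    have hEb : E i * b = E i := by
      conv_lhs => rw [← hghE i, mul_assoc g, ← (hE i).2.2.eq, mul_assoc, mul_assoc, hhb]
      rw [(hE i).2.2.eq, ← mul_assoc, hghE i]
    rw [mul_assoc, hEb]
  have hu : u = C u + ∑ i, E i u := by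
    conv_lhs => rw [← one_apply_eq_self (F := H →L[ℂ] H) u, ← hsum, add_apply, sum_apply]
  set r := fun i : Fin n => x (E i u) - (((((i : ℕ) + 1 : ℝ) * δ : ℝ)) : ℂ) • (x * g * E i) u
    with hr
  have hdec : x u - (δ : ℂ) • (∑ i : Fin n, (((i : ℕ) + 1 : ℝ) : ℂ) • (x * g * E i)) u =
      x (C u) + ∑ i, r i := by
    conv_lhs => arg 1; rw [hu]
    simp only [map_add, map_sum, sum_apply, smul_apply, Finset.smul_sum, hr, smul_smul,
      Finset.sum_sub_distrib, add_sub_assoc]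
    congr 2
    exact Finset.sum_congr rfl fun i _ => by rw [← Complex.ofReal_mul, mul_comm δ]
  have hri : ∀ i, r i = (x * g * E i)
      (h (E i u) - (((((i : ℕ) + 1 : ℝ) * δ : ℝ)) : ℂ) • E i u) := by
    intro i
    have e : g * E i * (h * E i) = E i := by
      rw [← mul_assoc, mul_assoc g, (hE i).2.2.eq, ← mul_assoc, hghE, 
        (hE i).2.1.isIdempotentElem.eq]
    rw [map_sub, map_smul, hr]
    simp only [← mul_apply_eq_comp]
    rw [mul_assoc x g, mul_assoc x, mul_assoc x, e, mul_assoc g,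
      (hE i).2.1.isIdempotentElem.eq]
  have hrn : ∀ i, ‖r i‖ ≤ δ * ‖E i u‖ := by
    intro i
    refine le_trans ?_ (hEn i u)
    rw [hri]
    set v := h (E i u) - (((((i : ℕ) + 1 : ℝ) * δ : ℝ)) : ℂ) • E i u
    calc ‖(x * g * E i) v‖ = ‖(star (x * g * E i) * (x * g * E i)) v‖ :=
          norm_pi_apply (by rw [e0, (hE i).2.1.isIdempotentElem.eq, mul_assoc,
            (hE i).2.1.isIdempotentElem.eq]) v
      _ ≤ ‖v‖ := by rw [e0, (hE i).2.1.isIdempotentElem.eq]; exact norm_proj_le (hE i).2.1 v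
  have hro : ∀ i j, i ≠ j → ⟪r i, r j⟫_ℂ = 0 := by
    intro i j hij
    rw [hri, hri, inner_left, show ∀ v, star (x * g * E i) ((x * g * E j) v) =
      (star (x * g * E i) * (x * g * E j)) v from fun _ => rfl, e0, hEo i j hij]
    simp
  rw [hdec]
  refine (norm_add_le _ _).trans ?_
  have h1 : ‖x (C u)‖ ≤ δ * ‖u‖ := by
    rw [hn]
    exact (hCn u).trans (mul_le_mul_of_nonneg_left (norm_proj_le hC u) hδ.le)
  have h2 : ‖∑ i, r i‖ ≤ δ * ‖u‖ := by
    refine le_of_pow_le_pow_left₀ two_ne_zero (by positivity) ?_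
    rw [norm_sq_sum_of_orth _ _ (fun i _ j _ h => hro i j h), mul_pow]
    refine le_trans (Finset.sum_le_sum fun i _ => pow_le_pow_left₀ (norm_nonneg _) (hrn i) 2) ?_
    simp only [mul_pow, ← Finset.mul_sum]
    exact mul_le_mul_of_nonneg_left (sum_sq_proj_le (fun i => (hE i).2.1) hEo u) (sq_nonneg δ)
  linarith

/-- A partial isometry as good as an approximate eigenvector. -/
theorem exists_pi (D : StdData M Ω) {ζ : H} (hζ : D.J ζ = ζ) {c : ℝ} (hc : 0 ≤ c) {r : ℝ}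
    (hr : 0 < r) {x a b : H →L[ℂ] H} (hx : x ∈ M) (ha : a * x = x) (hb : x * b = x)
    (hx0 : x ζ ≠ 0) (hle : ‖x ζ - (c : ℂ) • D.R x ζ‖ ≤ r * ‖x ζ‖) :
    ∃ v ∈ M, v * (star v * v) = v ∧ a * v = v ∧ v * b = v ∧ v ζ ≠ 0 ∧
      ‖v ζ - (c : ℂ) • D.R v ζ‖ ^ 2 ≤ (4 * r ^ 2 + 8 * r) * ‖v ζ‖ ^ 2 := by
  set T := ‖x ζ‖ with hT
  have hT0 : 0 < T := norm_pos_iff.2 hx0
  set δ := T * min r 1 / (8 * (1 + c) * (‖ζ‖ + 1)) with hδdef
  have hδ : 0 < δ := div_pos (mul_pos hT0 (lt_min hr one_pos)) (by positivity)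
  have hδb : 2 * δ * ‖ζ‖ * (1 + c) ≤ T * min r 1 / 4 := by
    calc 2 * δ * ‖ζ‖ * (1 + c) ≤ 2 * δ * (‖ζ‖ + 1) * (1 + c) := by gcongr; linarith
      _ = T * min r 1 / 4 := by rw [hδdef]; field_simp; ring
  obtain ⟨n, w, hw, hwa, hwb, hwx⟩ := exists_fam M hx hδ
  set X := ∑ i : Fin n, (((i : ℕ) + 1 : ℝ) : ℂ) • w i with hX
  set y := x - (δ : ℂ) • X with hy
  have hyn : ‖y‖ ≤ 2 * δ := y.opNorm_le_bound (by positivity) fun u => by
    rw [hy, sub_apply, smul_apply]; exact hwx u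
  have h1 : ‖y ζ‖ ≤ 2 * δ * ‖ζ‖ := (y.le_opNorm ζ).trans
    (mul_le_mul_of_nonneg_right hyn (norm_nonneg _))
  have h2 : ‖D.R y ζ‖ ≤ 2 * δ * ‖ζ‖ := (D.norm_R_le y ζ).trans
    (mul_le_mul_of_nonneg_right hyn (norm_nonneg _))
  have e1 : (δ : ℂ) • X ζ = x ζ - y ζ := by rw [hy]; simp
  have e2 : (δ : ℂ) • (X ζ - (c : ℂ) • D.R X ζ) =
      (x ζ - (c : ℂ) • D.R x ζ) - (y ζ - (c : ℂ) • D.R y ζ) := by
    rw [hy, D.R_sub, D.R_smul]
    simp only [sub_apply, smul_apply, smul_sub, smul_comm (c : ℂ) (δ : ℂ)]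
    abel
  have hnu : ∀ v : H, ‖(δ : ℂ) • v‖ = δ * ‖v‖ := fun v => by
    rw [norm_smul, Complex.norm_real, Real.norm_of_nonneg hδ.le]
  have hm1 : min r 1 ≤ r := min_le_left _ _
  have hm2 : min r 1 ≤ 1 := min_le_right _ _
  have hc1 : 2 * δ * ‖ζ‖ ≤ T / 4 := by
    have : 0 ≤ 2 * δ * ‖ζ‖ * c := by positivity
    nlinarith [mul_le_mul_of_nonneg_left hm2 hT0.le]
  have hlow : 3 * T / 4 ≤ δ * ‖X ζ‖ := by
    rw [← hnu, e1]
    linarith [norm_sub_norm_le (x ζ) (y ζ)]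
  have hX0 : X ζ ≠ 0 := fun h => by rw [h, norm_zero] at hlow; linarith
  have hXle : ‖X ζ - (c : ℂ) • D.R X ζ‖ ≤ 2 * r * ‖X ζ‖ := by
    refine le_of_mul_le_mul_left ?_ hδ
    rw [← hnu, e2]
    refine (norm_sub_le _ _).trans ?_
    have h3 : ‖y ζ - (c : ℂ) • D.R y ζ‖ ≤ 2 * δ * ‖ζ‖ * (1 + c) := by
      refine (norm_sub_le _ _).trans ?_
      rw [norm_smul, Complex.norm_real, Real.norm_of_nonneg hc]
      nlinarith
    nlinarith [mul_le_mul_of_nonneg_left hlow (mul_nonneg zero_le_two hr.le),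
      mul_le_mul_of_nonneg_left hm1 hT0.le]
  obtain ⟨k, -, hv0, hvle⟩ := exists_level D hw hζ hc (2 * r) hX0 hXle
  refine ⟨_, sum_mem fun i _ => ?_, ?_, ?_, ?_, hv0, hvle.trans (le_of_eq (by ring))⟩
  · split
    · exact hw.mem i
    · exact zero_mem M
  · set f : Fin n → H →L[ℂ] H := fun i => if k ≤ (i : ℕ) then w i else 0 with hf
    have ho : ∀ i j, i ≠ j → star (f i) * f j = 0 := fun i j h => by
      simp only [hf]; split_ifs <;> simp [hw.orthL i j h]
    have ho' : ∀ i j, i ≠ j → f i * star (f j) = 0 := fun i j h => by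
      simp only [hf]; split_ifs <;> simp [hw.orthR i j h]
    show (∑ i, f i) * (star (∑ i, f i) * ∑ i, f i) = ∑ i, f i
    have e : star (∑ i, f i) * ∑ i, f i = ∑ i, star (f i) * f i := by
      rw [star_sum, Finset.sum_mul]
      refine Finset.sum_congr rfl fun i _ => ?_
      rw [Finset.mul_sum, Finset.sum_eq_single i (fun j _ hj => ho i j hj.symm)
        (fun h => absurd (Finset.mem_univ i) h)]
    rw [e, Finset.mul_sum]
    refine Finset.sum_congr rfl fun i _ => ?_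
    rw [Finset.sum_mul, Finset.sum_eq_single i
      (fun j _ hj => by rw [← mul_assoc, ho' j i hj, zero_mul])
      (fun h => absurd (Finset.mem_univ i) h)]
    simp only [hf]; split <;> simp [mul_assoc, hw.pi i]
  · rw [Finset.mul_sum]
    exact Finset.sum_congr rfl fun i _ => by split <;> simp [hwa a ha i]
  · rw [Finset.sum_mul]
    exact Finset.sum_congr rfl fun i _ => by split <;> simp [hwb b hb i]

end Vale.Agent.P132.Homog
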