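import Vale.Agent.P132.Homog.Grid
import Vale.Agent.P078.General.Part

/-!
# Level sets: a partial isometry as good as an approximate eigenvector

For `X = ∑ (i + 1) w i` with orthogonal partial isometries `w i` and `v k = ∑_(i ≥ k) w i`,
`∑ (2 k + 1) ‖v k ζ - c ζ v k‖²` is `∑ min(p, q)²` in place of `p q` in `‖X ζ - c ζ X‖²`.
-/

namespace Vale.Agent.P132.Homog

open scoped InnerProductSpace Topology ComplexOrder
open Filter Vale.Agent.P078.General

universe u

variable {H : Type u} [NormedAddCommGroup H] [InnerProductSpace ℂ H] [CompleteSpace H]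
variable {M : VonNeumannAlgebra H} {Ω : H}

/-- `w` is a family of partial isometries of `M` with orthogonal initial and final projections. -/
structure IsFam (M : VonNeumannAlgebra H) {n : ℕ} (w : Fin n → H →L[ℂ] H) : Prop where
  mem : ∀ i, w i ∈ M
  pi : ∀ i, w i * (star (w i) * w i) = w i
  orthL : ∀ i j, i ≠ j → star (w i) * w j = 0
  orthR : ∀ i j, i ≠ j → w i * star (w j) = 0

theorem norm_sq_sum_smul {ι : Type*} [Fintype ι] {a b : ι → H} {f : ι → ℝ} (c : ℝ)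
    (ha : ∀ i j, i ≠ j → ⟪a i, a j⟫_ℂ = 0) (hb : ∀ i j, i ≠ j → ⟪b i, b j⟫_ℂ = 0) :
    ‖∑ i, (f i : ℂ) • (a i - (c : ℂ) • b i)‖ ^ 2 =
      ∑ i, f i ^ 2 * (‖a i‖ ^ 2 + c ^ 2 * ‖b i‖ ^ 2) -
        2 * c * ∑ i, ∑ j, f i * f j * (⟪a i, b j⟫_ℂ).re := by
  classical
  simp only [smul_sub, Finset.sum_sub_distrib]
  rw [@norm_sub_sq ℂ, norm_sq_sum_of_orth _ _ (fun i _ j _ h => by simp [inner_smul_left,
    inner_smul_right, ha i j h]), norm_sq_sum_of_orth _ _ (fun i _ j _ h => by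
    simp [inner_smul_left, inner_smul_right, hb i j h])]
  simp only [sum_inner, inner_sum, RCLike.re_to_complex, Complex.re_sum, norm_smul,
    Complex.norm_real, Real.norm_eq_abs, mul_pow, sq_abs]
  simp only [inner_smul_left, inner_smul_right, Complex.conj_ofReal, Complex.re_ofReal_mul,
    Finset.mul_sum]
  rw [Finset.sum_comm (f := fun x i => 2 * (f x * (c * (f i * (⟪a i, b x⟫_ℂ).re))))]
  simp only [mul_add, Finset.sum_add_distrib]
  rw [sub_add_eq_add_sub]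
  congr 1
  exact Finset.sum_congr rfl fun i _ => Finset.sum_congr rfl fun j _ => by ring

theorem sum_levels (n : ℕ) : ∀ m : ℕ, m ≤ n →
    ∑ k ∈ Finset.range n, ((2 * k + 1 : ℝ) * if k < m then (1 : ℝ) else 0) = (m : ℝ) ^ 2 := by
  intro m hm
  simp only [mul_ite, mul_one, mul_zero]
  rw [← Finset.sum_filter, show (Finset.range n).filter (· < m) = Finset.range m by
    ext k; simp; omega]
  induction m with
  | zero => simp
  | succ m ih =>
    rw [Finset.sum_range_succ, ih (by omega)]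
    push_cast
    ring

variable (D : StdData M Ω) {n : ℕ} {w : Fin n → H →L[ℂ] H}

theorem norm_pi_apply {v : H →L[ℂ] H} (hv : v * (star v * v) = v) (u : H) :
    ‖v u‖ = ‖(star v * v) u‖ := by
  have h1 : ‖v u‖ ^ 2 = (⟪(star v * v) u, u⟫_ℂ).re := by
    rw [mul_apply_eq_comp, inner_left, star_star]
    exact (inner_self_eq_norm_sq (𝕜 := ℂ) _).symm
  have hp : IsStarProjection (star v * v) :=
    ⟨by rw [IsIdempotentElem, mul_assoc, hv], IsSelfAdjoint.star_mul_self v⟩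
  rw [← star_proj_apply_norm_sq hp] at h1
  exact (sq_eq_sq₀ (norm_nonneg _) (norm_nonneg _)).1 h1

theorem IsFam.src_proj (hw : IsFam M w) (i : Fin n) : IsStarProjection (star (w i) * w i) :=
  ⟨by rw [IsIdempotentElem, mul_assoc, hw.pi], IsSelfAdjoint.star_mul_self _⟩

theorem IsFam.tgt_proj (hw : IsFam M w) (i : Fin n) : IsStarProjection (w i * star (w i)) :=
  ⟨by rw [IsIdempotentElem, ← mul_assoc, mul_assoc (w i), hw.pi], IsSelfAdjoint.mul_star_self _⟩

theorem IsFam.star_pi (hw : IsFam M w) (i : Fin n) :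
    star (w i) * (w i * star (w i)) = star (w i) := by
  have h := congrArg star (hw.pi i)
  rw [star_mul, star_mul, star_star, mul_assoc] at h
  exact h

theorem sum_sq_proj_le {ι : Type*} [Fintype ι] {p : ι → H →L[ℂ] H}
    (hp : ∀ i, IsStarProjection (p i)) (ho : ∀ i j, i ≠ j → p i * p j = 0) (v : H) :
    ∑ i, ‖p i v‖ ^ 2 ≤ ‖v‖ ^ 2 := by
  classical
  rw [← norm_sq_sum_of_orth Finset.univ (fun i => p i v) (fun i _ j _ h => by
    rw [inner_proj (hp i), ← mul_apply_eq_comp, ho i j h]; simp)]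
  have hs : IsStarProjection (∑ i, p i) := ⟨by
    rw [IsIdempotentElem, Finset.sum_mul]
    refine Finset.sum_congr rfl fun i _ => ?_
    rw [Finset.mul_sum, Finset.sum_eq_single i (fun j _ hj => ho i j (Ne.symm hj))
      (fun h => absurd (Finset.mem_univ i) h), (hp i).isIdempotentElem.eq],
    isSelfAdjoint_sum _ fun i _ => (hp i).isSelfAdjoint⟩
  rw [← sum_apply]
  exact pow_le_pow_left₀ (norm_nonneg _) (norm_proj_le hs v) 2

/-- The level set inequality. -/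
theorem level (hw : IsFam M w) {ζ : H} (hζ : D.J ζ = ζ) {c : ℝ} (hc : 0 ≤ c) :
    let X := ∑ i : Fin n, (((i : ℕ) + 1 : ℝ) : ℂ) • w i
    let v := fun k : ℕ => ∑ i : Fin n, if k ≤ (i : ℕ) then w i else 0
    (∑ k ∈ Finset.range n, (2 * k + 1 : ℝ) * ‖v k ζ - (c : ℂ) • D.R (v k) ζ‖ ^ 2 ≤
      ‖X ζ - (c : ℂ) • D.R X ζ‖ ^ 2 + 4 * ‖X ζ‖ * ‖X ζ - (c : ℂ) • D.R X ζ‖) ∧
    ∑ k ∈ Finset.range n, (2 * k + 1 : ℝ) * ‖v k ζ‖ ^ 2 = ‖X ζ‖ ^ 2 := by
  classical
  intro X v
  set a := fun i => w i ζ with hadef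
  set b := fun i => D.R (w i) ζ with hbdef
  have ha : ∀ i j, i ≠ j → ⟪a i, a j⟫_ℂ = 0 := fun i j h => by
    rw [hadef]
    show ⟪w i ζ, w j ζ⟫_ℂ = 0
    rw [inner_left, ← mul_apply_eq_comp, hw.orthL i j h]
    simp
  have hb : ∀ i j, i ≠ j → ⟪b i, b j⟫_ℂ = 0 := fun i j h => by
    show ⟪D.R (w i) ζ, D.R (w j) ζ⟫_ℂ = 0
    rw [inner_left, D.star_R, D.R_R, hw.orthR j i (Ne.symm h), D.R_zero]
    simp
  set p : Fin n → ℝ := fun i => (i : ℕ) + 1 with hp
  have hp0 : ∀ i, 0 ≤ p i := fun i => by rw [hp]; positivity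
  have hX1 : X ζ = ∑ i, (p i : ℂ) • a i := by simp [X, p, a, sum_apply]
  have hX2 : X ζ - (c : ℂ) • D.R X ζ = ∑ i, (p i : ℂ) • (a i - (c : ℂ) • b i) := by
    simp only [X, p, a, b, D.R_sum, D.R_smul, sum_apply, smul_apply, smul_sub, Finset.smul_sum,
      Finset.sum_sub_distrib, smul_comm (c : ℂ)]
  set f : ℕ → Fin n → ℝ := fun k i => if k ≤ (i : ℕ) then 1 else 0 with hf
  have hv1 : ∀ k, v k ζ = ∑ i, (f k i : ℂ) • a i := fun k => by
    simp only [v, f, a, sum_apply]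
    exact Finset.sum_congr rfl fun i _ => by split <;> simp
  have hv2 : ∀ k, v k ζ - (c : ℂ) • D.R (v k) ζ =
      ∑ i, (f k i : ℂ) • (a i - (c : ℂ) • b i) := fun k => by
    simp only [v, f, a, b, D.R_sum, sum_apply, Finset.smul_sum, ← Finset.sum_sub_distrib]
    exact Finset.sum_congr rfl fun i _ => by split <;> simp [D.R_zero]
  have hsq : ∀ g : Fin n → ℝ, ‖∑ i, (g i : ℂ) • a i‖ ^ 2 = ∑ i, g i ^ 2 * ‖a i‖ ^ 2 := fun g => by
    rw [norm_sq_sum_of_orth _ _ (fun i _ j _ h => by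
      simp [inner_smul_left, inner_smul_right, ha i j h])]
    simp [norm_smul, mul_pow, sq_abs]
  have hk : ∀ i j : Fin n, ∑ k ∈ Finset.range n, (2 * k + 1 : ℝ) * (f k i * f k j) =
      min (p i) (p j) ^ 2 := by
    intro i j
    have e : ∀ k, f k i * f k j = if k < min ((i : ℕ) + 1) ((j : ℕ) + 1) then 1 else 0 := by
      intro k
      simp only [hf, ite_mul, one_mul, zero_mul]
      simp only [lt_min_iff, Nat.lt_succ_iff]
      split_ifs <;> simp_all
    simp only [e]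
    rw [sum_levels n _ ((min_le_left _ _).trans i.2)]
    simp [hp, min_add_add_right]
  have hkk : ∀ i : Fin n, ∑ k ∈ Finset.range n, (2 * k + 1 : ℝ) * f k i ^ 2 = p i ^ 2 := fun i => by
    simp only [pow_two (f _ i)]
    rw [hk i i, min_self]
  constructor
  swap
  · simp only [hv1, hX1, hsq, Finset.mul_sum]
    rw [Finset.sum_comm]
    refine Finset.sum_congr rfl fun i _ => ?_
    rw [← hkk i, Finset.sum_mul]
    exact Finset.sum_congr rfl fun k _ => by ring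
  have hS : ∑ k ∈ Finset.range n, (2 * k + 1 : ℝ) * ‖v k ζ - (c : ℂ) • D.R (v k) ζ‖ ^ 2 =
      ‖X ζ - (c : ℂ) • D.R X ζ‖ ^ 2 +
        2 * c * ∑ i, ∑ j, (p i * p j - min (p i) (p j) ^ 2) * (⟪a i, b j⟫_ℂ).re := by
    simp only [hv2, norm_sq_sum_smul c ha hb, mul_sub, Finset.sum_sub_distrib]
    have h1 : ∑ k ∈ Finset.range n, (2 * k + 1 : ℝ) *
        ∑ i, f k i ^ 2 * (‖a i‖ ^ 2 + c ^ 2 * ‖b i‖ ^ 2) =
        ∑ i, p i ^ 2 * (‖a i‖ ^ 2 + c ^ 2 * ‖b i‖ ^ 2) := by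
      simp only [Finset.mul_sum]
      rw [Finset.sum_comm]
      refine Finset.sum_congr rfl fun i _ => ?_
      rw [← hkk i, Finset.sum_mul]
      exact Finset.sum_congr rfl fun k _ => by ring
    have h2 : ∑ k ∈ Finset.range n, (2 * k + 1 : ℝ) *
        (2 * c * ∑ i, ∑ j, f k i * f k j * (⟪a i, b j⟫_ℂ).re) =
        2 * c * ∑ i, ∑ j, min (p i) (p j) ^ 2 * (⟪a i, b j⟫_ℂ).re := by
      simp only [Finset.mul_sum]
      rw [Finset.sum_comm]
      refine Finset.sum_congr rfl fun i _ => ?_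
      rw [Finset.sum_comm]
      refine Finset.sum_congr rfl fun j _ => ?_
      rw [← hk i j, Finset.sum_mul, Finset.mul_sum]
      exact Finset.sum_congr rfl fun k _ => by ring
    rw [h1, h2, hX2, norm_sq_sum_smul c ha hb]
    simp only [sub_mul, Finset.sum_sub_distrib, mul_sub]
    ring
  rw [hS]
  -- blocks
  set Fp := fun i => w i * star (w i) with hFp
  set Ep := fun j => star (w j) * w j with hEp
  have hEM : ∀ j, Ep j ∈ M := fun j => mul_mem (star_mem (hw.mem j)) (hw.mem j)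
  have hFM : ∀ j, Fp j ∈ M := fun j => mul_mem (hw.mem j) (star_mem (hw.mem j))
  have hEo : ∀ i j, i ≠ j → Ep i * Ep j = 0 := fun i j h => by
    simp only [hEp, mul_assoc, ← mul_assoc (w i), hw.orthR i j h, zero_mul, mul_zero]
  have hFo : ∀ i j, i ≠ j → Fp i * Fp j = 0 := fun i j h => by
    simp only [hFp, mul_assoc, ← mul_assoc (star (w i)), hw.orthL i j h, zero_mul, mul_zero]
  set bl := fun (i j : Fin n) (u : H) => Fp i (D.R (Ep j) u) with hbl
  have hA0 : ∀ i j k, k ≠ i → bl i j (a k) = 0 := fun i j k h => by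
    show Fp i (D.R (Ep j) (w k ζ)) = 0
    rw [D.R_comm (hFM i) (hEM j)]
    have : Fp i (w k ζ) = 0 := by
      rw [← mul_apply_eq_comp, hFp]
      simp only [mul_assoc, hw.orthL i k (Ne.symm h), mul_zero]
      rfl
    rw [this, map_zero]
  have hB0 : ∀ i j k, k ≠ j → bl i j (b k) = 0 := fun i j k h => by
    show Fp i (D.R (Ep j) (D.R (w k) ζ)) = 0
    rw [D.R_R, hEp]
    simp only [← mul_assoc, hw.orthR k j h, zero_mul, D.R_zero]
    simp
  have hbl_d : ∀ i j, bl i j (X ζ - (c : ℂ) • D.R X ζ) =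
      (p i : ℂ) • bl i j (a i) - ((p j * c : ℝ) : ℂ) • bl i j (b j) := by
    intro i j
    rw [hX2]
    simp only [hbl, map_sum, map_sub, map_smul, smul_sub, Finset.sum_sub_distrib]
    rw [Finset.sum_eq_single i (fun k _ hk => by
        rw [show Fp i (D.R (Ep j) (a k)) = 0 from hA0 i j k hk, smul_zero])
        (fun h => absurd (Finset.mem_univ i) h),
      Finset.sum_eq_single j (fun k _ hk => by
        rw [show Fp i (D.R (Ep j) (b k)) = 0 from hB0 i j k hk, smul_zero, smul_zero])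
        (fun h => absurd (Finset.mem_univ j) h), smul_smul]
    push_cast
    rfl
  have hbl_X : ∀ i j, bl i j (X ζ) = (p i : ℂ) • bl i j (a i) := by
    intro i j
    rw [hX1]
    simp only [hbl, map_sum, map_smul]
    exact Finset.sum_eq_single i (fun k _ hk => by
      rw [show Fp i (D.R (Ep j) (a k)) = 0 from hA0 i j k hk, smul_zero])
      (fun h => absurd (Finset.mem_univ i) h)
  have hbessel : ∀ u, ∑ i, ∑ j, ‖bl i j u‖ ^ 2 ≤ ‖u‖ ^ 2 := by
    intro u
    rw [Finset.sum_comm]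
    calc ∑ j, ∑ i, ‖bl i j u‖ ^ 2 ≤ ∑ j, ‖D.R (Ep j) u‖ ^ 2 :=
          Finset.sum_le_sum fun j _ => sum_sq_proj_le hw.tgt_proj hFo _
      _ ≤ ‖u‖ ^ 2 := sum_sq_proj_le (fun j => D.R_proj (hw.src_proj j))
          (fun i j h => by rw [← D.R_mul, hEo j i (Ne.symm h), D.R_zero]) u
  have hK : ∀ i j, ⟪a i, b j⟫_ℂ = ⟪bl i j (a i), bl i j (b j)⟫_ℂ := by
    intro i j
    have e1 : Fp i (a i) = a i := by
      show Fp i (w i ζ) = w i ζ
      rw [← mul_apply_eq_comp, hFp]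
      simp only [mul_assoc, hw.pi i]
    have e2 : D.R (Ep j) (b j) = b j := by
      show D.R (Ep j) (D.R (w j) ζ) = D.R (w j) ζ
      rw [D.R_R, hEp, hw.pi j]
    show _ = ⟪Fp i (D.R (Ep j) (a i)), Fp i (D.R (Ep j) (b j))⟫_ℂ
    rw [D.R_comm (hFM i) (hEM j) (a i), e1, e2, inner_proj (D.R_proj (hw.src_proj j)),
      ← D.R_comm (hFM i) (hEM j), e2, ← inner_proj (hw.tgt_proj i), e1]
  set aa := fun i j => ‖bl i j (a i)‖ with haa
  set bb := fun i j => c * ‖bl i j (b j)‖ with hbb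
  have sym : ∀ (P : Fin n → H →L[ℂ] H), (∀ i, IsStarProjection (P i)) → (∀ i, P i ∈ M) →
      ∀ i j, ‖D.R (P j) (P i ζ)‖ = ‖D.R (P i) (P j ζ)‖ := by
    intro P hP hPM i j
    conv_lhs => rw [← D.norm_J, D.J_R, (hP j).isSelfAdjoint.star_eq, D.J_left,
      (hP i).isSelfAdjoint.star_eq, hζ, D.R_comm (hPM j) (hPM i)]
  have haa_sym : ∀ i j, aa i j = aa j i := by
    have e : ∀ i j, aa i j = ‖D.R (Ep j) (Ep i ζ)‖ := by
      intro i j
      have e1 : bl i j (a i) = w i (D.R (Ep j) ζ) := by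
        show Fp i (D.R (Ep j) (w i ζ)) = _
        rw [← D.R_comm (hw.mem i) (hEM j), ← mul_apply_eq_comp, hFp]
        simp only [mul_assoc, hw.pi i]
      show ‖bl i j (a i)‖ = _
      rw [e1, norm_pi_apply (hw.pi i)]
      show ‖Ep i (D.R (Ep j) ζ)‖ = _
      rw [D.R_comm (hEM i) (hEM j)]
    intro i j
    rw [e, e, sym Ep hw.src_proj hEM]
  have hbb_sym : ∀ i j, bb i j = bb j i := by
    have e : ∀ i j, bb i j = c * ‖D.R (Fp j) (Fp i ζ)‖ := by
      intro i j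
      show c * ‖bl i j (b j)‖ = _
      congr 1
      have e1 : bl i j (b j) = D.R (w j) (Fp i ζ) := by
        show Fp i (D.R (Ep j) (D.R (w j) ζ)) = _
        rw [D.R_R, hEp, hw.pi j, D.R_comm (hFM i) (hw.mem j)]
      have h1 : ‖D.R (w j) (Fp i ζ)‖ = ‖Fp j (D.J (Fp i ζ))‖ := by
        rw [D.R_apply, D.norm_J, norm_pi_apply (by rw [star_star]; exact hw.star_pi j),
          star_star]
      rw [e1, h1, D.J_left, (hw.tgt_proj i).isSelfAdjoint.star_eq, hζ,
        D.R_comm (hFM j) (hFM i)]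
      exact sym Fp hw.tgt_proj hFM j i
    intro i j
    rw [e, e, sym Fp hw.tgt_proj hFM]
  set uu := fun i j => ‖bl i j (X ζ - (c : ℂ) • D.R X ζ)‖ with huu
  have hu : ∀ i j, |p i * aa i j - p j * bb i j| ≤ uu i j := by
    intro i j
    show _ ≤ ‖bl i j (X ζ - (c : ℂ) • D.R X ζ)‖
    rw [hbl_d]
    have h := abs_norm_sub_norm_le ((p i : ℂ) • bl i j (a i))
      (((p j * c : ℝ) : ℂ) • bl i j (b j))
    rw [norm_smul, norm_smul, Complex.norm_real, Complex.norm_real, Real.norm_of_nonneg (hp0 i),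
      Real.norm_of_nonneg (mul_nonneg (hp0 j) hc)] at h
    simpa only [haa, hbb, mul_assoc] using h
  have hkey : ∀ i j, c * ((p i * p j - min (p i) (p j) ^ 2) * (⟪a i, b j⟫_ℂ).re) ≤
      p i * aa i j * (uu i j + uu j i) := by
    intro i j
    have hm : p i * p j - min (p i) (p j) ^ 2 = min (p i) (p j) * |p i - p j| := by
      rcases le_total (p i) (p j) with h | h
      · rw [min_eq_left h, abs_of_nonpos (by linarith)]; ring
      · rw [min_eq_right h, abs_of_nonneg (by linarith)]; ring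
    have h0 : (⟪a i, b j⟫_ℂ).re ≤ ‖bl i j (a i)‖ * ‖bl i j (b j)‖ := by
      rw [hK]; exact (Complex.re_le_norm _).trans (norm_inner_le_norm _ _)
    have hu2 := hu j i
    rw [← haa_sym i j, ← hbb_sym i j] at hu2
    have hab : 0 ≤ aa i j ∧ 0 ≤ bb i j :=
      ⟨norm_nonneg _, mul_nonneg hc (norm_nonneg _)⟩
    have h2 : |p i - p j| * (aa i j + bb i j) ≤ uu i j + uu j i := by
      rw [← abs_of_nonneg (add_nonneg hab.1 hab.2), ← abs_mul]
      refine le_trans (le_of_eq ?_) ((abs_sub _ _).trans (add_le_add (hu i j) hu2))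
      congr 1
      ring
    have h3 : |p i - p j| * bb i j ≤ uu i j + uu j i :=
      le_trans (mul_le_mul_of_nonneg_left (le_add_of_nonneg_left hab.1) (abs_nonneg _)) h2
    rw [hm]
    calc c * (min (p i) (p j) * |p i - p j| * (⟪a i, b j⟫_ℂ).re)
        ≤ c * (min (p i) (p j) * |p i - p j| * (‖bl i j (a i)‖ * ‖bl i j (b j)‖)) :=
          mul_le_mul_of_nonneg_left (mul_le_mul_of_nonneg_left h0
            (mul_nonneg (le_min (hp0 i) (hp0 j)) (abs_nonneg _))) hc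
      _ = min (p i) (p j) * aa i j * (|p i - p j| * bb i j) := by
          simp only [haa, hbb]; ring
      _ ≤ p i * aa i j * (uu i j + uu j i) :=
          mul_le_mul (mul_le_mul_of_nonneg_right (min_le_left _ _) hab.1) h3
            (mul_nonneg (abs_nonneg _) hab.2) (mul_nonneg (hp0 i) hab.1)
  have hcs : ∀ g : Fin n → Fin n → ℝ,
      ∑ i, ∑ j, g i j ^ 2 ≤ ‖X ζ - (c : ℂ) • D.R X ζ‖ ^ 2 →
        ∑ i, ∑ j, p i * aa i j * g i j ≤ ‖X ζ‖ * ‖X ζ - (c : ℂ) • D.R X ζ‖ := by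
    intro g hg
    rw [← Finset.univ.sum_product Finset.univ (fun z => p z.1 * aa z.1 z.2 * g z.1 z.2)]
    refine (Real.sum_mul_le_sqrt_mul_sqrt _ (fun z : Fin n × Fin n => p z.1 * aa z.1 z.2)
      (fun z => g z.1 z.2)).trans (mul_le_mul ?_ ?_ (Real.sqrt_nonneg _) (norm_nonneg _))
    · refine (Real.sqrt_le_left (norm_nonneg _)).2 (le_trans (le_of_eq ?_) (hbessel (X ζ)))
      rw [Finset.univ.sum_product]
      refine Finset.sum_congr rfl fun i _ => Finset.sum_congr rfl fun j _ => ?_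
      rw [hbl_X, norm_smul, Complex.norm_real, Real.norm_of_nonneg (hp0 i)]
    · refine (Real.sqrt_le_left (norm_nonneg _)).2 ?_
      rw [Finset.univ.sum_product]
      exact hg
  have h1 := hcs uu (hbessel _)
  have h2 := hcs (fun i j => uu j i) (by rw [Finset.sum_comm]; exact hbessel _)
  have h3 : c * ∑ i, ∑ j, (p i * p j - min (p i) (p j) ^ 2) * (⟪a i, b j⟫_ℂ).re ≤
      ∑ i, ∑ j, p i * aa i j * (uu i j + uu j i) := by
    rw [Finset.mul_sum]
    refine Finset.sum_le_sum fun i _ => ?_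
    rw [Finset.mul_sum]
    exact Finset.sum_le_sum fun j _ => hkey i j
  simp only [mul_add, Finset.sum_add_distrib] at h3
  linarith

/-- Some level is as good as the whole element. -/
theorem exists_level (hw : IsFam M w) {ζ : H} (hζ : D.J ζ = ζ) {c : ℝ} (hc : 0 ≤ c) (r : ℝ) :
    let X := ∑ i : Fin n, (((i : ℕ) + 1 : ℝ) : ℂ) • w i
    X ζ ≠ 0 → ‖X ζ - (c : ℂ) • D.R X ζ‖ ≤ r * ‖X ζ‖ →
      ∃ k < n, let v := ∑ i : Fin n, if k ≤ (i : ℕ) then w i else 0
        v ζ ≠ 0 ∧ ‖v ζ - (c : ℂ) • D.R v ζ‖ ^ 2 ≤ (r ^ 2 + 4 * r) * ‖v ζ‖ ^ 2 := by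
  intro X hX0 hle
  by_contra h
  simp only [not_exists, not_and, not_le] at h
  obtain ⟨h1, h2⟩ := level D hw hζ hc
  set v := fun k : ℕ => ∑ i : Fin n, if k ≤ (i : ℕ) then w i else 0
  have hT : 0 < ‖X ζ‖ := norm_pos_iff.2 hX0
  obtain ⟨k, hk, hk0⟩ : ∃ k ∈ Finset.range n, v k ζ ≠ 0 := by
    by_contra h0
    simp only [not_exists, not_and, not_not] at h0
    rw [Finset.sum_eq_zero (fun k hk => by rw [h0 k hk]; simp)] at h2
    exact (pow_pos hT 2).ne h2
  have h3 : ∑ k ∈ Finset.range n, (2 * k + 1 : ℝ) * ((r ^ 2 + 4 * r) * ‖v k ζ‖ ^ 2) <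
      ∑ k ∈ Finset.range n, (2 * k + 1 : ℝ) * ‖v k ζ - (c : ℂ) • D.R (v k) ζ‖ ^ 2 := by
    refine Finset.sum_lt_sum (fun j hj => ?_) ⟨k, hk, ?_⟩
    · by_cases hj0 : v j ζ = 0
      · rw [hj0, norm_zero, zero_pow two_ne_zero, mul_zero, mul_zero]; positivity
      · exact mul_le_mul_of_nonneg_left (h j (Finset.mem_range.1 hj) hj0).le (by positivity)
    · exact mul_lt_mul_of_pos_left (h k (Finset.mem_range.1 hk) hk0) (by positivity)
  have e : ∑ k ∈ Finset.range n, (2 * k + 1 : ℝ) * ((r ^ 2 + 4 * r) * ‖v k ζ‖ ^ 2) =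
      (r ^ 2 + 4 * r) * ‖X ζ‖ ^ 2 := by
    rw [← h2, Finset.mul_sum]
    exact Finset.sum_congr rfl fun k _ => by ring
  rw [e] at h3
  have h4 : ‖X ζ - (c : ℂ) • D.R X ζ‖ ^ 2 + 4 * ‖X ζ‖ * ‖X ζ - (c : ℂ) • D.R X ζ‖ ≤
      (r ^ 2 + 4 * r) * ‖X ζ‖ ^ 2 := by
    nlinarith [pow_le_pow_left₀ (norm_nonneg _) hle 2, mul_le_mul_of_nonneg_left hle hT.le]
  linarith

end Vale.Agent.P132.Homog
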