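import Vale.Agent.P132.Homog.Std

/-!
# Block diagonal vectors and an approximate ratio between two corners

For orthogonal projections `e i` with sum one the vector `ζ = ∑ e i Ω e i` is cyclic and separating,
`y ζ ↦ ζ y` is positive, and `ζ y + y ζ` is dense by maximality.
-/

namespace Vale.Agent.P132.Homog

open scoped InnerProductSpace Topology ComplexOrder
open Filter

universe u

variable {H : Type u} [NormedAddCommGroup H] [InnerProductSpace ℂ H] [CompleteSpace H]
variable {ι : Type*} [Fintype ι] {M : VonNeumannAlgebra H} {Ω : H}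

/-- Orthogonal projections of `M` with sum one. -/
structure IsBlock (M : VonNeumannAlgebra H) (e : ι → H →L[ℂ] H) : Prop where
  mem : ∀ i, e i ∈ M
  proj : ∀ i, IsStarProjection (e i)
  orth : ∀ i j, i ≠ j → e i * e j = 0
  sum_eq : ∑ i, e i = 1

/-- `∑ e i Ω e i`. -/
noncomputable def blk (D : StdData M Ω) (e : ι → H →L[ℂ] H) : H := ∑ i, D.R (e i) (e i Ω)

variable (D : StdData M Ω) {e : ι → H →L[ℂ] H}

theorem J_blk (he : IsBlock M e) : D.J (blk D e) = blk D e := by
  rw [blk, D.J_sum]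
  refine Finset.sum_congr rfl fun i _ => ?_
  rw [D.J_R, D.J_left, D.J_omega, (he.proj i).isSelfAdjoint.star_eq,
    D.R_comm (he.mem i) (he.mem i)]

theorem left_blk (he : IsBlock M e) (k : ι) : e k (blk D e) = D.R (e k) (e k Ω) := by
  classical
  rw [blk, map_sum, Finset.sum_eq_single k]
  · rw [D.R_comm (he.mem k) (he.mem k), proj_apply (he.proj k)]
  · intro i _ hi
    rw [D.R_comm (he.mem k) (he.mem i),
      show e k (e i Ω) = (e k * e i) Ω from rfl, he.orth k i (Ne.symm hi)]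
    simp
  · exact fun h => absurd (Finset.mem_univ k) h

theorem R_blk (he : IsBlock M e) (k : ι) : D.R (e k) (blk D e) = D.R (e k) (e k Ω) := by
  classical
  rw [blk, map_sum, Finset.sum_eq_single k]
  · rw [D.R_R, (he.proj k).isIdempotentElem.eq]
  · intro i _ hi
    rw [D.R_R, he.orth i k hi, D.R_zero]
    rfl
  · exact fun h => absurd (Finset.mem_univ k) h

theorem left_eq_R_blk (he : IsBlock M e) (k : ι) : e k (blk D e) = D.R (e k) (blk D e) := by
  rw [left_blk D he, R_blk D he]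

theorem mul_mem₃ {a b c : H →L[ℂ] H} (ha : a ∈ M) (hb : b ∈ M) (hc : c ∈ M) : a * b * c ∈ M :=
  mul_mem (mul_mem ha hb) hc

theorem B_blk (he : IsBlock M e) {y z : H →L[ℂ] H} (hy : y ∈ M) (hz : z ∈ M) :
    ⟪y (blk D e), D.R z (blk D e)⟫_ℂ =
      ∑ i, ∑ j, ⟪(e j * y * e i) Ω, D.R (e j * z * e i) Ω⟫_ℂ := by
  simp only [blk, map_sum, sum_inner, inner_sum]
  rw [Finset.sum_comm]
  refine Finset.sum_congr rfl fun i _ => Finset.sum_congr rfl fun j _ => ?_
  have h3 : y (D.R (e i) (e i Ω)) = D.R (e i) (y (e i Ω)) := D.R_comm hy (he.mem i) _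
  have h4 : D.R z (D.R (e j) (e j Ω)) = e j (D.R (e j * z) Ω) := by
    rw [D.R_R, D.R_comm (he.mem j) (mul_mem (he.mem j) hz)]
  rw [h3, h4, ← inner_proj (he.proj j), D.R_comm (he.mem j) (he.mem i),
    inner_proj (D.R_proj (he.proj i)), D.R_R]
  simp only [mul_apply_eq_comp]

theorem B_blk_self_nonneg (he : IsBlock M e) {y : H →L[ℂ] H} (hy : y ∈ M) :
    0 ≤ (⟪y (blk D e), D.R y (blk D e)⟫_ℂ).re := by
  rw [B_blk D he hy hy, Complex.re_sum]
  refine Finset.sum_nonneg fun i _ => ?_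
  rw [Complex.re_sum]
  exact Finset.sum_nonneg fun j _ => D.B_self_nonneg (mul_mem₃ (he.mem j) hy (he.mem i))

theorem B_blk_symm (he : IsBlock M e) {y z : H →L[ℂ] H} (hy : y ∈ M) (hz : z ∈ M) :
    ⟪y (blk D e), D.R z (blk D e)⟫_ℂ = ⟪D.R y (blk D e), z (blk D e)⟫_ℂ := by
  rw [← inner_conj_symm (D.R y (blk D e)) (z (blk D e)), B_blk D he hy hz, B_blk D he hz hy,
    map_sum]
  refine Finset.sum_congr rfl fun i _ => ?_
  rw [map_sum]
  refine Finset.sum_congr rfl fun j _ => ?_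
  rw [inner_conj_symm, D.B_symm (mul_mem₃ (he.mem j) hy (he.mem i))
    (mul_mem₃ (he.mem j) hz (he.mem i))]

theorem blk_separating (he : IsBlock M e) {y : H →L[ℂ] H} (hy : y ∈ M)
    (h0 : y (blk D e) = 0) : y = 0 := by
  have hs := B_blk D he hy hy
  rw [h0, inner_zero_left] at hs
  have hre := congrArg Complex.re hs
  rw [Complex.zero_re, Complex.re_sum] at hre
  have hz : ∀ i j, e j * y * e i = 0 := by
    intro i j
    have hi := (Finset.sum_eq_zero_iff_of_nonneg (fun i _ => by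
      rw [Complex.re_sum]
      exact Finset.sum_nonneg fun j _ =>
        D.B_self_nonneg (mul_mem₃ (he.mem j) hy (he.mem i)))).1 hre.symm i (Finset.mem_univ i)
    rw [Complex.re_sum] at hi
    have hj := (Finset.sum_eq_zero_iff_of_nonneg (fun j _ =>
      D.B_self_nonneg (mul_mem₃ (he.mem j) hy (he.mem i)))).1 hi j (Finset.mem_univ j)
    by_contra hne
    exact (D.B_self_pos (mul_mem₃ (he.mem j) hy (he.mem i)) hne).ne' hj
  calc y = (∑ j, e j) * y * ∑ i, e i := by rw [he.sum_eq, one_mul, mul_one]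
    _ = 0 := by
      simp only [Finset.sum_mul, Finset.mul_sum, hz, Finset.sum_const_zero]

/-- The orbit of a vector under `M`. -/
def orbit (M : VonNeumannAlgebra H) (v : H) : Submodule ℂ H where
  carrier := {w | ∃ y ∈ M, y v = w}
  zero_mem' := ⟨0, zero_mem M, rfl⟩
  add_mem' := by
    rintro _ _ ⟨y, hy, rfl⟩ ⟨z, hz, rfl⟩
    exact ⟨y + z, add_mem hy hz, rfl⟩
  smul_mem' := by
    rintro c _ ⟨y, hy, rfl⟩
    exact ⟨c • y, P078.General.smul_mem' M hy c, rfl⟩

theorem blk_cyclic (he : IsBlock M e) : (orbit M (blk D e)).topologicalClosure = ⊤ := by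
  set ζ := blk D e
  set K := (orbit M ζ).topologicalClosure with hK
  have : CompleteSpace K := (orbit M ζ).isClosed_topologicalClosure.completeSpace_coe
  have hinv : ∀ y ∈ M, ∀ w ∈ K, y w ∈ K := by
    intro y hy w hw
    refine map_mem_closure y.continuous hw ?_
    rintro _ ⟨z, hz, rfl⟩
    exact ⟨y * z, mul_mem hy hz, rfl⟩
  set P := K.starProjection with hP
  have hPp : IsStarProjection P := isStarProjection_starProjection
  have hPc : P ∈ M.commutant := by
    rw [VonNeumannAlgebra.mem_commutant_iff]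
    intro g hg
    have k : ∀ z ∈ M, P * z * P = z * P := fun z hz => ContinuousLinearMap.ext fun v =>
      Submodule.starProjection_eq_self_iff.2 (hinv z hz _ (K.starProjection_apply_mem v))
    have h2 := congrArg star (k _ (star_mem hg))
    rw [star_mul, star_mul, star_mul, star_star, hPp.isSelfAdjoint.star_eq, ← mul_assoc,
      k g hg] at h2
    exact h2
  obtain ⟨x, hx, hxe⟩ := D.onto P hPc
  have hPζ : P ζ = ζ := Submodule.starProjection_eq_self_iff.2
    ((orbit M ζ).le_topologicalClosure ⟨1, one_mem M, rfl⟩)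
  rw [hxe ζ, J_blk D he] at hPζ
  have hx1 : x ζ = ζ := by rw [← D.J_invol (x ζ), hPζ, J_blk D he]
  have h1 : x - 1 = 0 := blk_separating D he (sub_mem hx (one_mem M)) (by simp [ζ, hx1])
  refine eq_top_iff.2 fun v _ => ?_
  rw [← Submodule.starProjection_eq_self_iff, ← hP, hxe v, sub_eq_zero.1 h1]
  simp [D.J_invol]

theorem eq_zero_of_orth_orbit (he : IsBlock M e) {η : H}
    (h : ∀ y ∈ M, ⟪y (blk D e), η⟫_ℂ = 0) : η = 0 := by
  have h1 : η ∈ (orbit M (blk D e))ᗮ := by
    rintro _ ⟨y, hy, rfl⟩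
    exact h y hy
  rwa [(Submodule.topologicalClosure_eq_top_iff (K := orbit M (blk D e))).1 (blk_cyclic D he),
    Submodule.mem_bot] at h1

theorem exists_cs_blk (hΩ : IsCS M Ω) (he : IsBlock M e) :
    ∃ r : ℝ, 0 < r ∧ IsCS M ((r : ℂ) • blk D e) := by
  set ζ := blk D e with hζ
  have h0 : ζ ≠ 0 := by
    intro h
    have h1 := blk_separating D he (one_mem M) (by rw [← hζ, h]; simp)
    have h2 : (1 : H →L[ℂ] H) Ω = 0 := by rw [h1]; rfl
    rw [one_apply_eq_self] at h2
    have h3 := hΩ.norm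
    rw [h2, norm_zero] at h3
    exact zero_ne_one h3
  have hn : 0 < ‖ζ‖ := norm_pos_iff.2 h0
  have hc : ((‖ζ‖⁻¹ : ℝ) : ℂ) ≠ 0 := Complex.ofReal_ne_zero.2 (inv_pos.2 hn).ne'
  refine ⟨‖ζ‖⁻¹, inv_pos.2 hn, ⟨?_, fun ξ η hη => ?_, fun x hx hx0 => ?_⟩⟩
  · rw [norm_smul, Complex.norm_real, Real.norm_of_nonneg (inv_pos.2 hn).le,
      inv_mul_cancel₀ hn.ne']
  · have hξ : ξ ∈ closure (orbit M ζ : Set H) := by
      rw [← Submodule.topologicalClosure_coe, blk_cyclic D he]; trivial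
    obtain ⟨_, ⟨y, hy, rfl⟩, hd⟩ := Metric.mem_closure_iff.1 hξ η hη
    refine ⟨(‖ζ‖ : ℂ) • y, P078.General.smul_mem' M hy _, ?_⟩
    rw [smul_apply, map_smul, smul_smul, ← Complex.ofReal_mul, mul_inv_cancel₀ hn.ne',
      Complex.ofReal_one, one_smul, ← dist_eq_norm, dist_comm]
    exact hd.le
  · rw [map_smul, smul_eq_zero] at hx0
    exact blk_separating D he hx (hx0.resolve_left hc)

/-- `M` as a subspace. -/
def mSub (M : VonNeumannAlgebra H) : Submodule ℂ (H →L[ℂ] H) where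
  carrier := (M : Set (H →L[ℂ] H))
  zero_mem' := zero_mem M
  add_mem' := fun ha hb => add_mem (s := M) ha hb
  smul_mem' := fun c _ hy => P078.General.smul_mem' M hy c

/-- `y ↦ ζ y + y ζ`. -/
noncomputable def plusMap (ζ : H) : mSub M →ₗ[ℂ] H where
  toFun y := D.R y.1 ζ + y.1 ζ
  map_add' y z := by simp [D.R_add]; abel
  map_smul' c y := by simp [D.R_smul, smul_add]

theorem denseRange_plusMap (hΩ : IsCS M Ω) (hMax : StmtMax.{u}) (he : IsBlock M e) :
    DenseRange (plusMap D (blk D e)) := by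
  set ζ := blk D e with hζ
  have hJ : D.J ζ = ζ := J_blk D he
  have hbot : (LinearMap.range (plusMap D ζ))ᗮ = ⊥ := by
    refine (Submodule.eq_bot_iff _).2 fun η hη => ?_
    obtain ⟨r, hr, hcs⟩ := exists_cs_blk D hΩ he
    rw [← hζ] at hcs
    have hη' : ∀ w ∈ M, ⟪η, D.R (star w) ζ⟫_ℂ + ⟪η, star w ζ⟫_ℂ = 0 := by
      intro w hw
      have h := Submodule.mem_orthogonal' _ η |>.1 hη _
        (LinearMap.mem_range_self (plusMap D ζ) ⟨star w, star_mem (s := M) hw⟩)
      simpa [plusMap, inner_add_right] using h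
    have key : ∀ y ∈ M.commutant,
        ⟪η, y ((r : ℂ) • ζ)⟫_ℂ = ⟪star y ((r : ℂ) • ζ), -D.J η⟫_ℂ := by
      intro y hy
      obtain ⟨w, hw, hwe⟩ := D.onto y hy
      have hstar : star y ζ = D.J (star w (D.J ζ)) := by
        refine ext_inner_left ℂ fun v => ?_
        rw [inner_right, star_star, hwe v, D.inner_J_left, D.inner_J_right,
          inner_left (star w) (D.J ζ), star_star]
      rw [map_smul, map_smul, inner_smul_right, inner_smul_left, Complex.conj_ofReal, hstar,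
        hwe ζ, inner_neg_right, D.inner_J_left, D.J_invol, ← inner_conj_symm η (D.J _)]
      have h2 := hη' w hw
      rw [D.R_apply, star_star, hJ] at h2
      rw [hJ, inner_conj_symm, eq_neg_of_add_eq_zero_left h2]
    refine norm_le_zero_iff.1 (le_of_forall_gt_imp_ge_of_dense fun θ hθ => ?_)
    by_contra hcon
    rw [not_le] at hcon
    set n := ‖η‖
    obtain ⟨z, hz, hz1, hz2⟩ := hMax H M _ hcs η (-D.J η) key
      (min (n / 4) 1) (lt_min (by linarith) one_pos)
    set z' := (r : ℂ) • z with hz'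
    have hz'M : z' ∈ M := P078.General.smul_mem' M hz _
    have e1 : z' ζ = z ((r : ℂ) • ζ) := by simp [hz']
    have e2 : star z' ζ = star z ((r : ℂ) • ζ) := by simp [hz', Complex.conj_ofReal]
    rw [← e1] at hz1
    rw [← e2] at hz2
    have hR : D.R z' ζ = D.J (star z' ζ) := by rw [D.R_apply, hJ]
    have hz3 : ‖D.R z' ζ + η‖ ≤ min (n / 4) 1 := by
      rw [hR, ← D.J_invol η, ← D.J_add, D.norm_J, ← sub_neg_eq_add]
      exact hz2
    have h0 : 0 ≤ (⟪z' ζ, D.R z' ζ⟫_ℂ).re := B_blk_self_nonneg D he hz'M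
    set a := z' ζ - η with ha
    set b := D.R z' ζ + η with hb
    have hdec : ⟪z' ζ, D.R z' ζ⟫_ℂ = ⟪a + η, b - η⟫_ℂ := by simp [ha, hb]
    rw [hdec, inner_add_left, inner_sub_right, inner_sub_right, Complex.add_re, Complex.sub_re,
      Complex.sub_re] at h0
    have i1 : (⟪a, b⟫_ℂ).re ≤ ‖a‖ * ‖b‖ := (Complex.re_le_norm _).trans (norm_inner_le_norm _ _)
    have i2 : -(⟪a, η⟫_ℂ).re ≤ ‖a‖ * n :=
      (neg_le_abs _).trans ((Complex.abs_re_le_norm _).trans (norm_inner_le_norm _ _))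
    have i3 : (⟪η, b⟫_ℂ).re ≤ n * ‖b‖ := (Complex.re_le_norm _).trans (norm_inner_le_norm _ _)
    have i4 : (⟪η, η⟫_ℂ).re = n ^ 2 := inner_self_eq_norm_sq (𝕜 := ℂ) η
    have ha' : ‖a‖ ≤ n / 4 := hz1.trans (min_le_left _ _)
    have hb' : ‖b‖ ≤ n / 4 := hz3.trans (min_le_left _ _)
    nlinarith [norm_nonneg a, norm_nonneg b,
      mul_le_mul ha' hb' (norm_nonneg b) (by linarith : (0 : ℝ) ≤ n / 4)]
  rw [DenseRange, ← LinearMap.coe_range, dense_iff_closure_eq,
    ← Submodule.topologicalClosure_coe, Submodule.topologicalClosure_eq_top_iff.2 hbot]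
  rfl

end Vale.Agent.P132.Homog
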