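import Vale.Agent.P132.Homog.Std
import Vale.Agent.P132.Modular.Exports

/-!
# The facts used by Homog from modular theory
-/

namespace Vale.Agent.P132.Homog

open scoped InnerProductSpace Topology ComplexOrder
open Filter

theorem stmtStd.{v} (hMod : Iface.StmtModular.{v}) : StmtStd.{v} := by
  intro H _ _ _ M Ω hΩ
  obtain ⟨D⟩ := hMod H M Ω hΩ
  exact ⟨{
    J := D.J
    J_add := D.J_add
    J_smul := D.J_smul
    J_invol := D.J_invol
    J_inner := D.J_inner
    J_omega := D.J_omega
    J_comm := D.J_comm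
    onto := fun x' hx' => Modular.commutant_onto D hΩ hx'
    real := fun y hy => (Complex.le_def.1 (Modular.inner_nonneg D hy)).2.symm
    pos := fun y hy h0 => (Complex.lt_def.1 (Modular.pos_inner D hΩ hy h0)).1 }⟩

theorem stmtMax.{v} (hMod : Iface.StmtModular.{v}) : StmtMax.{v} := by
  intro H _ _ _ M Ω hΩ η θ h e he
  obtain ⟨D⟩ := hMod H M Ω hΩ
  exact Modular.maximal D hΩ h he

end Vale.Agent.P132.Homog
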