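import Vale.Agent.P132.Homog.Polar

/-!
# An almost centralizing projection under a partial isometry of given ratio

For `h = w* w + w w*` the spectral projection `R` of `[b, ∞)`, `b` in `[1/100, 2/100]` suitably
chosen, almost commutes with `ζ`, and `R w R` keeps most of `w ζ`.
-/

namespace Vale.Agent.P132.Homog

open scoped InnerProductSpace Topology ComplexOrder
open Filter Vale.Agent.P078.General

universe u

variable {H : Type u} [NormedAddCommGroup H] [InnerProductSpace ℂ H] [CompleteSpace H]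
variable {M : VonNeumannAlgebra H} {Ω : H}

theorem norm_pi_le {w : H →L[ℂ] H} (hw : w * (star w * w) = w) (u : H) : ‖w u‖ ≤ ‖u‖ := by
  rw [norm_pi_apply hw]
  exact norm_proj_le ⟨by rw [IsIdempotentElem, mul_assoc, hw], IsSelfAdjoint.star_mul_self w⟩ u

theorem star_pi_eq {w : H →L[ℂ] H} (hw : w * (star w * w) = w) :
    star w * (star (star w) * star w) = star w := by
  have h := congrArg star hw
  rw [star_mul, star_mul, star_star, mul_assoc] at h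
  rwa [star_star]

variable (D : StdData M Ω)

/-- `w* w` and `w w*` almost commute with `ζ`. -/
theorem norm_tgt_src_sub_le {ζ : H} (hζ : D.J ζ = ζ) {c : ℝ} (hc : 0 < c) {w : H →L[ℂ] H}
    (hw : w ∈ M) (hp : w * (star w * w) = w) :
    ‖(star w * w) ζ - D.R (star w * w) ζ‖ ≤ 2 * ‖w ζ - (c : ℂ) • D.R w ζ‖ ∧
      c * ‖(w * star w) ζ - D.R (w * star w) ζ‖ ≤ 2 * ‖w ζ - (c : ℂ) • D.R w ζ‖ := by
  set E := w ζ - (c : ℂ) • D.R w ζ with hE
  have hsw : star w ∈ M := star_mem hw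
  have hJ : D.J E = D.R (star w) ζ - (c : ℂ) • star w ζ := by
    rw [hE, D.J_sub, D.J_smul, D.J_left, D.J_R, hζ, Complex.conj_ofReal]
  have hJn : ‖D.R (star w) ζ - (c : ℂ) • star w ζ‖ = ‖E‖ := by rw [← hJ, D.norm_J]
  have hl : ∀ u, ‖w u‖ ≤ ‖u‖ := norm_pi_le hp
  have hl' : ∀ u, ‖star w u‖ ≤ ‖u‖ := norm_pi_le (star_pi_eq hp)
  have hR : ∀ u, ‖D.R w u‖ ≤ ‖u‖ := fun u => by
    rw [D.R_apply, D.norm_J]; exact (hl' _).trans_eq (D.norm_J u)
  have hR' : ∀ u, ‖D.R (star w) u‖ ≤ ‖u‖ := fun u => by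
    rw [D.R_apply, D.norm_J, star_star]; exact (hl _).trans_eq (D.norm_J u)
  constructor
  · have e : (star w * w) ζ - D.R (star w * w) ζ =
        star w E - D.R w (D.R (star w) ζ - (c : ℂ) • star w ζ) := by
      rw [hE, map_sub, map_sub, map_smul, map_smul, mul_apply_eq_comp, D.R_R,
        D.R_comm hsw hw]
      abel
    rw [e]
    refine (norm_sub_le _ _).trans ?_
    linarith [hl' E, (hR _).trans_eq hJn]
  · have e : (c : ℂ) • ((w * star w) ζ - D.R (w * star w) ζ) =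
        D.R (star w) E - w (D.R (star w) ζ - (c : ℂ) • star w ζ) := by
      rw [hE, map_sub, map_sub, map_smul, map_smul, mul_apply_eq_comp, D.R_R,
        D.R_comm hw hsw, smul_sub]
      abel
    have h := congrArg norm e
    rw [norm_smul, Complex.norm_real, Real.norm_of_nonneg hc.le] at h
    rw [h]
    refine (norm_sub_le _ _).trans ?_
    linarith [hR' E, (hl _).trans_eq hJn]

/-- A level of `h` in the window `[1/100, 2/100]` that almost commutes with `ζ`. -/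
theorem exists_window {h : H →L[ℂ] H} (hhM : h ∈ M) (hh0 : 0 ≤ h) {ζ : H} (hζ : D.J ζ = ζ) {ρ : ℝ} (hρ : 0 < ρ) :
    ∃ P ∈ M, IsStarProjection P ∧ (∀ b, h * b = h → P * b = P) ∧
      ‖P ζ - D.R P ζ‖ ^ 2 ≤ 10000 *
        ((‖h ζ - D.R h ζ‖ + ρ) ^ 2 + 4 * (‖h ζ‖ + ρ) * (‖h ζ - D.R h ζ‖ + ρ)) ∧
      (∀ u, ‖h (u - P u)‖ ≤ 3 / 100 * ‖u‖) ∧ ‖P ζ‖ ≤ 100 * (‖h ζ‖ + ρ) := by
  set δ := min (1 / 1000) (ρ / (4 * (‖ζ‖ + 1))) with hδdef
  have hδ : 0 < δ := lt_min (by norm_num) (by positivity)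
  have hδ1 : δ ≤ 1 / 1000 := min_le_left _ _
  have hδ2 : 4 * δ * ‖ζ‖ ≤ ρ := by
    have : δ * (4 * (‖ζ‖ + 1)) ≤ ρ := (le_div_iff₀ (by positivity)).1 (min_le_right _ _)
    linarith
  obtain ⟨n, e, Cp, g, he, heo, hsum, hCp, -, hCn, hEn, -, -, -, -, hghE⟩ :=
    exists_grid M hhM hh0 hδ
  have hes : ∀ b, h * b = h → ∀ i, e i * b = e i := fun b hb i => by
    conv_lhs => rw [← hghE i, mul_assoc g, ← (he i).2.2.eq, mul_assoc, mul_assoc, hb]
    rw [(he i).2.2.eq, ← mul_assoc, hghE i]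
  have hfam : IsFam M e := ⟨fun i => (he i).1, fun i => by
      rw [(he i).2.1.isSelfAdjoint.star_eq, (he i).2.1.isIdempotentElem.eq,
        (he i).2.1.isIdempotentElem.eq],
    fun i j hij => by rw [(he i).2.1.isSelfAdjoint.star_eq, heo i j hij],
    fun i j hij => by rw [(he j).2.1.isSelfAdjoint.star_eq, heo i j hij]⟩
  set X := ∑ i : Fin n, (((i : ℕ) + 1 : ℝ) : ℂ) • e i with hX
  have hord : ∀ (f : Fin n → H →L[ℂ] H), (∀ i, f i = e i ∨ f i = 0) → ∀ (t : Fin n → ℂ) u,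
      ‖∑ i, t i • f i u‖ ^ 2 = ∑ i, ‖t i • f i u‖ ^ 2 := fun f hf t u =>
    norm_sq_sum_of_orth _ _ (fun i _ j _ hij => by
      have h0 : ⟪f i u, f j u⟫_ℂ = 0 := by
        rcases hf i with h1 | h1 <;> rcases hf j with h2 | h2 <;> rw [h1, h2] <;>
          try simp
        rw [inner_proj (he i).2.1, ← mul_apply_eq_comp, heo i j hij]; simp
      rw [inner_smul_left, inner_smul_right, h0, mul_zero, mul_zero])
  have happ : ∀ u, ‖h u - (δ : ℂ) • X u‖ ≤ 2 * δ * ‖u‖ := by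
    intro u
    have e1 : h u - (δ : ℂ) • X u = h (Cp u) +
        ∑ i, (h (e i u) - ((((i : ℕ) + 1 : ℝ) * δ : ℝ) : ℂ) • e i u) := by
      conv_lhs => arg 1; rw [← one_apply_eq_self (F := H →L[ℂ] H) u, ← hsum]
      simp only [hX, map_add, add_apply, map_sum, sum_apply, smul_apply, Finset.smul_sum,
        smul_smul, Finset.sum_sub_distrib, add_sub_assoc]
      congr 2
      exact Finset.sum_congr rfl fun i _ => by rw [← Complex.ofReal_mul, mul_comm δ]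
    rw [e1]
    refine (norm_add_le _ _).trans ?_
    have h1 : ‖h (Cp u)‖ ≤ δ * ‖u‖ :=
      (hCn u).trans (mul_le_mul_of_nonneg_left (norm_proj_le hCp u) hδ.le)
    have h2 : ‖∑ i, (h (e i u) - ((((i : ℕ) + 1 : ℝ) * δ : ℝ) : ℂ) • e i u)‖ ≤ δ * ‖u‖ := by
      refine le_of_pow_le_pow_left₀ two_ne_zero (by positivity) ?_
      rw [norm_sq_sum_of_orth _ _ (fun i _ j _ hij => ?_), mul_pow]
      · refine le_trans (Finset.sum_le_sum fun i _ =>
          pow_le_pow_left₀ (norm_nonneg _) (hEn i u) 2) ?_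
        simp only [mul_pow, ← Finset.mul_sum]
        exact mul_le_mul_of_nonneg_left (sum_sq_proj_le (fun i => (he i).2.1) heo u) (sq_nonneg δ)
      · have k : ∀ i, ∀ t : ℂ, h (e i u) - t • e i u = e i (h u - t • u) := fun i t => by
          rw [map_sub, map_smul, ← mul_apply_eq_comp h, ← (he i).2.2.eq, mul_apply_eq_comp]
        rw [k, k, inner_proj (he i).2.1, ← mul_apply_eq_comp, heo i j hij]
        simp
    linarith
  have hyn : ‖h - (δ : ℂ) • X‖ ≤ 2 * δ :=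
    (h - (δ : ℂ) • X).opNorm_le_bound (by positivity) fun u => by
      rw [sub_apply, smul_apply]; exact happ u
  have hnu : ∀ v : H, ‖(δ : ℂ) • v‖ = δ * ‖v‖ := fun v => by
    rw [norm_smul, Complex.norm_real, Real.norm_of_nonneg hδ.le]
  have hy1 : ‖D.R (h - (δ : ℂ) • X) ζ‖ ≤ 2 * δ * ‖ζ‖ :=
    (D.norm_R_le _ _).trans (mul_le_mul_of_nonneg_right hyn (norm_nonneg _))
  have hTX : δ * ‖X ζ‖ ≤ ‖h ζ‖ + ρ := by
    rw [← hnu]
    refine (norm_le_insert (h ζ) _).trans ?_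
    linarith [happ ζ, norm_nonneg ζ, mul_nonneg hδ.le (norm_nonneg ζ)]
  have hDX : δ * ‖X ζ - D.R X ζ‖ ≤ ‖h ζ - D.R h ζ‖ + ρ := by
    rw [← hnu]
    have e1 : (δ : ℂ) • (X ζ - D.R X ζ) = (h ζ - D.R h ζ) - (h ζ - (δ : ℂ) • X ζ) +
        D.R (h - (δ : ℂ) • X) ζ := by
      rw [D.R_sub, D.R_smul, sub_apply, smul_apply, smul_sub]; abel
    rw [e1]
    refine (norm_add_le _ _).trans ?_
    linarith [norm_sub_le (h ζ - D.R h ζ) (h ζ - (δ : ℂ) • X ζ), happ ζ]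
  -- the window
  set K := ⌈1 / (100 * δ)⌉₊ with hK
  have hK1 : 1 / (100 * δ) ≤ K := Nat.le_ceil _
  have hK2 : (K : ℝ) < 1 / (100 * δ) + 1 := Nat.ceil_lt_add_one (by positivity)
  have hK0 : 0 < K := Nat.ceil_pos.2 (by positivity)
  have hKδ : 1 / 100 ≤ K * δ := by
    calc (1 / 100 : ℝ) = 1 / (100 * δ) * δ := by field_simp
      _ ≤ K * δ := mul_le_mul_of_nonneg_right hK1 hδ.le
  have hKδ2 : K * δ ≤ 1 / 100 + δ := by
    calc (K : ℝ) * δ ≤ (1 / (100 * δ) + 1) * δ := mul_le_mul_of_nonneg_right hK2.le hδ.le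
      _ = 1 / 100 + δ := by field_simp
  set v := fun k : ℕ => ∑ i : Fin n, if k ≤ (i : ℕ) then e i else 0 with hv
  obtain ⟨hlev, -⟩ := level D hfam hζ zero_le_one (c := 1)
  simp only [Complex.ofReal_one, one_smul] at hlev
  obtain ⟨k, hk, hkle⟩ : ∃ k ∈ Finset.Ico K (2 * K), 3 * (K : ℝ) ^ 2 * ‖v k ζ - D.R (v k) ζ‖ ^ 2 ≤
      ‖X ζ - D.R X ζ‖ ^ 2 + 4 * ‖X ζ‖ * ‖X ζ - D.R X ζ‖ := by
    by_contra hcon
    simp only [not_exists, not_and, not_le] at hcon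
    have hsum3 : ∑ k ∈ Finset.Ico K (2 * K), (2 * k + 1 : ℝ) = 3 * (K : ℝ) ^ 2 := by
      have h1 : ∀ m : ℕ, ∑ k ∈ Finset.range m, (2 * k + 1 : ℝ) = (m : ℝ) ^ 2 := by
        intro m
        induction m with
        | zero => simp
        | succ m ih => rw [Finset.sum_range_succ, ih]; push_cast; ring
      rw [Finset.sum_Ico_eq_sub _ (by omega), h1, h1]; push_cast; ring
    set L := ‖X ζ - D.R X ζ‖ ^ 2 + 4 * ‖X ζ‖ * ‖X ζ - D.R X ζ‖ with hL
    have h1 : L * (3 * (K : ℝ) ^ 2) < 3 * (K : ℝ) ^ 2 *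
        ∑ k ∈ Finset.Ico K (2 * K), (2 * k + 1 : ℝ) * ‖v k ζ - D.R (v k) ζ‖ ^ 2 := by
      rw [← hsum3, Finset.mul_sum, Finset.mul_sum]
      refine Finset.sum_lt_sum_of_nonempty (Finset.nonempty_Ico.2 (by omega)) fun k hk => ?_
      have := mul_lt_mul_of_pos_left (hcon k hk) (by positivity : (0 : ℝ) < 2 * k + 1)
      rw [hsum3]
      linarith
    have h2 : ∑ k ∈ Finset.Ico K (2 * K), (2 * k + 1 : ℝ) * ‖v k ζ - D.R (v k) ζ‖ ^ 2 ≤ L := by
      refine le_trans ?_ hlev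
      rw [← Finset.sum_filter_add_sum_filter_not (Finset.Ico K (2 * K)) (· < n)]
      rw [Finset.sum_eq_zero (s := (Finset.Ico K (2 * K)).filter fun k => ¬ k < n) fun k hk => by
        have hz : v k = 0 := Finset.sum_eq_zero fun i _ => if_neg (by
          have := (Finset.mem_filter.1 hk).2; have := i.2; omega)
        simp [hz, D.R_zero], add_zero]
      exact Finset.sum_le_sum_of_subset_of_nonneg (fun k hk =>
        Finset.mem_range.2 (Finset.mem_filter.1 hk).2) fun _ _ _ => by positivity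
    nlinarith [mul_le_mul_of_nonneg_left h2 (by positivity : (0 : ℝ) ≤ 3 * (K : ℝ) ^ 2)]
  rw [Finset.mem_Ico] at hk
  set P := v k with hP
  have hkP : ∀ i : Fin n, (if k ≤ (i : ℕ) then e i else 0) = e i ∨
      (if k ≤ (i : ℕ) then e i else 0) = 0 := fun i => by split <;> simp
  have hPp : IsStarProjection P := ⟨by
    rw [IsIdempotentElem, hP, hv, Finset.sum_mul]
    refine Finset.sum_congr rfl fun i _ => ?_
    rw [Finset.mul_sum, Finset.sum_eq_single i (fun j _ hj => by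
      split_ifs <;> simp [heo i j (Ne.symm hj)]) (fun h => absurd (Finset.mem_univ i) h)]
    split_ifs <;> simp [(he i).2.1.isIdempotentElem.eq],
    isSelfAdjoint_sum _ fun i _ => by
      split_ifs
      · exact (he i).2.1.isSelfAdjoint
      · exact IsSelfAdjoint.zero _⟩
  have hPM : P ∈ M := sum_mem fun i _ => by
    split_ifs
    · exact (he i).1
    · exact zero_mem M
  have hPb : ∀ b, h * b = h → P * b = P := fun b hb => by
    rw [hP, hv, Finset.sum_mul]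
    exact Finset.sum_congr rfl fun i _ => by split_ifs <;> simp [hes b hb]
  refine ⟨P, hPM, hPp, hPb, ?_, ?_, ?_⟩
  · have h1 : 3 * (1 / 100 : ℝ) ^ 2 * ‖P ζ - D.R P ζ‖ ^ 2 ≤
        (‖h ζ - D.R h ζ‖ + ρ) ^ 2 + 4 * (‖h ζ‖ + ρ) * (‖h ζ - D.R h ζ‖ + ρ) := by
      calc 3 * (1 / 100 : ℝ) ^ 2 * ‖P ζ - D.R P ζ‖ ^ 2
          ≤ 3 * (K * δ) ^ 2 * ‖P ζ - D.R P ζ‖ ^ 2 := by gcongr
        _ = δ ^ 2 * (3 * (K : ℝ) ^ 2 * ‖P ζ - D.R P ζ‖ ^ 2) := by ring
        _ ≤ δ ^ 2 * (‖X ζ - D.R X ζ‖ ^ 2 + 4 * ‖X ζ‖ * ‖X ζ - D.R X ζ‖) :=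
          mul_le_mul_of_nonneg_left hkle (sq_nonneg δ)
        _ = (δ * ‖X ζ - D.R X ζ‖) ^ 2 + 4 * (δ * ‖X ζ‖) * (δ * ‖X ζ - D.R X ζ‖) := by ring
        _ ≤ _ := by gcongr
    nlinarith [sq_nonneg ‖P ζ - D.R P ζ‖]
  · intro u
    have h1 : ‖X (u - P u)‖ ≤ (k : ℝ) * ‖u‖ := by
      have e1 : X (u - P u) = ∑ i : Fin n, (((i : ℕ) + 1 : ℝ) : ℂ) •
          (if k ≤ (i : ℕ) then (0 : H →L[ℂ] H) else e i) u := by
        simp only [hX, sum_apply, smul_apply]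
        refine Finset.sum_congr rfl fun i _ => congrArg _ ?_
        rw [map_sub, ← mul_apply_eq_comp, hP, hv, Finset.mul_sum, Finset.sum_eq_single i
          (fun j _ hj => by split_ifs <;> simp [heo i j (Ne.symm hj)])
          (fun h => absurd (Finset.mem_univ i) h)]
        split_ifs <;> simp [(he i).2.1.isIdempotentElem.eq]
      refine le_of_pow_le_pow_left₀ two_ne_zero (by positivity) ?_
      rw [e1, hord _ (fun i => by split <;> simp)]
      refine le_trans (Finset.sum_le_sum fun i _ => ?_)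
        ((Finset.mul_sum _ _ _).symm.trans_le ((mul_le_mul_of_nonneg_left
          (sum_sq_proj_le (fun i => (he i).2.1) heo u) (sq_nonneg (k : ℝ))).trans_eq
            (mul_pow _ _ _).symm))
      split_ifs with hik
      · simp only [zero_apply, smul_zero, norm_zero, zero_pow two_ne_zero]; positivity
      · rw [norm_smul, Complex.norm_real, Real.norm_of_nonneg (by positivity), mul_pow]
        gcongr
        exact_mod_cast Nat.lt_of_not_le hik
    refine (norm_le_insert ((δ : ℂ) • X (u - P u)) _).trans ?_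
    rw [hnu, norm_sub_rev]
    have h2 : δ * (k : ℝ) ≤ δ * (2 * K) := by
      gcongr
      exact_mod_cast hk.2.le
    have h3 : ‖u - P u‖ ≤ ‖u‖ := norm_proj_le hPp.one_sub u
    nlinarith [happ (u - P u), mul_le_mul_of_nonneg_left h1 hδ.le,
      mul_le_mul_of_nonneg_right h2 (norm_nonneg u), norm_nonneg u]
  · have h1 : (K : ℝ) * ‖P ζ‖ ≤ ‖X ζ‖ := by
      refine le_of_pow_le_pow_left₀ two_ne_zero (norm_nonneg _) ?_
      have e1 : P ζ = ∑ i : Fin n, (1 : ℂ) •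
          (if k ≤ (i : ℕ) then e i else (0 : H →L[ℂ] H)) ζ := by
        simp [hP, hv, sum_apply]
      have e2 : X ζ = ∑ i : Fin n, (((i : ℕ) + 1 : ℝ) : ℂ) • e i ζ := by simp [hX, sum_apply]
      rw [mul_pow, e1, e2, hord _ hkP, hord _ (fun i => Or.inl rfl), Finset.mul_sum]
      refine Finset.sum_le_sum fun i _ => ?_
      split_ifs with hik
      · rw [one_smul, norm_smul, Complex.norm_real, Real.norm_of_nonneg (by positivity), mul_pow]
        gcongr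
        have : (K : ℝ) ≤ (i : ℕ) := by exact_mod_cast hk.1.trans hik
        linarith
      · simp only [zero_apply, smul_zero, norm_zero, zero_pow two_ne_zero, mul_zero]; positivity
    calc ‖P ζ‖ = 100 * (1 / 100 * ‖P ζ‖) := by ring
      _ ≤ 100 * (K * δ * ‖P ζ‖) := by gcongr
      _ = 100 * (δ * (K * ‖P ζ‖)) := by ring
      _ ≤ 100 * (‖h ζ‖ + ρ) := mul_le_mul_of_nonneg_left
        ((mul_le_mul_of_nonneg_left h1 hδ.le).trans hTX) (by norm_num)

/-- The corner of `w` under `P` keeps the ratio. -/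
theorem norm_corner_err_le {ζ : H} {c : ℝ} (hc : 0 ≤ c) {w P : H →L[ℂ] H} (hw : w ∈ M)
    (hp : w * (star w * w) = w) (hPM : P ∈ M) (hPp : IsStarProjection P) :
    ‖(P * w * P) ζ - (c : ℂ) • D.R (P * w * P) ζ‖ ≤
      ‖w ζ - (c : ℂ) • D.R w ζ‖ + (1 + c) * ‖P ζ - D.R P ζ‖ := by
  set E := ‖w ζ - (c : ℂ) • D.R w ζ‖ with hE
  set Δ := ‖P ζ - D.R P ζ‖ with hΔ
  have hl : ∀ u, ‖w u‖ ≤ ‖u‖ := norm_pi_le hp
  have hPl : ∀ u, ‖P u‖ ≤ ‖u‖ := norm_proj_le hPp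
  have hPR : ∀ u, ‖D.R P u‖ ≤ ‖u‖ := norm_proj_le (D.R_proj hPp)
  have e1 : (P * w * P) ζ - (c : ℂ) • D.R (P * w * P) ζ = P (w (P ζ - D.R P ζ)) +
      D.R P (P (w ζ - (c : ℂ) • D.R w ζ)) + (c : ℂ) • D.R (w * P) (P ζ - D.R P ζ) := by
    have k1 : P (w (D.R P ζ)) = D.R P (P (w ζ)) := by
      rw [D.R_comm hw hPM, D.R_comm hPM hPM]
    have k2 : D.R P (P (D.R w ζ)) = D.R (w * P) (P ζ) := by
      rw [D.R_comm hPM hw, D.R_R]
    simp only [mul_apply_eq_comp, D.R_R, map_sub, map_smul, k1, k2, smul_sub,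
      ← mul_assoc]
    abel
  rw [e1]
  refine norm_add₃_le.trans ?_
  rw [norm_smul, Complex.norm_real, Real.norm_of_nonneg hc]
  have h1 : ‖P (w (P ζ - D.R P ζ))‖ ≤ Δ := (hPl _).trans (hl _)
  have h2 : ‖D.R P (P (w ζ - (c : ℂ) • D.R w ζ))‖ ≤ E := (hPR _).trans (hPl _)
  have h3 : ‖D.R (w * P) (P ζ - D.R P ζ)‖ ≤ Δ := by
    rw [D.R_apply, D.norm_J, star_mul, mul_apply_eq_comp, hPp.isSelfAdjoint.star_eq]
    exact (hPl _).trans ((norm_pi_le (star_pi_eq hp) _).trans_eq (D.norm_J _))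
  nlinarith

/-- The corner of `w` under `P` keeps its mass. -/
theorem le_norm_corner {ζ : H} (hζ : D.J ζ = ζ) {c : ℝ} (hc : 0 < c) {w P : H →L[ℂ] H}
    (hw : w ∈ M) (hp : w * (star w * w) = w) (hPM : P ∈ M) (hPp : IsStarProjection P)
    (hout : ∀ u, ‖(star w * w + w * star w) (u - P u)‖ ≤ 3 / 100 * ‖u‖) :
    3 / 5 * ‖w ζ‖ - ‖P ζ - D.R P ζ‖ - 2 * ‖w ζ - (c : ℂ) • D.R w ζ‖ ≤ ‖(P * w * P) ζ‖ := by
  set h := star w * w + w * star w with hh
  set T := ‖w ζ‖ with hT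
  set E := ‖w ζ - (c : ℂ) • D.R w ζ‖ with hE
  set Δ := ‖P ζ - D.R P ζ‖ with hΔ
  have hl : ∀ u, ‖w u‖ ≤ ‖u‖ := norm_pi_le hp
  have hPl : ∀ u, ‖P u‖ ≤ ‖u‖ := norm_proj_le hPp
  have hpp : IsStarProjection (star w * w) :=
    ⟨by rw [IsIdempotentElem, mul_assoc, hp], IsSelfAdjoint.star_mul_self w⟩
  have hp' := star_pi_eq hp
  have hqq : IsStarProjection (w * star w) :=
    ⟨by rw [IsIdempotentElem, mul_assoc]; rw [star_star] at hp'; rw [hp'],
      IsSelfAdjoint.mul_star_self w⟩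
  have hcT : c * ‖star w ζ‖ ≤ T + E := by
    have e : ‖D.R w ζ‖ = ‖star w ζ‖ := by rw [D.R_apply, D.norm_J, hζ]
    rw [← e]
    have h3 := norm_le_insert (w ζ) ((c : ℂ) • D.R w ζ)
    rw [norm_smul, Complex.norm_real, Real.norm_of_nonneg hc.le] at h3
    linarith
  have hnu2 : ∀ {q : H →L[ℂ] H}, q * (star q * q) = q →
      (∀ u, (⟪(star q * q) u, u⟫_ℂ).re ≤ (⟪h u, u⟫_ℂ).re) →
      ∀ u, ‖q (u - P u)‖ ≤ ‖u‖ / 5 := by
    intro q hq hqh u
    refine le_of_pow_le_pow_left₀ two_ne_zero (by positivity) ?_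
    rw [norm_pi_apply hq, star_proj_apply_norm_sq ⟨by rw [IsIdempotentElem, mul_assoc, hq],
      IsSelfAdjoint.star_mul_self q⟩]
    refine (hqh _).trans ?_
    have h3 : ‖u - P u‖ ≤ ‖u‖ := norm_proj_le hPp.one_sub u
    have := (Complex.re_le_norm ⟪h (u - P u), u - P u⟫_ℂ).trans (norm_inner_le_norm _ _)
    nlinarith [mul_le_mul (hout u) h3 (norm_nonneg _) (by positivity), norm_nonneg u]
  have hq1 : ∀ u, ‖w (u - P u)‖ ≤ ‖u‖ / 5 := hnu2 hp fun u => by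
    rw [hh, add_apply, inner_add_left, Complex.add_re, le_add_iff_nonneg_right,
      ← star_proj_apply_norm_sq hqq]
    positivity
  have hq2 : ∀ u, ‖star w (u - P u)‖ ≤ ‖u‖ / 5 := hnu2 hp' fun u => by
    rw [star_star, hh, add_apply, inner_add_left, Complex.add_re, le_add_iff_nonneg_left,
      ← star_proj_apply_norm_sq hpp]
    positivity
  -- adjoints of the two bounds
  have hadj : ∀ {q : H →L[ℂ] H}, (∀ u, ‖star q (u - P u)‖ ≤ ‖u‖ / 5) →
      ∀ u, ‖q u - P (q u)‖ ≤ ‖u‖ / 5 := by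
    intro q hq u
    have h1 : ‖star q * (1 - P)‖ ≤ 1 / 5 :=
      (star q * (1 - P)).opNorm_le_bound (by norm_num) fun u => by
        rw [mul_apply_eq_comp, sub_apply, one_apply_eq_self]; linarith [hq u]
    rw [← norm_star, star_mul, star_star, hPp.one_sub.isSelfAdjoint.star_eq] at h1
    have := ContinuousLinearMap.le_of_opNorm_le _ h1 u
    rw [mul_apply_eq_comp, sub_apply, one_apply_eq_self] at this
    linarith
  have h1 : ‖w ζ - P (w ζ)‖ ≤ T / 5 := by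
    have e1 : w ζ = w ((star w * w) ζ) := by rw [← mul_apply_eq_comp w, hp]
    rw [e1]
    refine (hadj hq2 _).trans ?_
    rw [← norm_pi_apply hp]
  have h2 : ‖w (ζ - P ζ)‖ ≤ Δ + E + (T + E) / 5 := by
    have e1 : w (ζ - P ζ) = -w (P ζ - D.R P ζ) + (D.R (1 - P) (w ζ - (c : ℂ) • D.R w ζ) +
        (c : ℂ) • D.R (w * (1 - P)) ζ) := by
      have k1 : w (D.R P ζ) = D.R P (w ζ) := D.R_comm hw hPM ζ
      simp only [D.R_sub, D.R_one, map_sub, map_smul, sub_apply, one_apply_eq_self, D.R_R, k1,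
        mul_sub, mul_one, smul_sub]
      abel
    rw [e1]
    refine (norm_add_le _ _).trans ?_
    rw [norm_neg]
    refine (add_le_add (hl _) (norm_add_le _ _)).trans ?_
    rw [norm_smul, Complex.norm_real, Real.norm_of_nonneg hc.le]
    have h3 : ‖D.R (1 - P) (w ζ - (c : ℂ) • D.R w ζ)‖ ≤ E :=
      norm_proj_le (D.R_proj hPp.one_sub) _
    have h4 : ‖D.R (w * (1 - P)) ζ‖ ≤ ‖star w ζ‖ / 5 := by
      rw [D.R_apply, D.norm_J, hζ, star_mul, hPp.one_sub.isSelfAdjoint.star_eq,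
        mul_apply_eq_comp, sub_apply, one_apply_eq_self]
      have e2 : star w ζ = star w ((w * star w) ζ) := by
        rw [← mul_apply_eq_comp (star w)]
        rw [star_star] at hp'
        rw [hp']
      conv_lhs => rw [e2]
      refine (hadj (q := star w) (by rw [star_star]; exact hq1) _).trans ?_
      rw [norm_pi_apply hp', star_star]
    nlinarith
  have e1 : w ζ = (P * w * P) ζ + P (w (ζ - P ζ)) + (w ζ - P (w ζ)) := by
    simp only [mul_apply_eq_comp, map_sub]; abel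
  have h5 : T ≤ ‖(P * w * P) ζ‖ + ‖w (ζ - P ζ)‖ + ‖w ζ - P (w ζ)‖ := by
    rw [hT]
    nth_rewrite 1 [e1]
    exact norm_add₃_le.trans (by linarith [hPl (w (ζ - P ζ))])
  linarith [norm_nonneg (w ζ - (c : ℂ) • D.R w ζ)]

theorem window_alg {t d A B T r : ℝ} (hd0 : 0 ≤ d) (ht : t ≤ A * T)
    (hd : d ≤ B * (r ^ 2 * T)) (hA : 0 ≤ A) (hB : 0 ≤ B) (hT : 0 ≤ T) (hr : 0 ≤ r) (hr1 : r ≤ 1) :
    10000 * (d ^ 2 + 4 * t * d) ≤ (100 * (B + 4 * A) * r * T) ^ 2 := by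
  have h1 : r ^ 2 * T ≤ r * T := mul_le_mul_of_nonneg_right (by nlinarith) hT
  have h2 : d ^ 2 ≤ (B * (r * T)) ^ 2 :=
    pow_le_pow_left₀ hd0 (hd.trans (mul_le_mul_of_nonneg_left h1 hB)) 2
  have h3 : t * d ≤ A * T * (B * (r ^ 2 * T)) := mul_le_mul ht hd hd0 (by positivity)
  nlinarith [mul_nonneg (mul_nonneg hA hB) (sq_nonneg (r * T)),
    mul_nonneg (sq_nonneg A) (sq_nonneg (r * T))]

theorem src_tgt_facts {ζ : H} (hζ : D.J ζ = ζ) {c : ℝ} (hc : 0 < c) {s w : H →L[ℂ] H}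
    (hs : IsStarProjection s) (hw : w ∈ M) (hp : w * (star w * w) = w) (hsw : s * w = w)
    (hws : w * s = w) (hE : ‖w ζ - (c : ℂ) • D.R w ζ‖ ≤ ‖w ζ‖) :
    let h := star w * w + w * star w
    h ∈ M ∧ 0 ≤ h ∧ h * s = h ∧ ‖h ζ‖ ≤ ‖w ζ‖ * (1 + 2 / c) ∧
      ‖h ζ - D.R h ζ‖ ≤ (2 + 2 / c) * ‖w ζ - (c : ℂ) • D.R w ζ‖ := by
  intro h
  set E := ‖w ζ - (c : ℂ) • D.R w ζ‖ with hEdef
  set T := ‖w ζ‖ with hT
  have hp' := star_pi_eq hp
  have hsM : star w ∈ M := star_mem hw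
  have hh : h = star w * w + w * star w := rfl
  have hsss : star s = s := hs.isSelfAdjoint.star_eq
  have hsw' : star w * s = star w := by
    have := congrArg star hsw
    rwa [star_mul, hsss] at this
  have hcT : c * ‖star w ζ‖ ≤ T + E := by
    have e : ‖D.R w ζ‖ = ‖star w ζ‖ := by rw [D.R_apply, D.norm_J, hζ]
    rw [← e]
    have h3 := norm_le_insert (w ζ) ((c : ℂ) • D.R w ζ)
    rw [norm_smul, Complex.norm_real, Real.norm_of_nonneg hc.le] at h3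
    linarith
  have hQ : ‖(w * star w) ζ‖ ≤ 2 / c * T := by
    have e : ‖star w ζ‖ = ‖(w * star w) ζ‖ := by
      rw [norm_pi_apply hp', star_star]
    rw [← e, div_mul_eq_mul_div, le_div_iff₀ hc]
    linarith
  obtain ⟨hP1, hP2⟩ := norm_tgt_src_sub_le D hζ hc hw hp
  refine ⟨add_mem (mul_mem hsM hw) (mul_mem hw hsM),
    add_nonneg (star_mul_self_nonneg w) (mul_star_self_nonneg w),
    by rw [hh, add_mul, mul_assoc, hws, mul_assoc, hsw'], ?_, ?_⟩
  · rw [hh, add_apply]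
    refine (norm_add_le _ _).trans ?_
    rw [← norm_pi_apply hp]
    linarith
  · have e : h ζ - D.R h ζ = ((star w * w) ζ - D.R (star w * w) ζ) +
        ((w * star w) ζ - D.R (w * star w) ζ) := by
      rw [hh, D.R_add, add_apply, add_apply]; abel
    rw [e]
    refine (norm_add_le _ _).trans ?_
    have : ‖(w * star w) ζ - D.R (w * star w) ζ‖ ≤ 2 / c * E := by
      rw [div_mul_eq_mul_div, le_div_iff₀ hc]; linarith
    linarith

/-- The almost centralizing level of `w* w + w w*`. -/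
theorem exists_rproj {c : ℝ} (hc : 0 < c) : ∃ C : ℝ, 0 < C ∧ ∀ (ζ : H), D.J ζ = ζ →
    ∀ (s w : H →L[ℂ] H), IsStarProjection s → w ∈ M → w * (star w * w) = w → s * w = w →
    w * s = w → w ζ ≠ 0 → ∀ r : ℝ, 0 < r → C * r ≤ 1 →
    ‖w ζ - (c : ℂ) • D.R w ζ‖ ≤ r ^ 2 * ‖w ζ‖ →
      ∃ P ∈ M, IsStarProjection P ∧ s * P = P ∧ ∃ x ∈ M, P * x = x ∧ x * P = x ∧
        (∀ u, ‖x u‖ ≤ ‖u‖) ∧ ‖P ζ - D.R P ζ‖ ≤ C * r * ‖w ζ‖ ∧
        ‖x ζ - (c : ℂ) • D.R x ζ‖ ≤ C * r * ‖w ζ‖ ∧ ‖w ζ‖ / 2 ≤ ‖x ζ‖ ∧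
        ‖P ζ‖ ≤ C * ‖w ζ‖ := by
  set A := 2 + 2 / c with hA
  set B := 3 + 2 / c with hB
  set C0 := 100 * (B + 4 * A) with hC0
  have hA0 : 0 < A := by rw [hA]; positivity
  have hB0 : 0 < B := by rw [hB]; positivity
  have hC00 : 0 < C0 := by rw [hC0]; positivity
  refine ⟨max (max (1 + (1 + c) * C0) (100 * A)) (10 * (C0 + 2)), lt_max_of_lt_right (by
    positivity), ?_⟩
  intro ζ hζ s w hs hw hp hsw hws hwζ r hr hCr hE
  set C := max (max (1 + (1 + c) * C0) (100 * A)) (10 * (C0 + 2))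
  have hC1 : 1 + (1 + c) * C0 ≤ C := (le_max_left _ _).trans (le_max_left _ _)
  have hC2 : 100 * A ≤ C := (le_max_right _ _).trans (le_max_left _ _)
  have hC3 : 10 * (C0 + 2) ≤ C := le_max_right _ _
  have hr10 : 10 * (C0 + 2) * r ≤ 1 := (mul_le_mul_of_nonneg_right hC3 hr.le).trans hCr
  have hr1 : r ≤ 1 := by nlinarith [mul_pos hC00 hr]
  set T := ‖w ζ‖ with hT
  have hT0 : 0 < T := norm_pos_iff.2 hwζ
  obtain ⟨hhM, hh0, hhs, hhζ, hhd⟩ := src_tgt_facts D hζ hc hs hw hp hsw hws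
    (hE.trans (mul_le_of_le_one_left hT0.le (by nlinarith)))
  have hEr : ‖w ζ - (c : ℂ) • D.R w ζ‖ ≤ r * T :=
    hE.trans (mul_le_mul_of_nonneg_right (by nlinarith) hT0.le)
  set h := star w * w + w * star w with hh
  set E := ‖w ζ - (c : ℂ) • D.R w ζ‖
  have hsss : star s = s := hs.isSelfAdjoint.star_eq
  set ρ := r ^ 2 * T
  have hρ : 0 < ρ := by positivity
  obtain ⟨P, hPM, hPp, hPb, hΔ2, hout, hPζ⟩ := exists_window D hhM hh0 hζ hρ
  have hPs : s * P = P := by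
    have h2 := congrArg star (hPb s hhs)
    rwa [star_mul, hsss, hPp.isSelfAdjoint.star_eq] at h2
  set Δ := ‖P ζ - D.R P ζ‖
  set x := P * w * P with hx
  have hd : ‖h ζ - D.R h ζ‖ + ρ ≤ B * (r ^ 2 * T) := by
    have := mul_le_mul_of_nonneg_left hE (by positivity : (0 : ℝ) ≤ 2 + 2 / c)
    rw [hB]
    linarith
  have ht : ‖h ζ‖ + ρ ≤ A * T := by
    have : r ^ 2 * T ≤ T := mul_le_of_le_one_left hT0.le (by nlinarith)
    rw [hA]
    linarith
  have hΔle : Δ ≤ C0 * r * T := by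
    refine le_of_pow_le_pow_left₀ two_ne_zero (by positivity) (hΔ2.trans ?_)
    exact window_alg (add_nonneg (norm_nonneg _) hρ.le) ht hd
      hA0.le hB0.le hT0.le hr.le hr1
  have hxu : ∀ u, ‖x u‖ ≤ ‖u‖ := fun u =>
    (norm_proj_le hPp _).trans ((norm_pi_le hp _).trans (norm_proj_le hPp u))
  have hC0C : C0 ≤ C := by nlinarith
  refine ⟨P, hPM, hPp, hPs, x, mul_mem (mul_mem hPM hw) hPM, ?_, ?_, hxu, ?_, ?_, ?_, ?_⟩
  · simp only [hx, ← mul_assoc, hPp.isIdempotentElem.eq]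
  · rw [hx, mul_assoc, hPp.isIdempotentElem.eq]
  · exact hΔle.trans (mul_le_mul_of_nonneg_right
      (mul_le_mul_of_nonneg_right hC0C hr.le) hT0.le)
  · refine (norm_corner_err_le D hc.le hw hp hPM hPp).trans ?_
    linarith [mul_le_mul_of_nonneg_right hC1 (mul_pos hr hT0).le,
      mul_le_mul_of_nonneg_left hΔle (by linarith : (0 : ℝ) ≤ 1 + c)]
  · refine le_trans ?_ (le_norm_corner D hζ hc hw hp hPM hPp hout)
    linarith [mul_le_mul_of_nonneg_right hr10 hT0.le]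
  · calc ‖P ζ‖ ≤ 100 * (A * T) := hPζ.trans (by linarith)
      _ ≤ C * T := by rw [← mul_assoc]; exact mul_le_mul_of_nonneg_right hC2 hT0.le

end Vale.Agent.P132.Homog
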