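import Vale.Agent.P132.Homog.Greedy

/-!
# The two local steps
-/

namespace Vale.Agent.P132.Homog

open scoped InnerProductSpace Topology ComplexOrder
open Filter

/-- A given ratio inside a corner, with a lower bound for the mass that only depends on it. -/
def StmtCorner.{v} : Prop :=
  ∀ (H : Type v) [NormedAddCommGroup H] [InnerProductSpace ℂ H] [CompleteSpace H]
    (M : VonNeumannAlgebra H) (Ω : H) (D : StdData M Ω),
    IsCS M Ω → IsTypeIII M → HasFullSpectrum M → ∀ c : ℝ, 0 < c → ∃ κ : ℝ, 0 < κ ∧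
      ∀ s ∈ M, IsStarProjection s → s ≠ 0 → ∀ ε : ℝ, 0 < ε →
        ∃ x ∈ M, s * x = x ∧ x * s = x ∧ (∀ u, ‖x u‖ ≤ ‖u‖) ∧
          ‖s (D.R s (gap D c x))‖ ≤ ε * ‖s (D.R s Ω)‖ ∧
          κ * ‖s (D.R s Ω)‖ ≤ ‖D.R s (x Ω)‖

/-- A partial isometry of ratio one with small leaks between two orthogonal corners. -/
def StmtLocal.{v} : Prop :=
  ∀ (H : Type v) [NormedAddCommGroup H] [InnerProductSpace ℂ H] [CompleteSpace H]
    (M : VonNeumannAlgebra H) (Ω : H) (D : StdData M Ω),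
    IsCS M Ω → IsTypeIII M → HasFullSpectrum M → ∀ t ∈ M, ∀ u ∈ M, IsStarProjection t →
      IsStarProjection u → t * u = 0 → t ≠ 0 → u ≠ 0 → ∀ K ε : ℝ, 0 ≤ K → 0 < ε →
        ∃ W : Tri H, IsTri M t u W ∧ star W.x * W.x = W.P ∧ W.x * star W.x = W.Q ∧
          0 < size D W ∧ cost D 1 K t u W < ε * gain D W ∧
          1 / 4 * (size D W + cost D 1 K t u W) < gain D W

end Vale.Agent.P132.Homog
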