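import Vale.Agent.P132.Homog.Spectrum
import Vale.Agent.P132.Homog.Rproj
import Vale.Agent.P132.Homog.Steps

/-!
# A given ratio inside a corner

An approximate eigenvector in a corner `t` gives a partial isometry, then a projection `P ≤ t` with
small leak; exhausting `s` by these keeps a fixed part of its mass.
-/

namespace Vale.Agent.P132.Homog

open scoped InnerProductSpace Topology ComplexOrder
open Filter Vale.Agent.P078.General

universe u

variable {H : Type u} [NormedAddCommGroup H] [InnerProductSpace ℂ H] [CompleteSpace H]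
variable {M : VonNeumannAlgebra H} {Ω : H} (D : StdData M Ω)

theorem isBlock_corner {t : H →L[ℂ] H} (htM : t ∈ M) (ht : IsStarProjection t) :
    IsBlock M ![t, 1 - t] where
  mem i := by fin_cases i <;> simp [htM, sub_mem (one_mem M) htM]
  proj i := by fin_cases i <;> simp [ht, ht.one_sub]
  orth i j h := by
    fin_cases i <;> fin_cases j <;> first
      | exact absurd rfl h
      | simp [mul_sub, sub_mul, ht.isIdempotentElem.eq]
  sum_eq := by simp [Fin.sum_univ_two]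

theorem cand_alg {T C K r ε F g S : ℝ} (hT : 0 < T) (hK : 0 ≤ K) (hε : 0 < ε) (hr : 0 ≤ r)
    (hr1 : r ≤ 1) (hrε : r * (17 * (C ^ 2 + 1) * (1 + 2 * K)) ≤ min 1 ε)
    (hF : F ≤ (1 + 2 * K) * (C * r * T) ^ 2) (hg : T ^ 2 / 16 ≤ g) (hS : S ≤ 2 * (C * T) ^ 2) :
    F < ε * g ∧ 1 / (100 * (C ^ 2 + 1)) * (S + F) < g := by
  have hr2 : r ^ 2 ≤ r := by nlinarith
  have h3 : r ^ 2 * (17 * C ^ 2 * (1 + 2 * K)) ≤ r * (17 * (C ^ 2 + 1) * (1 + 2 * K)) :=
    mul_le_mul hr2 (by linarith) (by positivity) hr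
  have h4 := mul_le_mul_of_nonneg_right (h3.trans hrε) (sq_nonneg T)
  have hTT : 0 < T ^ 2 := pow_pos hT 2
  constructor
  · linarith [mul_le_mul_of_nonneg_right (min_le_right (1 : ℝ) ε) hTT.le, mul_pos hε hTT,
      mul_le_mul_of_nonneg_left hg hε.le]
  · have h5 := mul_le_mul_of_nonneg_left hg (by positivity : (0 : ℝ) ≤ 100 * (C ^ 2 + 1))
    rw [one_div, inv_mul_lt_iff₀ (by positivity)]
    linarith [mul_le_mul_of_nonneg_right (min_le_left (1 : ℝ) ε) hTT.le,
      mul_nonneg (sq_nonneg C) hTT.le]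

/-- One candidate in a corner. -/
theorem exists_cand (hMax : StmtMax.{u}) (hΩ : IsCS M Ω) (h3 : IsTypeIII M)
    (hS : HasFullSpectrum M) {c : ℝ} (hc : 0 < c) : ∃ κ : ℝ, 0 < κ ∧
      ∀ t ∈ M, IsStarProjection t → t ≠ 0 → ∀ K ε : ℝ, 0 ≤ K → 0 < ε →
        ∃ W : Tri H, IsTri M t t W ∧ W.P = W.Q ∧ 0 < size D W ∧
          cost D c K t t W < ε * gain D W ∧ κ * (size D W + cost D c K t t W) < gain D W := by
  obtain ⟨C, hC, hR⟩ := exists_rproj D hc
  refine ⟨1 / (100 * (C ^ 2 + 1)), by positivity, fun t htM ht ht0 K ε hK hε => ?_⟩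
  have he := isBlock_corner htM ht
  set ζ := blk D ![t, 1 - t] with hζdef
  have hζ : D.J ζ = ζ := J_blk D he
  have htζ : t ζ = D.R t (t Ω) := left_blk D he 0
  have htζ' : D.R t ζ = D.R t (t Ω) := R_blk D he 0
  set r := min (min 1 (1 / (4 * C))) (min 1 ε / (17 * (C ^ 2 + 1) * (1 + 2 * K))) with hrdef
  have hr : 0 < r := lt_min (lt_min one_pos (by positivity))
    (div_pos (lt_min one_pos hε) (by positivity))
  have hr1 : r ≤ 1 := (min_le_left _ _).trans (min_le_left _ _)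
  have hrC : C * r ≤ 1 / 4 := by
    have : r ≤ 1 / (4 * C) := (min_le_left _ _).trans (min_le_right _ _)
    rw [le_div_iff₀ (by positivity)] at this
    linarith
  have hrε : r * (17 * (C ^ 2 + 1) * (1 + 2 * K)) ≤ min 1 ε :=
    (le_div_iff₀ (by positivity)).1 (min_le_right _ _)
  obtain ⟨x0, hx0M, hx0, hx0ne, hx0e⟩ := exists_eigen D hMax hΩ h3 hS he 0 ht0 hc
    (by positivity : 0 < r ^ 4 / 12)
  change t * x0 * t = x0 at hx0
  have hl0 : t * x0 = x0 := by
    rw [← hx0, ← mul_assoc, ← mul_assoc, ht.isIdempotentElem.eq]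
  have hr0 : x0 * t = x0 := by rw [← hx0, mul_assoc, ht.isIdempotentElem.eq]
  obtain ⟨w, hwM, hwp, htw, hwt, hwne, hwe⟩ := exists_pi D hζ hc.le
    (by positivity : 0 < r ^ 4 / 12) hx0M hl0 hr0 hx0ne hx0e
  have hwle : ‖w ζ - (c : ℂ) • D.R w ζ‖ ≤ r ^ 2 * ‖w ζ‖ := by
    refine le_of_pow_le_pow_left₀ two_ne_zero (by positivity) (hwe.trans ?_)
    rw [mul_pow]
    refine mul_le_mul_of_nonneg_right ?_ (sq_nonneg _)
    nlinarith [pow_le_one₀ hr.le hr1 (n := 4), pow_nonneg hr.le 4]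
  obtain ⟨P, hPM, hP, htP, x, hxM, hPx, hxP, hxb, hΔ, herr, hlow, hPζ⟩ :=
    hR ζ hζ t w ht hwM hwp htw hwt hwne r hr (by linarith) hwle
  set T := ‖w ζ‖
  have hT : 0 < T := norm_pos_iff.2 hwne
  have hPt : P * t = P := proj_le_comm ht hP htP
  have hxt : x * t = x := by rw [← hxP, mul_assoc, hPt]
  have htx : t * x = x := by rw [← hPx, ← mul_assoc, htP]
  have hRt : ∀ y v, t * y = y → D.R y (D.R t v) = D.R y v := fun y v h => by rw [D.R_R, h]
  have hPζ' : P ζ = D.R t (P Ω) := by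
    rw [← hPt, mul_apply_eq_comp, htζ, D.R_comm hPM htM, ← mul_apply_eq_comp P t]
  have hxζ : x ζ = D.R t (x Ω) := by
    rw [← hxt, mul_apply_eq_comp, htζ, D.R_comm hxM htM, ← mul_apply_eq_comp x t]
  have hxζ' : P (D.R x ζ) = P (D.R x Ω) := by
    rw [← hRt x ζ htx, htζ', hRt x _ htx, D.R_comm hPM hxM, ← mul_apply_eq_comp P, hPt,
      D.R_comm hPM hxM]
  have hleak : leak D t P ≤ (C * r * T) ^ 2 := by
    refine pow_le_pow_left₀ (norm_nonneg _) ?_ 2
    have h0 : D.R (t - P) (D.R P ζ) = 0 := by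
      rw [D.R_R, mul_sub, hPt, hP.isIdempotentElem.eq, sub_self, D.R_zero]; simp
    have e : P (D.R (t - P) Ω) = D.R (t - P) (P ζ - D.R P ζ) := by
      rw [map_sub, h0, sub_zero, hPζ', hRt (t - P) _ (by rw [mul_sub, ht.isIdempotentElem.eq, htP]),
        D.R_comm hPM (sub_mem htM hPM)]
    rw [e]
    exact (norm_proj_le (D.R_proj (sub_proj ht hP htP)) _).trans hΔ
  have hdef : P (D.R P (gap D c x)) = P (D.R P (x ζ - (c : ℂ) • D.R x ζ)) := by
    simp only [gap, map_sub, map_smul]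
    rw [hxζ, hRt P _ htP, D.R_comm hPM hPM (D.R x ζ), hxζ', D.R_comm hPM hPM (D.R x Ω)]
  have hmass : mass D P ≤ (C * T) ^ 2 := by
    refine pow_le_pow_left₀ (norm_nonneg _) ?_ 2
    have e : P (D.R P Ω) = D.R P (P ζ) := by rw [hPζ', hRt P _ htP, D.R_comm hPM hPM]
    rw [e]
    exact (norm_proj_le (D.R_proj hP) _).trans hPζ
  have hgain : T / 4 ≤ ‖D.R P (x Ω)‖ := by
    have e : x (P ζ - D.R P ζ) = x ζ - D.R P (x Ω) := by
      rw [map_sub, ← mul_apply_eq_comp x P, hxP, D.R_comm hxM hPM]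
      congr 1
      rw [hxζ, hRt P _ htP]
    have h1 := (hxb (P ζ - D.R P ζ)).trans hΔ
    rw [e] at h1
    nlinarith [norm_sub_norm_le (x ζ) (D.R P (x Ω)), mul_le_mul_of_nonneg_right hrC hT.le]
  refine ⟨⟨P, P, x⟩, ⟨hPM, hPM, hxM, hP, hP, htP, htP, hPx, hxP, hxb⟩, rfl, ?_, ?_, ?_⟩
  · have h0 : P (D.R P Ω) ≠ 0 := fun h => by
      have e : D.R P (x Ω) = x (P (D.R P Ω)) := by
        rw [← mul_apply_eq_comp x P, hxP, D.R_comm hxM hPM]
      rw [e, h, map_zero, norm_zero] at hgain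
      linarith
    have : 0 < ‖P (D.R P Ω)‖ := norm_pos_iff.2 h0
    show 0 < size D _
    simp only [size, mass]
    positivity
  all_goals
    have hcost : cost D c K t t ⟨P, P, x⟩ ≤ (1 + 2 * K) * (C * r * T) ^ 2 := by
      simp only [cost, hdef]
      have := pow_le_pow_left₀ (norm_nonneg _)
        (((norm_proj_le hP _).trans (norm_proj_le (D.R_proj hP) _)).trans herr) 2
      linarith [mul_le_mul_of_nonneg_left hleak hK]
    have hg : T ^ 2 / 16 ≤ gain D ⟨P, P, x⟩ := by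
      have := pow_le_pow_left₀ (by positivity) hgain 2
      simp only [gain]
      linarith
    have hsz : size D ⟨P, P, x⟩ ≤ 2 * (C * T) ^ 2 := by
      simp only [size]
      linarith
    have key := cand_alg hT hK hε hr.le hr1 hrε hcost hg hsz
  · exact key.1
  · exact key.2

/-- A given ratio inside a corner, keeping a fixed part of the mass. -/
theorem stmtCorner.{v} (hMax : StmtMax.{v}) : StmtCorner.{v} := by
  intro H _ _ _ M Ω D hΩ h3 hS c hc
  obtain ⟨κ0, hκ0, hcand⟩ := exists_cand D hMax hΩ h3 hS hc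
  refine ⟨Real.sqrt (κ0 / 2), Real.sqrt_pos.2 (by positivity), fun s hsM hs hs0 ε hε => ?_⟩
  set m := ‖s (D.R s Ω)‖ with hm
  have hm0 : 0 < m := by
    refine norm_pos_iff.2 fun h => ?_
    have h1 := D.B_self_pos hsM hs0
    rw [← proj_apply hs Ω, inner_proj hs, h, inner_zero_right] at h1
    exact lt_irrefl _ h1
  set K := 8 + 4 * c ^ 2 with hK
  set ε1 := (ε / (2 + c)) ^ 2 with hε1
  have hK1 : 1 ≤ K := by rw [hK]; nlinarith
  obtain ⟨⟨P, Q, x⟩, hZ, hd⟩ := exhaust D hc.le (le_refl K) hκ0.le (sq_nonneg (ε / (2 + c)))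
    (Φ := fun Z => Z.P = Z.Q) rfl hs hs hsM hsM (fun Z W h1 h2 _ _ => by simp [Tri.add, h1, h2])
    (fun t htM u _ ht _ _ _ hcl ht0 _ => by
      have htu : t = u := ContinuousLinearMap.ext fun v =>
        (isClosed_eq continuous_fst continuous_snd).closure_subset_iff.2
          (by rintro _ ⟨Z, hZ, rfl⟩; show (s - Z.P) v = (s - Z.Q) v; rw [show Z.P = Z.Q from hZ])
          (hcl v)
      subst htu
      exact hcand t htM ht ht0 K _ (by linarith) (pow_pos (div_pos hε (by linarith)) 2))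
    (η := m / 2) (by positivity)
  obtain ⟨⟨hPM, -, hxM, hP, -, hsP, -, hPx, hxP, hxb⟩, hPQ, hcost, hgain⟩ := hZ
  change P = Q at hPQ
  subst hPQ
  simp only at hPM hxM hP hsP hPx hxP hxb hd
  have hd' : ‖(s - P) Ω‖ ≤ m / 2 := hd.elim id id
  set T := s - P with hTdef
  have hT : IsStarProjection T := sub_proj hs hP hsP
  have hTM : T ∈ M := sub_mem hsM hPM
  have hPT : P * T = 0 := by
    rw [hTdef, mul_sub, proj_le_comm hs hP hsP, hP.isIdempotentElem.eq, sub_self]
  have hTP : T * P = 0 := by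
    rw [hTdef, sub_mul, hsP, hP.isIdempotentElem.eq, sub_self]
  have hsT : s * T = T := by rw [hTdef, mul_sub, hs.isIdempotentElem.eq, hsP]
  have hxs : x * s = x := by rw [← hxP, mul_assoc, proj_le_comm hs hP hsP]
  have hsx : s * x = x := by rw [← hPx, ← mul_assoc, hsP]
  have hTx : T * x = 0 := by rw [← hPx, ← mul_assoc, hTP, zero_mul]
  have hxT : x * T = 0 := by rw [← hxP, mul_assoc, hPT, mul_zero]
  refine ⟨x, hxM, hsx, hxs, hxb, ?_, ?_⟩
  · -- the defect
    set g := gap D c x with hg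
    have hcross : ‖T (D.R P Ω)‖ = ‖P (D.R T Ω)‖ := norm_cross_symm D hT hP hTM hPM
    have hn : ‖P (D.R T Ω)‖ ≤ Real.sqrt (cost D c K s s ⟨P, P, x⟩) := by
      refine Real.le_sqrt_of_sq_le ?_
      simp only [cost, leak, ← hTdef]
      nlinarith [sq_nonneg ‖P (D.R P g)‖, sq_nonneg ‖P (D.R T Ω)‖]
    have hn' : ‖P (D.R P g)‖ ≤ Real.sqrt (cost D c K s s ⟨P, P, x⟩) := by
      refine Real.le_sqrt_of_sq_le ?_
      simp only [cost, leak, ← hTdef, ← hg]
      nlinarith [sq_nonneg ‖P (D.R T Ω)‖]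
    have k1 : ‖P (D.R T g)‖ ≤ ‖P (D.R T Ω)‖ := by
      have e : P (D.R T g) = x (P (D.R T Ω)) := by
        simp only [hg, gap, map_sub, map_smul, D.R_R, hxT, D.R_zero, zero_apply, map_zero,
          smul_zero, sub_zero]
        rw [← mul_apply_eq_comp x P, hxP, D.R_comm hPM hTM, ← mul_apply_eq_comp P x, hPx,
          D.R_comm hxM hTM]
      rw [e]; exact hxb _
    have k2 : ‖T (D.R P g)‖ ≤ c * ‖T (D.R P Ω)‖ := by
      have e : T (D.R P g) = -((c : ℂ) • D.R x (T (D.R P Ω))) := by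
        simp only [hg, gap, map_sub, map_smul, D.R_R, hxP]
        rw [D.R_comm hTM hPM, ← mul_apply_eq_comp T x, hTx, D.R_comm hTM hxM,
          D.R_comm hTM hPM, D.R_R, hPx]
        simp
      rw [e, norm_neg, norm_smul, Complex.norm_real, Real.norm_of_nonneg hc.le]
      exact mul_le_mul_of_nonneg_left ((D.norm_R_le _ _).trans
        (mul_le_of_le_one_left (norm_nonneg _) (opNorm_le_one hxb))) hc.le
    have k3 : T (D.R T g) = 0 := by
      simp only [hg, gap, map_sub, map_smul, D.R_R, hxT, D.R_zero]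
      rw [D.R_comm hTM hTM, ← mul_apply_eq_comp T x, hTx]
      simp
    have e : s (D.R s g) = P (D.R P g) + P (D.R T g) + T (D.R P g) + T (D.R T g) := by
      rw [show s = P + T by rw [hTdef]; abel, D.R_add, add_apply, add_apply, map_add, map_add]
      abel
    have hle : cost D c K s s ⟨P, P, x⟩ ≤ ε1 * m ^ 2 := by
      refine hcost.trans (mul_le_mul_of_nonneg_left ?_ (sq_nonneg _))
      refine pow_le_pow_left₀ (norm_nonneg _) ?_ 2
      have e : D.R P (x Ω) = x (P (D.R P Ω)) := by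
        rw [← mul_apply_eq_comp x P, hxP, D.R_comm hxM hPM]
      show ‖D.R P (x Ω)‖ ≤ m
      rw [e, hm]
      refine (hxb _).trans ?_
      have e2 : P (D.R P Ω) = P (D.R P (s (D.R s Ω))) := by
        rw [D.R_comm hsM hsM, D.R_R, hsP, D.R_comm hPM hPM (s Ω), ← mul_apply_eq_comp P s,
          proj_le_comm hs hP hsP, D.R_comm hPM hPM]
      rw [e2]
      exact (norm_proj_le hP _).trans (norm_proj_le (D.R_proj hP) _)
    rw [e, k3, add_zero]
    refine norm_add₃_le.trans ?_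
    calc ‖P (D.R P g)‖ + ‖P (D.R T g)‖ + ‖T (D.R P g)‖
        ≤ (2 + c) * Real.sqrt (cost D c K s s ⟨P, P, x⟩) := by
          nlinarith [mul_le_mul_of_nonneg_left (hcross.trans_le hn) hc.le]
      _ ≤ (2 + c) * Real.sqrt (ε1 * m ^ 2) := by gcongr
      _ = ε * m := by
          rw [hε1, ← mul_pow, Real.sqrt_sq (by positivity)]
          field_simp
  · -- the mass
    obtain ⟨hmass, -⟩ := mass_leak_add D hP hT hPM hTM hPT hs hsM hsP
      (hTdef ▸ hT.isIdempotentElem.eq)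
    have hmT : mass D T ≤ (m / 2) ^ 2 := by
      refine pow_le_pow_left₀ (norm_nonneg _) ?_ 2
      rw [D.R_comm hTM hTM]
      exact (norm_proj_le (D.R_proj hT) _).trans hd'
    have hms : mass D (P + T) = m ^ 2 := by
      rw [show P + T = s by rw [hTdef]; abel, hm]; rfl
    have hg2 : gain D ⟨P, P, x⟩ ≤ ‖D.R s (x Ω)‖ ^ 2 := by
      refine pow_le_pow_left₀ (norm_nonneg _) ?_ 2
      show ‖D.R P (x Ω)‖ ≤ _
      have e : D.R P (x Ω) = D.R P (D.R s (x Ω)) := by rw [D.R_R, hsP]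
      rw [e]
      exact norm_proj_le (D.R_proj hP) _
    simp only [size, cost, leak, ← hTdef] at hgain
    have h1 : m ^ 2 * (κ0 / 2) ≤ ‖D.R s (x Ω)‖ ^ 2 := by
      have h2 : 3 / 4 * m ^ 2 ≤ mass D P + mass D P + (‖P (D.R P (gap D c x))‖ ^ 2 +
          K * (‖P (D.R T Ω)‖ ^ 2 + ‖P (D.R T Ω)‖ ^ 2)) := by
        have : 0 ≤ mass D P := sq_nonneg _
        nlinarith [sq_nonneg ‖P (D.R P (gap D c x))‖,
          mul_le_mul_of_nonneg_right hK1 (sq_nonneg ‖P (D.R T Ω)‖)]
      linarith [mul_le_mul_of_nonneg_left h2 hκ0.le, hgain.trans hg2, mul_nonneg hκ0.le (sq_nonneg m)]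
    refine le_of_pow_le_pow_left₀ two_ne_zero (norm_nonneg _) ?_
    rw [mul_pow, Real.sq_sqrt (by positivity), mul_comm]
    exact h1

end Vale.Agent.P132.Homog
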