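import Vale.Agent.P132.Homog.Block

/-!
# Exhaustion by corners

A state is `(P, Q, x)` with `P ≤ p`, `Q ≤ q`, `x = Q x P`. Its cost `F` is the defect of `x` in the
corner plus `K` times the leaks `‖P R(p - P) Ω‖²`, `‖Q R(q - Q) Ω‖²`. Adding a state of the
remaining corners adds at most the costs, so greedy choice exhausts one of `p`, `q`.
-/

namespace Vale.Agent.P132.Homog

open scoped InnerProductSpace Topology ComplexOrder
open Filter Vale.Agent.P078.General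

universe u

variable {H : Type u} [NormedAddCommGroup H] [InnerProductSpace ℂ H] [CompleteSpace H]
variable {M : VonNeumannAlgebra H} {Ω : H}

theorem proj_le_comm {p P : H →L[ℂ] H} (hp : IsStarProjection p) (hP : IsStarProjection P)
    (h : p * P = P) : P * p = P := by
  have := congrArg star h
  rwa [star_mul, hp.isSelfAdjoint.star_eq, hP.isSelfAdjoint.star_eq] at this

theorem sub_proj {p P : H →L[ℂ] H} (hp : IsStarProjection p) (hP : IsStarProjection P)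
    (h : p * P = P) : IsStarProjection (p - P) :=
  hP.sub_of_mul_eq_left hp (proj_le_comm hp hP h)

theorem norm_sq_add {a b : H} (h : ⟪a, b⟫_ℂ = 0) : ‖a + b‖ ^ 2 = ‖a‖ ^ 2 + ‖b‖ ^ 2 := by
  rw [@norm_add_sq ℂ, h]; simp

theorem inner_proj_proj {P Q : H →L[ℂ] H} (hP : IsStarProjection P) (h : P * Q = 0) (v w : H) :
    ⟪P v, Q w⟫_ℂ = 0 := by
  rw [inner_proj hP, ← mul_apply_eq_comp, h]; simp

/-- `P ≤ p`, `Q ≤ q` and `x = Q x P`. -/
structure Tri (H : Type u) [NormedAddCommGroup H] [InnerProductSpace ℂ H] [CompleteSpace H] where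
  /-- initial corner -/
  P : H →L[ℂ] H
  /-- final corner -/
  Q : H →L[ℂ] H
  /-- element -/
  x : H →L[ℂ] H

variable (D : StdData M Ω)

/-- `x Ω - c Ω x`. -/
noncomputable def gap (c : ℝ) (x : H →L[ℂ] H) : H := x Ω - (c : ℂ) • D.R x Ω

/-- `‖P Ω P‖²`. -/
noncomputable def mass (P : H →L[ℂ] H) : ℝ := ‖P (D.R P Ω)‖ ^ 2

/-- `‖P Ω (p - P)‖²`. -/
noncomputable def leak (p P : H →L[ℂ] H) : ℝ := ‖P (D.R (p - P) Ω)‖ ^ 2

/-- The cost. -/
noncomputable def cost (c K : ℝ) (p q : H →L[ℂ] H) (Z : Tri H) : ℝ :=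
  ‖Z.Q (D.R Z.P (gap D c Z.x))‖ ^ 2 + K * (leak D p Z.P + leak D q Z.Q)

/-- `‖x Ω P‖²`. -/
noncomputable def gain (Z : Tri H) : ℝ := ‖D.R Z.P (Z.x Ω)‖ ^ 2

/-- The exhausted mass. -/
noncomputable def size (Z : Tri H) : ℝ := mass D Z.P + mass D Z.Q

/-- A state in the corners `p`, `q`. -/
structure IsTri (M : VonNeumannAlgebra H) (p q : H →L[ℂ] H) (Z : Tri H) : Prop where
  memP : Z.P ∈ M
  memQ : Z.Q ∈ M
  memx : Z.x ∈ M
  projP : IsStarProjection Z.P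
  projQ : IsStarProjection Z.Q
  leP : p * Z.P = Z.P
  leQ : q * Z.Q = Z.Q
  left : Z.Q * Z.x = Z.x
  right : Z.x * Z.P = Z.x
  bound : ∀ u, ‖Z.x u‖ ≤ ‖u‖

/-- The sum of two states. -/
def Tri.add (Z W : Tri H) : Tri H := ⟨Z.P + W.P, Z.Q + W.Q, Z.x + W.x⟩

/-- The data kept along the exhaustion. -/
structure Good (c K ε κ : ℝ) (Φ : Tri H → Prop) (p q : H →L[ℂ] H) (Z : Tri H) : Prop where
  tri : IsTri M p q Z
  prop : Φ Z
  cost_le : cost D c K p q Z ≤ ε * gain D Z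
  gain_ge : κ * (size D Z + cost D c K p q Z) ≤ gain D Z

theorem mass_le {P : H →L[ℂ] H} (hP : IsStarProjection P) : mass D P ≤ ‖Ω‖ ^ 2 :=
  pow_le_pow_left₀ (norm_nonneg _)
    ((norm_proj_le hP _).trans (norm_proj_le (D.R_proj hP) _)) 2

theorem size_le {p q : H →L[ℂ] H} {Z : Tri H} (hZ : IsTri M p q Z) : size D Z ≤ 2 * ‖Ω‖ ^ 2 := by
  rw [size]; linarith [mass_le D hZ.projP, mass_le D hZ.projQ]

/-- `‖P Ω P'‖ = ‖P' Ω P‖`. -/
theorem norm_cross_symm {P P' : H →L[ℂ] H} (hP : IsStarProjection P) (hP' : IsStarProjection P')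
    (hPM : P ∈ M) (hP'M : P' ∈ M) : ‖P (D.R P' Ω)‖ = ‖P' (D.R P Ω)‖ := by
  rw [← D.norm_J (P (D.R P' Ω)), D.J_left, D.J_R, D.J_omega, hP'.isSelfAdjoint.star_eq,
    hP.isSelfAdjoint.star_eq, D.R_comm hP'M hPM]

/-- Adding orthogonal projections. -/
theorem mass_leak_add {p P P' : H →L[ℂ] H} (hP : IsStarProjection P) (hP' : IsStarProjection P')
    (hPM : P ∈ M) (hP'M : P' ∈ M) (ho : P * P' = 0) (hp : IsStarProjection p) (hpmem : p ∈ M)
    (hle : p * P = P) (hle' : (p - P) * P' = P') :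
    mass D (P + P') = mass D P + mass D P' + 2 * ‖P (D.R P' Ω)‖ ^ 2 ∧
      leak D p (P + P') + ‖P (D.R P' Ω)‖ ^ 2 = leak D p P + leak D (p - P) P' := by
  have hR : ∀ {a b : H →L[ℂ] H}, IsStarProjection a → b * a = 0 → ∀ v w,
      ⟪D.R a v, D.R b w⟫_ℂ = 0 := fun {a b} ha h v w =>
    inner_proj_proj (D.R_proj ha) (by rw [← D.R_mul, h, D.R_zero]) v w
  have ho' : P' * P = 0 := by
    have := congrArg star ho
    rwa [star_mul, hP.isSelfAdjoint.star_eq, hP'.isSelfAdjoint.star_eq, star_zero] at this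
  constructor
  · rw [mass, mass, mass, add_apply, norm_sq_add (inner_proj_proj hP ho _ _), D.R_add, add_apply,
      map_add, map_add, D.R_comm hPM hPM, D.R_comm hPM hP'M, D.R_comm hP'M hPM,
      D.R_comm hP'M hP'M, norm_sq_add (hR hP ho' _ _), norm_sq_add (hR hP ho' _ _),
      ← D.R_comm hP'M hPM Ω, ← D.R_comm hPM hP'M Ω, norm_cross_symm D hP hP' hPM hP'M]
    ring
  · have hd : p - (P + P') = (p - P) - P' := by abel
    have hq : ((p - P) - P') * P' = 0 := by rw [sub_mul, hle', hP'.isIdempotentElem.eq, sub_self]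
    have hp0 : IsStarProjection (p - P) := sub_proj hp hP hle
    have hpM : ∀ v, D.R (p - P) v = D.R ((p - P) - P') v + D.R P' v := fun v => by
      simp [D.R_sub]
    have hrM : (p - P) - P' ∈ M := sub_mem (sub_mem hpmem hPM) hP'M
    rw [leak, leak, leak, add_apply, hd, norm_sq_add (inner_proj_proj hP ho _ _), hpM,
      map_add, D.R_comm hPM hrM, D.R_comm hPM hP'M, norm_sq_add ?_]
    · ring
    · rw [← inner_conj_symm, hR hP' hq, map_zero]

theorem opNorm_le_one {x : H →L[ℂ] H} (h : ∀ u, ‖x u‖ ≤ ‖u‖) : ‖x‖ ≤ 1 :=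
  x.opNorm_le_bound zero_le_one fun u => by rw [one_mul]; exact h u

/-- The defect between two corners is bounded by the crossing terms. -/
theorem norm_cross_gap_le {c : ℝ} (hc : 0 ≤ c) {P P' Q Q' x y : H →L[ℂ] H}
    (hPM : P ∈ M) (hP'M : P' ∈ M) (hQM : Q ∈ M) (hxM : x ∈ M) (hyM : y ∈ M)
    (hxQ : Q * x = x) (hxP : x * P = x) (hyP : y * P' = y) (hyQ : Q' * y = y)
    (hQ'M : Q' ∈ M) (hP : P * P' = 0) (hQ : Q * Q' = 0)
    (hx : ∀ u, ‖x u‖ ≤ ‖u‖) (hy : ∀ u, ‖y u‖ ≤ ‖u‖) :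
    ‖Q (D.R P' (gap D c (x + y)))‖ ≤ ‖P (D.R P' Ω)‖ + c * ‖Q (D.R Q' Ω)‖ := by
  have hxP' : x * P' = 0 := by rw [← hxP, mul_assoc, hP, mul_zero]
  have hQy : Q * y = 0 := by rw [← hyQ, ← mul_assoc, hQ, zero_mul]
  have e1 : Q (D.R P' (x Ω)) = x (P (D.R P' Ω)) := by
    rw [← mul_apply_eq_comp x, hxP, D.R_comm hQM hP'M, ← mul_apply_eq_comp Q, hxQ,
      D.R_comm hxM hP'M]
  have e2 : Q (D.R P' (y Ω)) = 0 := by
    rw [D.R_comm hQM hP'M, ← mul_apply_eq_comp Q, hQy]; simp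
  have e3 : Q (D.R P' (D.R x Ω)) = 0 := by rw [D.R_R, hxP', D.R_zero]; simp
  have e4 : Q (D.R P' (D.R y Ω)) = D.R y (Q (D.R Q' Ω)) := by
    rw [D.R_R, hyP, D.R_comm hQM hyM, D.R_comm hQM hQ'M, D.R_R, hyQ]
  have e : Q (D.R P' (gap D c (x + y))) = x (P (D.R P' Ω)) - (c : ℂ) • D.R y (Q (D.R Q' Ω)) := by
    simp only [gap, add_apply, D.R_add, map_add, map_sub, map_smul, smul_add, smul_zero, e1, e2, e3, e4]
    abel
  rw [e]
  refine (norm_sub_le _ _).trans (add_le_add (hx _) ?_)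
  rw [norm_smul, Complex.norm_real, Real.norm_of_nonneg hc]
  exact mul_le_mul_of_nonneg_left ((D.norm_R_le _ _).trans
    (mul_le_of_le_one_left (norm_nonneg _) (opNorm_le_one hy))) hc

/-- The cost is subadditive. -/
theorem good_add {c K ε κ : ℝ} (hc : 0 ≤ c) (hK : 8 + 4 * c ^ 2 ≤ K) (hκ : 0 ≤ κ) (hε : 0 ≤ ε)
    {Φ : Tri H → Prop} {p q : H →L[ℂ] H} (hp : IsStarProjection p) (hq : IsStarProjection q)
    (hpM : p ∈ M) (hqM : q ∈ M)
    (hΦ : ∀ Z W, Φ Z → Φ W → IsTri M p q Z → IsTri M (p - Z.P) (q - Z.Q) W → Φ (Z.add W))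
    {Z W : Tri H} (hZ : Good D c K ε κ Φ p q Z) (hW : Good D c K ε κ Φ (p - Z.P) (q - Z.Q) W) :
    Good D c K ε κ Φ p q (Z.add W) ∧ size D Z + size D W ≤ size D (Z.add W) := by
  obtain ⟨⟨hPM, hQM, hxM, hP, hQ, hPp, hQq, hxQ, hxP, hx⟩, hZΦ, hZc, hZg⟩ := hZ
  obtain ⟨⟨hP'M, hQ'M, hyM, hP', hQ', hP'p, hQ'q, hyQ, hyP, hy⟩, hWΦ, hWc, hWg⟩ := hW
  obtain ⟨P, Q, x⟩ := Z
  obtain ⟨P', Q', y⟩ := W
  simp only at *
  have key : ∀ {p P P' : H →L[ℂ] H}, IsStarProjection p → IsStarProjection P →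
      IsStarProjection P' → p * P = P → (p - P) * P' = P' →
      P * P' = 0 ∧ P' * P = 0 ∧ p * (P + P') = P + P' ∧ IsStarProjection (P + P') := by
    intro p P P' hp hP hP' h h'
    have h1 : P * P' = 0 := by
      rw [← h', ← mul_assoc, mul_sub, proj_le_comm hp hP h, hP.isIdempotentElem.eq, sub_self,
        zero_mul]
    have h2 : P' * P = 0 := by
      have := congrArg star h1
      rwa [star_mul, hP.isSelfAdjoint.star_eq, hP'.isSelfAdjoint.star_eq, star_zero] at this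
    refine ⟨h1, h2, ?_, hP.add hP' h1⟩
    have h3 : p * P' = P' := by
      conv_lhs => rw [← h', ← mul_assoc, mul_sub, hp.isIdempotentElem.eq, h]
      exact h'
    rw [mul_add, h, h3]
  obtain ⟨hPP', hP'P, hpS, hS⟩ := key hp hP hP' hPp hP'p
  obtain ⟨hQQ', hQ'Q, hqS, hT⟩ := key hq hQ hQ' hQq hQ'q
  have hQy : Q * y = 0 := by rw [← hyQ, ← mul_assoc, hQQ', zero_mul]
  have hQ'x : Q' * x = 0 := by rw [← hxQ, ← mul_assoc, hQ'Q, zero_mul]
  have hyP0 : y * P = 0 := by rw [← hyP, mul_assoc, hP'P, mul_zero]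
  have hxP0 : x * P' = 0 := by rw [← hxP, mul_assoc, hPP', mul_zero]
  have ho : ∀ u v, ⟪x u, y v⟫_ℂ = 0 := fun u v => by
    rw [← hxQ, ← hyQ, mul_apply_eq_comp, mul_apply_eq_comp]
    exact inner_proj_proj hQ hQQ' _ _
  have hbound : ∀ u, ‖(x + y) u‖ ≤ ‖u‖ := by
    intro u
    refine le_of_pow_le_pow_left₀ two_ne_zero (norm_nonneg _) ?_
    refine le_trans ?_ (pow_le_pow_left₀ (norm_nonneg _) (norm_proj_le hS u) 2)
    rw [add_apply, norm_sq_add (ho u u), add_apply,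
      norm_sq_add (inner_proj_proj hP hPP' u u)]
    refine add_le_add (pow_le_pow_left₀ (norm_nonneg _) ?_ 2)
      (pow_le_pow_left₀ (norm_nonneg _) ?_ 2)
    · conv_lhs => rw [← hxP, mul_apply_eq_comp]
      exact hx _
    · conv_lhs => rw [← hyP, mul_apply_eq_comp]
      exact hy _
  obtain ⟨hmP, hlP⟩ := mass_leak_add D hP hP' hPM hP'M hPP' hp hpM hPp hP'p
  obtain ⟨hmQ, hlQ⟩ := mass_leak_add D hQ hQ' hQM hQ'M hQQ' hq hqM hQq hQ'q
  set a := ‖P (D.R P' Ω)‖ with ha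
  set b := ‖Q (D.R Q' Ω)‖ with hb
  set g := gap D c (x + y) with hg
  have hTg : ‖(Q + Q') (D.R (P + P') g)‖ ^ 2 =
      ‖Q (D.R P g)‖ ^ 2 + ‖Q (D.R P' g)‖ ^ 2 + (‖Q' (D.R P g)‖ ^ 2 + ‖Q' (D.R P' g)‖ ^ 2) := by
    have hR : ∀ v w, ⟪D.R P v, D.R P' w⟫_ℂ = 0 :=
      inner_proj_proj (D.R_proj hP) (by rw [← D.R_mul, hP'P, D.R_zero])
    rw [add_apply, norm_sq_add (inner_proj_proj hQ hQQ' _ _), D.R_add, add_apply, map_add, map_add,
      D.R_comm hQM hPM, D.R_comm hQM hP'M, D.R_comm hQ'M hPM, D.R_comm hQ'M hP'M,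
      norm_sq_add (hR _ _), norm_sq_add (hR _ _)]
  have e1 : Q (D.R P g) = Q (D.R P (gap D c x)) := by
    have k1 : Q (D.R P (y Ω)) = 0 := by
      rw [D.R_comm hQM hPM, ← mul_apply_eq_comp Q, hQy]; simp
    have k2 : Q (D.R P (D.R y Ω)) = 0 := by rw [D.R_R, hyP0, D.R_zero]; simp
    simp only [hg, gap, add_apply, D.R_add, map_add, map_sub, map_smul, smul_add, k1, k2]
    simp
  have e2 : Q' (D.R P' g) = Q' (D.R P' (gap D c y)) := by
    have k1 : Q' (D.R P' (x Ω)) = 0 := by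
      rw [D.R_comm hQ'M hP'M, ← mul_apply_eq_comp Q', hQ'x]; simp
    have k2 : Q' (D.R P' (D.R x Ω)) = 0 := by rw [D.R_R, hxP0, D.R_zero]; simp
    simp only [hg, gap, add_apply, D.R_add, map_add, map_sub, map_smul, smul_add, k1, k2]
    simp
  have b1 : ‖Q (D.R P' g)‖ ≤ a + c * b :=
    norm_cross_gap_le D hc hPM hP'M hQM hxM hyM hxQ hxP hyP hyQ hQ'M hPP' hQQ' hx hy
  have b2 : ‖Q' (D.R P g)‖ ≤ a + c * b := by
    rw [hg, add_comm x y, ha, hb, norm_cross_symm D hP hP' hPM hP'M,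
      norm_cross_symm D hQ hQ' hQM hQ'M]
    exact norm_cross_gap_le D hc hP'M hPM hQ'M hyM hxM hyQ hyP hxP hxQ hQM hP'P hQ'Q hy hx
  have hb12 : ‖Q (D.R P' g)‖ ^ 2 + ‖Q' (D.R P g)‖ ^ 2 ≤ 4 * a ^ 2 + 4 * c ^ 2 * b ^ 2 := by
    linarith [pow_le_pow_left₀ (norm_nonneg _) b1 2, pow_le_pow_left₀ (norm_nonneg _) b2 2,
      sq_nonneg (a - c * b)]
  have hcost : cost D c K p q (Tri.add ⟨P, Q, x⟩ ⟨P', Q', y⟩) + 4 * (a ^ 2 + b ^ 2) ≤
      cost D c K p q ⟨P, Q, x⟩ + cost D c K (p - P) (q - Q) ⟨P', Q', y⟩ := by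
    simp only [cost, Tri.add]
    rw [← hg, hTg, e1, e2]
    have k1 := mul_le_mul_of_nonneg_right hK (sq_nonneg a)
    have k2 := mul_le_mul_of_nonneg_right hK (sq_nonneg b)
    have k3 : K * leak D p (P + P') + K * a ^ 2 = K * leak D p P + K * leak D (p - P) P' := by
      rw [← mul_add, hlP, mul_add]
    have k4 : K * leak D q (Q + Q') + K * b ^ 2 = K * leak D q Q + K * leak D (q - Q) Q' := by
      rw [← mul_add, hlQ, mul_add]
    linarith [mul_nonneg (sq_nonneg c) (sq_nonneg a), sq_nonneg a, sq_nonneg b]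
  have hsize : size D (Tri.add ⟨P, Q, x⟩ ⟨P', Q', y⟩) =
      size D ⟨P, Q, x⟩ + size D ⟨P', Q', y⟩ + 2 * (a ^ 2 + b ^ 2) := by
    simp only [size, Tri.add, hmP, hmQ]; ring
  have hgain : gain D ⟨P, Q, x⟩ + gain D ⟨P', Q', y⟩ ≤ gain D (Tri.add ⟨P, Q, x⟩ ⟨P', Q', y⟩) := by
    simp only [gain, Tri.add]
    rw [D.R_add, add_apply (D.R P), norm_sq_add
      (inner_proj_proj (D.R_proj hP) (by rw [← D.R_mul, hP'P, D.R_zero]) _ _),
      ← D.R_comm (add_mem hxM hyM) hPM, ← D.R_comm (add_mem hxM hyM) hP'M,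
      ← D.R_comm hxM hPM, ← D.R_comm hyM hP'M, add_apply, add_apply, norm_sq_add (ho _ _),
      norm_sq_add (ho _ _)]
    linarith [sq_nonneg ‖x (D.R P' Ω)‖, sq_nonneg ‖y (D.R P Ω)‖]
  have hsq : 0 ≤ a ^ 2 + b ^ 2 := by positivity
  refine ⟨⟨⟨add_mem hPM hP'M, add_mem hQM hQ'M, add_mem hxM hyM, hS, hT, hpS, hqS, ?_, ?_, hbound⟩,
    hΦ _ _ hZΦ hWΦ ⟨hPM, hQM, hxM, hP, hQ, hPp, hQq, hxQ, hxP, hx⟩
      ⟨hP'M, hQ'M, hyM, hP', hQ', hP'p, hQ'q, hyQ, hyP, hy⟩, ?_, ?_⟩, by linarith⟩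
  · show (Q + Q') * (x + y) = x + y
    rw [add_mul, mul_add, mul_add, hxQ, hQy, hQ'x, hyQ, add_zero, zero_add]
  · show (x + y) * (P + P') = x + y
    rw [add_mul, mul_add, mul_add, hxP, hxP0, hyP0, hyP, add_zero, zero_add]
  · linarith [mul_le_mul_of_nonneg_left hgain hε]
  · rw [hsize]
    linarith [mul_le_mul_of_nonneg_left hcost hκ, mul_nonneg hκ hsq]

/-- A decreasing sequence of projections converges. -/
theorem exists_lim_proj (M : VonNeumannAlgebra H) {t : ℕ → H →L[ℂ] H} (ht : ∀ n, IsStarProjection (t n))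
    (htM : ∀ n, t n ∈ M) (hdec : ∀ n m, n ≤ m → t n * t m = t m) :
    ∃ s ∈ M, IsStarProjection s ∧ (∀ n, t n * s = s) ∧
      ∀ v, Tendsto (fun n => t n v) atTop (𝓝 (s v)) := by
  have hmono : ∀ v, Antitone fun n => ‖t n v‖ ^ 2 := fun v n m h => by
    refine pow_le_pow_left₀ (norm_nonneg _) ?_ 2
    rw [← proj_le_comm (ht n) (ht m) (hdec n m h), mul_apply_eq_comp]
    exact norm_proj_le (ht m) _
  have hlim : ∀ v, ∃ w, Tendsto (fun n => t n v) atTop (𝓝 w) := by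
    intro v
    refine cauchySeq_tendsto_of_complete ?_
    have h2 : CauchySeq fun n => ‖t n v‖ ^ 2 :=
      (tendsto_atTop_ciInf (hmono v) ⟨0, by rintro _ ⟨n, rfl⟩; positivity⟩).cauchySeq
    rw [Metric.cauchySeq_iff'] at h2 ⊢
    intro η hη
    obtain ⟨N, hN⟩ := h2 (η ^ 2) (by positivity)
    refine ⟨N, fun n hn => ?_⟩
    have e : ‖t N v‖ ^ 2 = ‖t N v - t n v‖ ^ 2 + ‖t n v‖ ^ 2 := by
      rw [← norm_sq_add, sub_add_cancel]
      rw [inner_sub_left, inner_proj (ht N), ← mul_apply_eq_comp (t N), hdec N n hn,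
        inner_proj (ht n), proj_apply (ht n), sub_self]
    have h3 := hN n hn
    rw [Real.dist_eq] at h3
    rw [dist_eq_norm, norm_sub_rev]
    refine lt_of_pow_lt_pow_left₀ 2 hη.le ?_
    linarith [neg_le_abs (‖t n v‖ ^ 2 - ‖t N v‖ ^ 2)]
  choose f hf using hlim
  let L : H →ₗ[ℂ] H :=
    { toFun := f
      map_add' := fun v w => tendsto_nhds_unique (hf (v + w))
        (by simpa using (hf v).add (hf w))
      map_smul' := fun a v => tendsto_nhds_unique (hf (a • v)) (by simpa using (hf v).const_smul a) }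
  have hb : ∀ v, ‖L v‖ ≤ 1 * ‖v‖ := fun v =>
    le_of_tendsto (hf v).norm (Eventually.of_forall fun n =>
      (norm_proj_le (ht n) v).trans_eq (one_mul _).symm)
  set s := L.mkContinuous 1 hb
  have hs : ∀ v, Tendsto (fun n => t n v) atTop (𝓝 (s v)) := hf
  have hts : ∀ n v, t n (s v) = s v := fun n v =>
    tendsto_nhds_unique (((t n).continuous.tendsto _).comp (hs v))
      ((hs v).congr' ((eventually_ge_atTop n).mono fun m hm => by
        show t m v = t n (t m v)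
        rw [← mul_apply_eq_comp (t n), hdec n m hm]))
  refine ⟨s, mem_of_commute_commutant M fun y hy => ?_, ⟨?_, ?_⟩,
    fun n => ContinuousLinearMap.ext fun v => by rw [mul_apply_eq_comp, hts], hs⟩
  · refine ContinuousLinearMap.ext fun v => ?_
    rw [mul_apply_eq_comp, mul_apply_eq_comp]
    refine tendsto_nhds_unique (((y.continuous.tendsto _).comp (hs v))) ?_
    refine (hs (y v)).congr fun n => ?_
    exact congrArg (fun g : H →L[ℂ] H => g v)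
      (VonNeumannAlgebra.mem_commutant_iff.1 hy _ (htM n))
  · exact ContinuousLinearMap.ext fun v => tendsto_nhds_unique (hs (s v))
      (tendsto_const_nhds.congr fun n => (hts n v).symm)
  · refine ContinuousLinearMap.isSelfAdjoint_iff_isSymmetric.2 fun v w => ?_
    exact tendsto_nhds_unique ((hs v).inner tendsto_const_nhds)
      ((tendsto_const_nhds.inner (hs w)).congr fun n => (inner_proj (ht n) v w).symm)

end Vale.Agent.P132.Homog
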