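import Vale.Agent.P132.Homog.Exhaust

/-!
# Greedy exhaustion of two corners
-/

namespace Vale.Agent.P132.Homog

open scoped InnerProductSpace Topology ComplexOrder
open Filter Vale.Agent.P078.General

universe u

variable {H : Type u} [NormedAddCommGroup H] [InnerProductSpace ℂ H] [CompleteSpace H]
variable {M : VonNeumannAlgebra H} {Ω : H} (D : StdData M Ω)

/-- The empty state. -/
def Tri.zero : Tri H := ⟨0, 0, 0⟩

theorem good_zero {c K ε κ : ℝ} {Φ : Tri H → Prop} (hΦ : Φ Tri.zero) (p q : H →L[ℂ] H) :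
    Good D c K ε κ Φ p q Tri.zero := by
  refine ⟨⟨zero_mem M, zero_mem M, zero_mem M, IsStarProjection.zero _, IsStarProjection.zero _,
    mul_zero p, mul_zero q, mul_zero _, mul_zero _, fun u => by simp [Tri.zero]⟩, hΦ, ?_, ?_⟩ <;>
  simp [cost, gain, size, mass, leak, Tri.zero, D.R_zero]

/-- Greedy exhaustion of one of two corners. -/
theorem exhaust {c K ε κ : ℝ} (hc : 0 ≤ c) (hK : 8 + 4 * c ^ 2 ≤ K) (hκ : 0 ≤ κ) (hε : 0 ≤ ε)
    {Φ : Tri H → Prop} (hΦ0 : Φ Tri.zero) {p q : H →L[ℂ] H} (hp : IsStarProjection p)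
    (hq : IsStarProjection q) (hpM : p ∈ M) (hqM : q ∈ M)
    (hΦ : ∀ Z W, Φ Z → Φ W → IsTri M p q Z → IsTri M (p - Z.P) (q - Z.Q) W → Φ (Z.add W))
    (hcand : ∀ t ∈ M, ∀ u ∈ M, IsStarProjection t → IsStarProjection u → p * t = t → q * u = u →
      (∀ v, (t v, u v) ∈ closure {z : H × H | ∃ Z, Φ Z ∧ z = ((p - Z.P) v, (q - Z.Q) v)}) →
      t ≠ 0 → u ≠ 0 → ∃ W, IsTri M t u W ∧ Φ W ∧ 0 < size D W ∧
        cost D c K t u W < ε * gain D W ∧ κ * (size D W + cost D c K t u W) < gain D W)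
    {η : ℝ} (hη : 0 < η) :
    ∃ Z, Good D c K ε κ Φ p q Z ∧ (‖(p - Z.P) Ω‖ ≤ η ∨ ‖(q - Z.Q) Ω‖ ≤ η) := by
  classical
  set S : Tri H → Set ℝ := fun Z =>
    (size D) '' {W | Good D c K ε κ Φ (p - Z.P) (q - Z.Q) W} with hS
  have hSne : ∀ Z, (S Z).Nonempty := fun Z => ⟨_, Tri.zero, good_zero D hΦ0 _ _, rfl⟩
  have hSbdd : ∀ Z, BddAbove (S Z) := fun Z => ⟨2 * ‖Ω‖ ^ 2, by
    rintro _ ⟨W, hW, rfl⟩
    exact size_le D hW.tri⟩
  have hpick : ∀ (n : ℕ) (Z : Tri H), ∃ W, Good D c K ε κ Φ (p - Z.P) (q - Z.Q) W ∧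
      sSup (S Z) - 1 / ((n : ℝ) + 1) < size D W := by
    intro n Z
    have hlt : sSup (S Z) - 1 / ((n : ℝ) + 1) < sSup (S Z) := sub_lt_self _ (by positivity)
    obtain ⟨_, ⟨W, hW, rfl⟩, hlt'⟩ := exists_lt_of_lt_csSup (hSne Z) hlt
    exact ⟨W, hW, hlt'⟩
  choose next hnext hnextS using hpick
  let f : ℕ → Tri H := fun n => n.rec Tri.zero fun k Z => Z.add (next k Z)
  have hf1 : ∀ n, f (n + 1) = (f n).add (next n (f n)) := fun n => rfl
  have hgood : ∀ n, Good D c K ε κ Φ p q (f n) := by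
    intro n
    induction n with
    | zero => exact good_zero D hΦ0 p q
    | succ n ih => exact (good_add D hc hK hκ hε hp hq hpM hqM hΦ ih (hnext n (f n))).1
  have hinc : ∀ n, size D (f n) + size D (next n (f n)) ≤ size D (f (n + 1)) := fun n =>
    (good_add D hc hK hκ hε hp hq hpM hqM hΦ (hgood n) (hnext n (f n))).2
  have hsmall : Tendsto (fun n => size D (next n (f n))) atTop (𝓝 0) := by
    have h0 : ∀ n, 0 ≤ size D (next n (f n)) := fun n => by
      simp only [size, mass]; positivity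
    have hmono : Monotone fun n => size D (f n) :=
      monotone_nat_of_le_succ fun n => by linarith [hinc n, h0 n]
    have hl := tendsto_atTop_ciSup hmono
      ⟨2 * ‖Ω‖ ^ 2, by rintro _ ⟨n, rfl⟩; exact size_le D (hgood n).tri⟩
    refine squeeze_zero h0 (fun n => le_sub_iff_add_le'.2 (hinc n)) ?_
    simpa using ((tendsto_add_atTop_iff_nat 1).2 hl).sub hl
  set t := fun n => p - (f n).P with ht
  set u := fun n => q - (f n).Q with hu
  have htp : ∀ n, IsStarProjection (t n) := fun n =>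
    sub_proj hp (hgood n).tri.projP (hgood n).tri.leP
  have hup : ∀ n, IsStarProjection (u n) := fun n =>
    sub_proj hq (hgood n).tri.projQ (hgood n).tri.leQ
  have htM : ∀ n, t n ∈ M := fun n => sub_mem hpM (hgood n).tri.memP
  have huM : ∀ n, u n ∈ M := fun n => sub_mem hqM (hgood n).tri.memQ
  have hdec : ∀ (s : ℕ → H →L[ℂ] H), (∀ n, IsStarProjection (s n)) →
      (∀ n, s n * s (n + 1) = s (n + 1)) → ∀ n m, n ≤ m → s n * s m = s m := by
    intro s hs h n m hnm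
    induction m, hnm using Nat.le_induction with
    | base => exact (hs n).isIdempotentElem.eq
    | succ m _ ih => rw [← h m, ← mul_assoc, ih]
  have htd := hdec t htp fun n => by
    simp only [ht, hf1, Tri.add, ← sub_sub]
    rw [mul_sub, (htp n).isIdempotentElem.eq, (hnext n (f n)).tri.leP]
  have hud := hdec u hup fun n => by
    simp only [hu, hf1, Tri.add, ← sub_sub]
    rw [mul_sub, (hup n).isIdempotentElem.eq, (hnext n (f n)).tri.leQ]
  obtain ⟨t0, ht0M, ht0, ht0le, ht0lim⟩ := exists_lim_proj M htp htM htd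
  obtain ⟨u0, hu0M, hu0, hu0le, hu0lim⟩ := exists_lim_proj M hup huM hud
  have done1 : ∀ (s : ℕ → H →L[ℂ] H), Tendsto (fun n => s n Ω) atTop (𝓝 0) → ∃ n, ‖s n Ω‖ ≤ η :=
    fun s h => ((tendsto_zero_iff_norm_tendsto_zero.1 h).eventually (Iic_mem_nhds hη)).exists
  by_cases hteq : t0 = 0
  · obtain ⟨n, hn⟩ := done1 t (by simpa [hteq] using ht0lim Ω)
    exact ⟨f n, hgood n, Or.inl hn⟩
  by_cases hueq : u0 = 0
  · obtain ⟨n, hn⟩ := done1 u (by simpa [hueq] using hu0lim Ω)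
    exact ⟨f n, hgood n, Or.inr hn⟩
  exfalso
  have hpt : p * t0 = t0 := by simpa [ht, f, Tri.zero] using ht0le 0
  have hqu : q * u0 = u0 := by simpa [hu, f, Tri.zero] using hu0le 0
  obtain ⟨W, hW, hWΦ, hW0, hW1, hW2⟩ := hcand t0 ht0M u0 hu0M ht0 hu0 hpt hqu
    (fun v => mem_closure_of_tendsto ((ht0lim v).prodMk_nhds (hu0lim v))
      (Eventually.of_forall fun n => ⟨f n, (hgood n).prop, rfl⟩)) hteq hueq
  have hleak : ∀ {s : ℕ → H →L[ℂ] H} {s0 : H →L[ℂ] H}, (∀ n, IsStarProjection (s n)) →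
      IsStarProjection s0 → (Tendsto (fun n => s n Ω) atTop (𝓝 (s0 Ω))) → ∀ P,
      Tendsto (fun n => leak D (s n) P) atTop (𝓝 (leak D s0 P)) := by
    intro s s0 hs hs0 h P
    have e : ∀ {a : H →L[ℂ] H}, IsStarProjection a → D.R (a - P) Ω = D.J (a Ω) - D.R P Ω :=
      fun {a} ha => by rw [D.R_sub, sub_apply, D.R_omega a, ha.isSelfAdjoint.star_eq]
    simp only [leak, e (hs _), e hs0]
    exact (((P.continuous.tendsto _).comp
      (((D.continuous_J.tendsto _).comp h).sub_const _)).norm).pow 2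
  have hlim : Tendsto (fun n => cost D c K (t n) (u n) W) atTop (𝓝 (cost D c K t0 u0 W)) :=
    (((hleak htp ht0 (ht0lim Ω) W.P).add (hleak hup hu0 (hu0lim Ω) W.Q)).const_mul K).const_add _
  have hev1 : ∀ᶠ n in atTop, cost D c K (t n) (u n) W < ε * gain D W :=
    hlim.eventually (Iio_mem_nhds hW1)
  have hev2 : ∀ᶠ n in atTop, κ * (size D W + cost D c K (t n) (u n) W) < gain D W :=
    ((hlim.const_add _).const_mul κ).eventually (Iio_mem_nhds hW2)
  have hev3 : ∀ᶠ n in atTop, size D (next n (f n)) + 1 / ((n : ℝ) + 1) < size D W := by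
    have := hsmall.add (tendsto_one_div_add_atTop_nhds_zero_nat)
    rw [add_zero] at this
    exact this.eventually (Iio_mem_nhds hW0)
  obtain ⟨n, h1, h2, h3⟩ := (hev1.and (hev2.and hev3)).exists
  have hWn : Good D c K ε κ Φ (p - (f n).P) (q - (f n).Q) W :=
    ⟨⟨hW.memP, hW.memQ, hW.memx, hW.projP, hW.projQ,
      by rw [← hW.leP, ← mul_assoc]; exact congrArg (· * W.P) (ht0le n),
      by rw [← hW.leQ, ← mul_assoc]; exact congrArg (· * W.Q) (hu0le n),
      hW.left, hW.right, hW.bound⟩, hWΦ, h1.le, h2.le⟩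
  have h4 : size D W ≤ sSup (S (f n)) := le_csSup (hSbdd _) ⟨W, hWn, rfl⟩
  linarith [hnextS n (f n)]

end Vale.Agent.P132.Homog
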