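import Vale.Agent.P132.Homog.Std

/-!
# A uniform spectral grid of a positive element
-/

namespace Vale.Agent.P132.Homog

open scoped InnerProductSpace Topology ComplexOrder
open Filter Vale.Agent.P078.General

universe u

variable {H : Type u} [NormedAddCommGroup H] [InnerProductSpace ℂ H] [CompleteSpace H]

/-- A positive operator with form at most `δ` has norm at most `δ`. -/
theorem norm_apply_le_of_form {P : H →L[ℂ] H} (hP : IsSelfAdjoint P) {δ : ℝ} (hδ : 0 < δ)
    (h : ∀ u, 0 ≤ (⟪P u, u⟫_ℂ).re ∧ (⟪P u, u⟫_ℂ).re ≤ δ * ‖u‖ ^ 2) (u : H) :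
    ‖P u‖ ≤ δ * ‖u‖ := by
  set s : ℂ := ((δ⁻¹ : ℝ) : ℂ) with hs
  have h1 := (h (u - s • P u)).1
  have h2 := (h u).2
  have h3 := (h (P u)).2
  have e1 : ⟪P (P u), u⟫_ℂ = ⟪P u, P u⟫_ℂ := inner_sa hP _ _
  have e2 : (⟪P u, P u⟫_ℂ).re = ‖P u‖ ^ 2 := inner_self_eq_norm_sq (𝕜 := ℂ) _
  rw [map_sub, map_smul, inner_sub_left, inner_sub_right, inner_sub_right, inner_smul_left,
    inner_smul_right, inner_smul_left, inner_smul_right, e1, hs, Complex.conj_ofReal] at h1
  simp only [Complex.sub_re, Complex.re_ofReal_mul, e2] at h1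
  have h4 : δ⁻¹ * ‖P u‖ ^ 2 ≤ δ * ‖u‖ ^ 2 := by
    have h5 : δ⁻¹ * (δ⁻¹ * (⟪P (P u), P u⟫_ℂ).re) ≤ δ⁻¹ * (δ⁻¹ * (δ * ‖P u‖ ^ 2)) := by gcongr
    rw [inv_mul_cancel_left₀ hδ.ne'] at h5
    linarith
  rw [inv_mul_le_iff₀ hδ] at h4
  exact le_of_pow_le_pow_left₀ two_ne_zero (by positivity) (by linarith)

theorem cut_mul_cut {h : H →L[ℂ] H} (hh : IsSelfAdjoint h) {s t : ℝ} (hst : s ≤ t) :
    cut h s * cut h t = cut h s := by
  rcases eq_or_lt_of_le hst with rfl | hlt
  · exact (isStarProjection_cut h s).isIdempotentElem.eq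
  have hc : Commute (cut h s) (cut h t) :=
    commute_cut hh ((commute_cut_self hh s).symm) t
  refine ContinuousLinearMap.ext fun v => ?_
  rw [mul_apply_eq_comp]
  set w := cut h s v - cut h s (cut h t v) with hw
  have hw1 : cut h s w = w := by
    rw [hw, map_sub, proj_apply (isStarProjection_cut h s),
      proj_apply (isStarProjection_cut h s)]
  have hw2 : cut h t w = 0 := by
    rw [hw, map_sub, ← mul_apply_eq_comp (cut h t) (cut h s),
      ← mul_apply_eq_comp (cut h t) (cut h s), ← hc.eq, mul_apply_eq_comp, mul_apply_eq_comp,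
      proj_apply (isStarProjection_cut h t), sub_self]
  have h1 := le_re_inner_of_cut_eq_zero hh hw2
  have h2 := re_inner_le_of_mem_cutSpace hh (hw1 ▸ cut_mem_cutSpace h s w : w ∈ cutSpace h s)
  have h3 : ‖w‖ ^ 2 = 0 := by nlinarith [sq_nonneg ‖w‖]
  exact (sub_eq_zero.1 (norm_eq_zero.1 (pow_eq_zero_iff two_ne_zero |>.1 h3))).symm

theorem cut_eq_one {h : H →L[ℂ] H} (hh : IsSelfAdjoint h) {t : ℝ} (ht : ‖h‖ < t) :
    cut h t = 1 := by
  refine ContinuousLinearMap.ext fun v => ?_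
  set w := v - cut h t v with hw
  have h0 : cut h t w = 0 := by
    rw [hw, map_sub, proj_apply (isStarProjection_cut h t), sub_self]
  have h1 := le_re_inner_of_cut_eq_zero hh h0
  have h2 : (⟪h w, w⟫_ℂ).re ≤ ‖h‖ * ‖w‖ ^ 2 :=
    ((Complex.re_le_norm _).trans (norm_inner_le_norm _ _)).trans
      ((mul_le_mul_of_nonneg_right (h.le_opNorm w) (norm_nonneg _)).trans_eq (by ring))
  have h3 : ‖w‖ ^ 2 = 0 := by nlinarith [sq_nonneg ‖w‖]
  exact (sub_eq_zero.1 (norm_eq_zero.1 (pow_eq_zero_iff two_ne_zero |>.1 h3))).symm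

/-- A grid of step `δ`: `E i` is the part of `h` between `(i + 1) δ` and `(i + 2) δ`. -/
theorem exists_grid (M : VonNeumannAlgebra H) {h : H →L[ℂ] H} (hM : h ∈ M) (h0 : 0 ≤ h) {δ : ℝ}
    (hδ : 0 < δ) :
    ∃ (n : ℕ) (E : Fin n → H →L[ℂ] H) (C g : H →L[ℂ] H),
      (∀ i, E i ∈ M ∧ IsStarProjection (E i) ∧ Commute (E i) h) ∧
      (∀ i j, i ≠ j → E i * E j = 0) ∧ C + ∑ i, E i = 1 ∧ IsStarProjection C ∧ C ∈ M ∧
      (∀ u, ‖h (C u)‖ ≤ δ * ‖C u‖) ∧
      (∀ i u, ‖h (E i u) - ((((i : ℕ) + 1 : ℝ) * δ : ℝ) : ℂ) • E i u‖ ≤ δ * ‖E i u‖) ∧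
      g ∈ M ∧ IsSelfAdjoint g ∧ Commute g h ∧ (∀ i, Commute g (E i)) ∧
        ∀ i, g * h * E i = E i := by
  have hs : IsSelfAdjoint h := IsSelfAdjoint.of_nonneg h0
  obtain ⟨n, hn⟩ := exists_nat_gt (‖h‖ / δ)
  have hn' : ‖h‖ < ((n : ℝ) + 1) * δ := by
    rw [div_lt_iff₀ hδ] at hn; linarith
  set T : ℕ → H →L[ℂ] H := fun i => cut h (((i : ℝ) + 1) * δ) with hT
  have hTp : ∀ i, IsStarProjection (T i) := fun i => isStarProjection_cut h _
  have hTM : ∀ i, T i ∈ M := fun i => cut_mem M hM hs _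
  have hTmul : ∀ i j, i ≤ j → T i * T j = T i ∧ T j * T i = T i := by
    intro i j hij
    have e : T i * T j = T i := cut_mul_cut hs (by
      have : (i : ℝ) ≤ j := by exact_mod_cast hij
      nlinarith)
    exact ⟨e, by rw [← (hTp i).isSelfAdjoint.star_eq, ← (hTp j).isSelfAdjoint.star_eq, ← star_mul,
      e]⟩
  set gf : ℝ → ℝ := fun z => 1 / max z δ with hgf
  have hgc : Continuous gf :=
    Continuous.div (by fun_prop) (by fun_prop) fun z => (lt_max_of_lt_right hδ).ne'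
  set g := cfc gf h with hg
  have hgh : Commute g h := ((Commute.refl h).cfc_real gf)
  have hcomm : ∀ i, Commute g (T i) := fun i => commute_cut hs hgh _
  refine ⟨n, fun i => T (i + 1) - T i, T 0, g, fun i => ⟨sub_mem (hTM _) (hTM _), ?_, ?_⟩,
    fun i j hij => ?_, ?_, hTp 0, hTM 0, fun u => ?_, fun i u => ?_, ?_, cfc_predicate _ h, hgh,
    fun i => (hcomm _).sub_right (hcomm _), fun i => ?_⟩
  · refine (hTp _).sub_of_mul_eq_left (hTp _) ?_
    exact (hTmul i (i + 1) (Nat.le_succ _)).1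
  · exact ((commute_cut_self hs _).sub_right (commute_cut_self hs _)).symm
  · rcases lt_or_gt_of_ne hij with h' | h'
    · have h' : (i : ℕ) + 1 ≤ j := h'
      simp only [sub_mul, mul_sub, (hTmul _ _ (h'.trans (Nat.le_succ _))).1,
        (hTmul _ _ h').1, (hTmul (i : ℕ) (j : ℕ) (by omega)).1,
        (hTmul (i : ℕ) ((j : ℕ) + 1) (by omega)).1]
      abel
    · have h' : (j : ℕ) + 1 ≤ i := h'
      simp only [sub_mul, mul_sub, (hTmul _ _ (h'.trans (Nat.le_succ _))).2,
        (hTmul _ _ h').2, (hTmul (j : ℕ) (i : ℕ) (by omega)).2,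
        (hTmul (j : ℕ) ((i : ℕ) + 1) (by omega)).2]
      abel
  · rw [Fin.sum_univ_eq_sum_range (fun i => T (i + 1) - T i) n, Finset.sum_range_sub T n,
      add_sub_cancel, hT]
    exact cut_eq_one hs hn'
  · have hP : IsSelfAdjoint (h * T 0) := by
      rw [IsSelfAdjoint, star_mul, hs.star_eq, (hTp 0).isSelfAdjoint.star_eq,
        (commute_cut_self hs _).eq]
    have := norm_apply_le_of_form hP hδ (fun v => ?_) (T 0 u)
    · rwa [mul_apply_eq_comp, proj_apply (hTp 0)] at this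
    have e : ⟪(h * T 0) v, v⟫_ℂ = ⟪h (T 0 v), T 0 v⟫_ℂ := by
      rw [mul_apply_eq_comp, ← inner_proj (hTp 0)]
      have hc : T 0 (h (T 0 v)) = h (T 0 (T 0 v)) :=
        congrArg (fun f : H →L[ℂ] H => f (T 0 v)) (commute_cut_self hs _).eq.symm
      rw [hc, proj_apply (hTp 0)]
    rw [e]
    refine ⟨re_inner_nonneg_of_nonneg h0 _, ?_⟩
    have h1 := re_inner_le_of_mem_cutSpace hs (cut_mem_cutSpace h (((0 : ℕ) : ℝ) * δ + δ) v)
    simp only [Nat.cast_zero, zero_mul, zero_add] at h1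
    have h2 : T 0 v = cut h δ v := by simp [hT]
    rw [h2]
    exact h1.trans (mul_le_mul_of_nonneg_left
      (pow_le_pow_left₀ (norm_nonneg _) (norm_proj_le (isStarProjection_cut h δ) v) 2) hδ.le)
  · set Ei := T (i + 1) - T i with hEi
    have hEp : IsStarProjection Ei :=
      (hTp _).sub_of_mul_eq_left (hTp _) (hTmul i (i + 1) (Nat.le_succ _)).1
    have hEc : Commute h Ei := (commute_cut_self hs _).sub_right (commute_cut_self hs _)
    set t : ℝ := ((i : ℕ) + 1 : ℝ) * δ with ht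
    have hSc : Commute (shift h t) Ei := (commute_shift hEc.symm t).symm
    have hP : IsSelfAdjoint (shift h t * Ei) := by
      rw [IsSelfAdjoint, star_mul, (isSelfAdjoint_shift hs t).star_eq,
        hEp.isSelfAdjoint.star_eq, hSc.eq]
    have := norm_apply_le_of_form hP hδ (fun v => ?_) (Ei u)
    · rw [mul_apply_eq_comp, proj_apply hEp, shift, sub_apply, smul_apply,
        one_apply_eq_self] at this
      exact this
    have e : ⟪(shift h t * Ei) v, v⟫_ℂ = ⟪shift h t (Ei v), Ei v⟫_ℂ := by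
      rw [mul_apply_eq_comp, ← inner_proj hEp]
      have hc : Ei (shift h t (Ei v)) = shift h t (Ei (Ei v)) :=
        congrArg (fun f : H →L[ℂ] H => f (Ei v)) hSc.eq.symm
      rw [hc, proj_apply hEp]
    have e3 : (⟪shift h t (Ei v), Ei v⟫_ℂ).re = (⟪h (Ei v), Ei v⟫_ℂ).re - t * ‖Ei v‖ ^ 2 := by
      simp only [shift, sub_apply, smul_apply, one_apply_eq_self, inner_sub_left, inner_smul_left,
        Complex.sub_re, Complex.conj_ofReal, Complex.re_ofReal_mul]
      rw [show (⟪Ei v, Ei v⟫_ℂ).re = ‖Ei v‖ ^ 2 from inner_self_eq_norm_sq (𝕜 := ℂ) _]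
    rw [e, e3]
    have k1 : T i (Ei v) = 0 := by
      rw [← mul_apply_eq_comp, hEi, mul_sub, (hTmul i (i + 1) (Nat.le_succ _)).1,
        (hTp i).isIdempotentElem.eq, sub_self]
      rfl
    have k2 : Ei v ∈ cutSpace h (t + δ) := by
      have e : T (i + 1) (Ei v) = Ei v := by
        rw [← mul_apply_eq_comp, hEi, mul_sub, (hTp _).isIdempotentElem.eq,
          (hTmul i (i + 1) (Nat.le_succ _)).2]
      rw [← e, ht, show ((i : ℕ) + 1 : ℝ) * δ + δ = ((((i : ℕ) + 1 : ℕ) : ℝ) + 1) * δ by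
        push_cast; ring]
      exact cut_mem_cutSpace h _ _
    have h1 := le_re_inner_of_cut_eq_zero hs (t := t) k1
    have h2 := re_inner_le_of_mem_cutSpace hs k2
    have h3 := pow_le_pow_left₀ (norm_nonneg _) (norm_proj_le hEp v) 2
    constructor <;> nlinarith
  · exact mem_of_commute_commutant M fun z hz =>
      (Commute.cfc_real (VonNeumannAlgebra.mem_commutant_iff.1 hz _ hM) gf).symm
  -- `g h = 1` above the first cut
  set X := g * h - 1 with hX
  have hXs : IsSelfAdjoint X := by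
    rw [IsSelfAdjoint, hX, star_sub, star_one, star_mul, hs.star_eq,
      (cfc_predicate gf h : IsSelfAdjoint g).star_eq, hgh.eq]
  have hXT : T 0 * X = X := by
    refine ContinuousLinearMap.ext fun v => Submodule.starProjection_eq_self_iff.2 ?_
    have hp : (shift h (((0 : ℕ) + 1 : ℝ) * δ))⁺ = cfc (fun z => max (z - δ) 0) h := by
      rw [CFC.posPart_def, cfcₙ_eq_cfc, shift, Nat.cast_zero, zero_add, one_mul, Complex.coe_smul,
        ← Algebra.algebraMap_eq_smul_one]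
      nth_rewrite 1 [← cfc_id' ℝ h]
      rw [← cfc_const δ h, ← cfc_sub (fun z : ℝ => z) (fun _ => δ) h, ← cfc_comp' _ _ h]
      rfl
    show (shift h (((0 : ℕ) + 1 : ℝ) * δ))⁺ (X v) = 0
    have hX2 : X = cfc (fun z => gf z * z - 1) h := by
      rw [cfc_sub (fun z => gf z * z) (fun _ => (1 : ℝ)) h (hgc.mul continuous_id).continuousOn
          continuousOn_const, cfc_const (1 : ℝ) h, cfc_mul gf (fun z => z) h hgc.continuousOn
        continuousOn_id, cfc_id' ℝ h, map_one]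
    rw [hp, hX2, ← mul_apply_eq_comp, ← cfc_mul (fun z => max (z - δ) 0) (fun z => gf z * z - 1) h
      (by fun_prop) (((hgc.mul continuous_id).sub continuous_const).continuousOn)]
    rw [cfc_congr (g := fun _ => (0 : ℝ)) (fun z _ => ?_), cfc_const_zero]
    · rfl
    rcases le_or_gt z δ with hz | hz
    · simp [max_eq_right (sub_nonpos.2 hz)]
    · have : 0 < z := hδ.trans hz
      simp only [hgf, max_eq_left hz.le]
      field_simp
      ring
  have hXT' : X * T 0 = X := by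
    have := congrArg star hXT
    rwa [star_mul, hXs.star_eq, (hTp 0).isSelfAdjoint.star_eq] at this
  have hz : X * (T (i + 1) - T i) = 0 := by
    rw [← hXT', mul_assoc, mul_sub, (hTmul 0 _ (Nat.zero_le _)).1, (hTmul 0 _ (Nat.zero_le _)).1,
      sub_self, mul_zero]
  rwa [hX, sub_mul, one_mul, sub_eq_zero] at hz

end Vale.Agent.P132.Homog
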