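import Vale.Agent.P132.Homog.Block

/-!
# Some ratio between two corners

`A (ζ y + y ζ) = y ζ` extends to a selfadjoint `0 ≤ A ≤ 1` with `A` and `1 - A` injective. A point
`0 < t < 1` of its spectrum on a corner gives approximate eigenvectors `y ζ ≈ c ζ y`,
`c = t / (1 - t)`.
-/

namespace Vale.Agent.P132.Homog

open scoped InnerProductSpace Topology ComplexOrder
open Filter

universe u

variable {H : Type u} [NormedAddCommGroup H] [InnerProductSpace ℂ H] [CompleteSpace H]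
variable {ι : Type*} [Fintype ι] {M : VonNeumannAlgebra H} {Ω : H}

theorem plusMap_apply (D : StdData M Ω) (ζ : H) (y : mSub M) :
    plusMap D ζ y = D.R y.1 ζ + y.1 ζ := rfl

theorem exists_near_eigen {B : H →L[ℂ] H} (hB : IsSelfAdjoint B) {t : ℝ}
    (ht : t ∈ spectrum ℝ B) {ε : ℝ} (hε : 0 < ε) :
    ∃ η : H, η ≠ 0 ∧ ‖B η - (t : ℂ) • η‖ ≤ ε * ‖η‖ := by
  by_contra h
  simp only [not_exists, not_and, not_le] at h
  have hSs : IsSelfAdjoint (P078.General.shift B t) := P078.General.isSelfAdjoint_shift hB t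
  have hlow : ∀ η, ε * ‖η‖ ≤ ‖P078.General.shift B t η‖ := by
    intro η
    rcases eq_or_ne η 0 with rfl | h0
    · simp
    · simpa [P078.General.shift] using (h η h0).le
  set S := P078.General.shift B t with hS
  have hu : IsUnit (S * S) := by
    refine ContinuousLinearMap.isUnit_of_forall_le_norm_inner_map (S * S)
      (c := ⟨ε ^ 2, sq_nonneg ε⟩) (show (0 : ℝ) < ε ^ 2 by positivity) fun η => ?_
    rw [mul_apply_eq_comp, P078.General.inner_sa hSs, inner_self_eq_norm_sq_to_K]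
    simp only [norm_pow, RCLike.norm_ofReal, abs_norm, NNReal.coe_mk]
    calc ‖η‖ ^ 2 * ε ^ 2 = (ε * ‖η‖) ^ 2 := by ring
      _ ≤ _ := pow_le_pow_left₀ (by positivity) (hlow η) 2
  have hSu : IsUnit S := ((Commute.refl S).isUnit_mul_iff.1 hu).1
  refine spectrum.mem_iff.1 ht ?_
  have e : algebraMap ℝ (H →L[ℂ] H) t - B = -S := by
    rw [hS, P078.General.shift, Algebra.algebraMap_eq_smul_one, Complex.coe_smul, neg_sub]
  rw [e]
  exact hSu.neg

variable (D : StdData M Ω) {e : ι → H →L[ℂ] H}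

/-- The bounded form of `ζ y ↦ y ζ`. -/
theorem exists_A (hΩ : IsCS M Ω) (hMax : StmtMax.{u}) (he : IsBlock M e) :
    ∃ A : H →L[ℂ] H, IsSelfAdjoint A ∧
      (∀ y ∈ M, A (D.R y (blk D e) + y (blk D e)) = y (blk D e)) ∧
      (∀ η, 0 ≤ (⟪A η, η⟫_ℂ).re ∧ (⟪A η, η⟫_ℂ).re ≤ ‖η‖ ^ 2) ∧
      (∀ η, A η = 0 → η = 0) ∧ ∀ η, A η = η → η = 0 := by
  set ζ := blk D e with hζ
  have hd := denseRange_plusMap D hΩ hMax he
  rw [← hζ] at hd
  let f : mSub M →ₗ[ℂ] H :=
    { toFun := fun y => y.1 ζ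
      map_add' := fun y z => rfl
      map_smul' := fun c y => rfl }
  have hb : ∀ y : mSub M, ‖f y‖ ≤ 1 * ‖plusMap D ζ y‖ := fun y => by
    rw [one_mul, plusMap_apply]
    refine le_of_pow_le_pow_left₀ two_ne_zero (norm_nonneg _) ?_
    rw [@norm_add_sq ℂ, inner_re_symm]
    have h0 := B_blk_self_nonneg D he y.2
    rw [← hζ] at h0
    simp only [RCLike.re_to_complex]
    show ‖y.1 ζ‖ ^ 2 ≤ _
    nlinarith [norm_nonneg (D.R y.1 ζ)]
  set A := f.extendOfNorm (plusMap D ζ) with hA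
  have hAe : ∀ y : mSub M, A (plusMap D ζ y) = y.1 ζ := fun y =>
    LinearMap.extendOfNorm_eq hd ⟨1, hb⟩ y
  have hsym : ∀ v w, ⟪A v, w⟫_ℂ = ⟪v, A w⟫_ℂ := fun v w => by
    refine hd.induction_on₂ (isClosed_eq (by fun_prop) (by fun_prop)) (fun y z => ?_) v w
    rw [hAe, hAe, plusMap_apply, plusMap_apply, inner_add_left, inner_add_right,
      ← B_blk_symm D he y.2 z.2]
  have hAs : IsSelfAdjoint A := ContinuousLinearMap.isSelfAdjoint_iff_isSymmetric.2 hsym
  refine ⟨A, hAs, fun y hy => hAe ⟨y, hy⟩, fun η => ?_, fun η h0 => ?_, fun η h0 => ?_⟩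
  · refine hd.induction_on η ((isClosed_le continuous_const (by fun_prop)).and
      (isClosed_le (by fun_prop) (by fun_prop))) fun y => ?_
    have h0 := B_blk_self_nonneg D he y.2
    rw [← hζ] at h0
    rw [hAe, plusMap_apply, inner_add_right, Complex.add_re, @norm_add_sq ℂ, inner_re_symm]
    simp only [RCLike.re_to_complex]
    have h1 : (⟪y.1 ζ, y.1 ζ⟫_ℂ).re = ‖y.1 ζ‖ ^ 2 := inner_self_eq_norm_sq (𝕜 := ℂ) _
    rw [h1]
    constructor <;> nlinarith [norm_nonneg (D.R y.1 ζ), norm_nonneg (y.1 ζ)]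
  · refine eq_zero_of_orth_orbit D he fun y hy => ?_
    rw [← hζ, ← hAe ⟨y, hy⟩, hsym, h0, inner_zero_right]
  · have hJ : D.J η = 0 := by
      refine eq_zero_of_orth_orbit D he fun y hy => ?_
      have h := hsym (plusMap D ζ ⟨star y, star_mem (s := M) hy⟩) η
      rw [hAe, h0, plusMap_apply, inner_add_left, right_eq_add] at h
      rw [D.inner_J_right, D.J_left, ← hζ, J_blk D he, ← inner_conj_symm, h, map_zero]
    rw [← D.J_invol η, hJ, D.J_zero]

/-- Some ratio: approximate eigenvectors in a corner. -/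
theorem exists_ratio (hΩ : IsCS M Ω) (hMax : StmtMax.{u}) (he : IsBlock M e) (i j : ι)
    {y0 : H →L[ℂ] H} (hy0 : y0 ∈ M) (hy0' : e j * y0 * e i = y0) (hne : y0 ≠ 0) :
    ∃ c : ℝ, 0 < c ∧ ∀ ε : ℝ, 0 < ε → ∃ y ∈ M, e j * y * e i = y ∧ y (blk D e) ≠ 0 ∧
      ‖y (blk D e) - (c : ℂ) • D.R y (blk D e)‖ ≤ ε * ‖y (blk D e)‖ := by
  set ζ := blk D e with hζ
  have hd := denseRange_plusMap D hΩ hMax he
  rw [← hζ] at hd
  obtain ⟨A, hAs, hAe, hA01, hAinj, hA1inj⟩ := exists_A D hΩ hMax he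
  rw [← hζ] at hAe
  have hij : Commute (e j) (D.R (e i)) :=
    ContinuousLinearMap.ext fun v => D.R_comm (he.mem j) (he.mem i) v
  obtain ⟨P, hPdef⟩ : ∃ P, P = e j * D.R (e i) := ⟨_, rfl⟩
  have hP : IsStarProjection P := hPdef ▸ (he.proj j).mul (D.R_proj (he.proj i)) hij
  have hmem : ∀ y ∈ M, e j * y * e i ∈ M := fun y hy => mul_mem₃ (he.mem j) hy (he.mem i)
  have hP1 : ∀ y ∈ M, P (y ζ) = (e j * y * e i) ζ := fun y hy => by
    rw [hPdef, mul_apply_eq_comp, ← D.R_comm hy (he.mem i), ← left_eq_R_blk D he,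
      mul_apply_eq_comp, mul_apply_eq_comp]
  have hP2 : ∀ y ∈ M, P (D.R y ζ) = D.R (e j * y * e i) ζ := fun y hy => by
    rw [hPdef, mul_apply_eq_comp, D.R_R, D.R_comm (he.mem j) (mul_mem hy (he.mem i)),
      left_eq_R_blk D he, D.R_R, mul_assoc]
  have hPA : ∀ v, P (A v) = A (P v) := fun v => by
    refine hd.induction_on v (isClosed_eq (by fun_prop) (by fun_prop)) fun y => ?_
    rw [plusMap_apply, hAe _ y.2, map_add, hP1 _ y.2, hP2 _ y.2, hAe _ (hmem _ y.2)]
  have hAP : Commute A P := ContinuousLinearMap.ext fun v => (hPA v).symm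
  set B := A * P with hBdef
  have hBs : IsSelfAdjoint B := by
    rw [IsSelfAdjoint, hBdef, star_mul, hAs.star_eq, hP.isSelfAdjoint.star_eq, hAP.eq]
  have hBP : ∀ η, P (B η) = B η := fun η => by
    rw [hBdef, mul_apply_eq_comp, hPA, proj_apply hP]
  have hB01 : ∀ η, 0 ≤ (⟪B η, η⟫_ℂ).re ∧ (⟪B η, η⟫_ℂ).re ≤ ‖η‖ ^ 2 := fun η => by
    rw [← hBP η, inner_proj hP, hBdef, mul_apply_eq_comp]
    refine ⟨(hA01 _).1, (hA01 _).2.trans ?_⟩
    exact pow_le_pow_left₀ (norm_nonneg _) (P078.General.norm_proj_le hP η) 2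
  have hrange : ∀ t ∈ spectrum ℝ B, 0 ≤ t ∧ t ≤ 1 := by
    intro t ht
    have key : ∀ ε : ℝ, 0 < ε → -ε ≤ t ∧ t ≤ 1 + ε := by
      intro ε hε
      obtain ⟨η, hη, hb⟩ := exists_near_eigen hBs ht hε
      have h1 : |(⟪B η, η⟫_ℂ).re - t * ‖η‖ ^ 2| ≤ ε * ‖η‖ ^ 2 := by
        have h2 := (Complex.abs_re_le_norm _).trans (norm_inner_le_norm (B η - (t : ℂ) • η) η)
        rw [inner_sub_left, inner_smul_left, Complex.conj_ofReal, Complex.sub_re,
          Complex.re_ofReal_mul,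
          show (⟪η, η⟫_ℂ).re = ‖η‖ ^ 2 from inner_self_eq_norm_sq (𝕜 := ℂ) η] at h2
        exact h2.trans ((mul_le_mul_of_nonneg_right hb (norm_nonneg _)).trans_eq (by ring))
      have hn : 0 < ‖η‖ ^ 2 := pow_pos (norm_pos_iff.2 hη) 2
      obtain ⟨h3, h4⟩ := abs_le.1 h1
      obtain ⟨h5, h6⟩ := hB01 η
      constructor
      · exact le_of_mul_le_mul_right (by linarith) hn
      · exact le_of_mul_le_mul_right (by linarith) hn
    constructor
    · by_contra h
      linarith [(key (-t / 2) (by linarith)).1]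
    · by_contra h
      linarith [(key ((t - 1) / 2) (by linarith)).2]
  obtain ⟨t, ht, ht0, ht1⟩ : ∃ t ∈ spectrum ℝ B, 0 < t ∧ t < 1 := by
    by_contra h
    simp only [not_exists, not_and, not_lt] at h
    have hBB : B * B = B := by
      conv_rhs => rw [← cfc_id' ℝ B]
      conv_lhs => rw [← cfc_id' ℝ B, ← cfc_mul _ _ B]
      refine cfc_congr fun t ht => ?_
      rcases eq_or_lt_of_le (hrange t ht).1 with h0 | h0
      · simp [← h0]
      · rw [le_antisymm (hrange t ht).2 (h t ht h0), one_mul]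
    have hz : ∀ v, P v = 0 := by
      intro v
      have e0 := congrArg (fun f : H →L[ℂ] H => f v) hBB
      simp only [hBdef, mul_apply_eq_comp, hPA, proj_apply hP] at e0
      have e1 : A (P v) = P v := sub_eq_zero.1 (hAinj _ (by rw [map_sub, e0, sub_self]))
      exact hA1inj _ e1
    refine hne (blk_separating D he hy0 ?_)
    rw [← hζ, ← hy0', ← hP1 y0 hy0, hz]
  refine ⟨t / (1 - t), div_pos ht0 (by linarith), fun ε hε => ?_⟩
  set δ := min (t / 24) (ε * t * (1 - t) / 24) with hδdef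
  have hδ : 0 < δ := lt_min (by linarith) (by
    have : 0 < 1 - t := by linarith
    positivity)
  have hδ1 : δ ≤ t / 24 := min_le_left _ _
  have hδ2 : δ ≤ ε * t * (1 - t) / 24 := min_le_right _ _
  obtain ⟨η, hη, hb⟩ := exists_near_eigen hBs ht hδ
  set N := ‖η‖ with hN
  have hN0 : 0 < N := norm_pos_iff.2 hη
  obtain ⟨yy, hyy⟩ := Metric.denseRange_iff.1 hd η (δ * N) (by positivity)
  rw [dist_eq_norm] at hyy
  set y := e j * yy.1 * e i with hy
  have hyM : y ∈ M := hmem _ yy.2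
  set F := D.R y ζ + y ζ with hF
  have hFP : F = P (plusMap D ζ yy) := by
    rw [hF, plusMap_apply, map_add, hP1 _ yy.2, hP2 _ yy.2]
  have hFη : ‖F - P η‖ ≤ δ * N := by
    rw [hFP, ← map_sub, ← neg_sub η, map_neg, norm_neg]
    exact (P078.General.norm_proj_le hP _).trans hyy.le
  have he1 : t * ‖η - P η‖ ≤ 2 * δ * N := by
    have e : (t : ℂ) • (η - P η) = P (B η - (t : ℂ) • η) - (B η - (t : ℂ) • η) := by
      rw [map_sub, hBP, map_smul, smul_sub]; abel
    have h := congrArg norm e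
    rw [norm_smul, Complex.norm_real, Real.norm_of_nonneg ht0.le] at h
    rw [h]
    refine (norm_sub_le _ _).trans ?_
    linarith [(P078.General.norm_proj_le hP (B η - (t : ℂ) • η)).trans hb]
  have hAc : ∀ v, ‖A v‖ ≤ ‖v‖ := fun v => by
    refine hd.induction_on v (isClosed_le (by fun_prop) (by fun_prop)) fun z => ?_
    rw [plusMap_apply, hAe _ z.2]
    refine le_of_pow_le_pow_left₀ two_ne_zero (norm_nonneg _) ?_
    rw [@norm_add_sq ℂ, inner_re_symm]
    have h0 := B_blk_self_nonneg D he z.2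
    rw [← hζ] at h0
    simp only [RCLike.re_to_complex]
    nlinarith [norm_nonneg (D.R z.1 ζ)]
  have h4 : ‖y ζ - (t : ℂ) • F‖ ≤ 5 * δ * N := by
    have e : y ζ - (t : ℂ) • F =
        A (F - P η) + (B η - (t : ℂ) • η) + (t : ℂ) • (η - P η) + (t : ℂ) • (P η - F) := by
      have e1 : A F = y ζ := hAe y hyM
      have e2 : B η = A (P η) := rfl
      rw [map_sub, e1, e2, smul_sub, smul_sub]
      abel
    rw [e]
    refine norm_add₄_le.trans ?_
    rw [norm_smul, norm_smul, Complex.norm_real, Real.norm_of_nonneg ht0.le, norm_sub_rev (P η) F]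
    linarith [(hAc (F - P η)).trans hFη, mul_le_mul_of_nonneg_left hFη ht0.le,
      mul_le_mul_of_nonneg_right ht1.le (mul_nonneg hδ.le hN0.le)]
  have hlow : t * N / 2 ≤ ‖y ζ‖ + 5 * δ * N := by
    have h5 : t * N ≤ t * ‖η - P η‖ + t * (δ * N) + t * ‖F‖ := by
      rw [← mul_add, ← mul_add]
      refine mul_le_mul_of_nonneg_left ?_ ht0.le
      calc N = ‖(η - P η) + (P η - F) + F‖ := by rw [hN]; congr 1; abel
        _ ≤ _ := by
          refine (norm_add₃_le).trans ?_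
          rw [norm_sub_rev (P η) F]
          linarith
    have h6 : t * ‖F‖ ≤ ‖y ζ‖ + 5 * δ * N := by
      have h7 : ‖(t : ℂ) • F‖ ≤ ‖y ζ‖ + ‖y ζ - (t : ℂ) • F‖ := by
        rw [← norm_sub_rev ((t : ℂ) • F)]
        exact norm_le_insert' _ _
      rw [norm_smul, Complex.norm_real, Real.norm_of_nonneg ht0.le] at h7
      linarith
    nlinarith [mul_le_mul_of_nonneg_right hδ1 hN0.le, mul_pos hδ hN0]
  have hy0n : t * N / 24 ≤ ‖y ζ‖ := by nlinarith [mul_le_mul_of_nonneg_right hδ1 hN0.le]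
  refine ⟨y, hyM, ?_, fun h => ?_, ?_⟩
  · rw [hy]
    simp only [mul_assoc]
    rw [(he.proj i).isIdempotentElem.eq, ← mul_assoc (e j) (e j),
      (he.proj j).isIdempotentElem.eq]
  · rw [h, norm_zero] at hy0n
    nlinarith
  have h1t : 0 < 1 - t := by linarith
  have e : y ζ - ((t / (1 - t) : ℝ) : ℂ) • D.R y ζ =
      ((1 - t)⁻¹ : ℂ) • (y ζ - (t : ℂ) • F) := by
    have h1 : (1 : ℂ) - (t : ℂ) ≠ 0 := by
      rw [← Complex.ofReal_one, ← Complex.ofReal_sub]
      exact Complex.ofReal_ne_zero.2 h1t.ne'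
    rw [hF, smul_add, smul_sub, smul_add, smul_smul, smul_smul, Complex.ofReal_div,
      Complex.ofReal_sub, Complex.ofReal_one]
    match_scalars <;> field_simp
  rw [e, norm_smul, ← Complex.ofReal_one, ← Complex.ofReal_sub, ← Complex.ofReal_inv,
    Complex.norm_real, Real.norm_of_nonneg (inv_pos.2 h1t).le, inv_mul_le_iff₀ h1t]
  refine h4.trans ?_
  have h10 : t * N / 4 ≤ ‖y ζ‖ := by nlinarith [mul_le_mul_of_nonneg_right hδ1 hN0.le]
  have h8 : 5 * δ * N ≤ 5 * (ε * t * (1 - t) / 24) * N := by gcongr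
  have h11 := mul_le_mul_of_nonneg_left h10 (mul_nonneg hε.le h1t.le)
  have h12 : 0 ≤ (1 - t) * (ε * ‖y ζ‖) := by positivity
  linarith

end Vale.Agent.P132.Homog
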