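import Vale.Agent.P132.Homog.Steps
import Vale.Agent.P132.Homog.Ratio
import Vale.Agent.P132.Homog.Rproj

/-!
# A partial isometry of ratio one between two corners

Some ratio `c` between the corners, then the ratio `1/c` inside the initial projection.
-/

namespace Vale.Agent.P132.Homog

open scoped InnerProductSpace Topology ComplexOrder
open Filter Vale.Agent.P078.General

universe u

variable {H : Type u} [NormedAddCommGroup H] [InnerProductSpace ℂ H] [CompleteSpace H]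
variable {ι : Type*} [Fintype ι] {M : VonNeumannAlgebra H} {Ω : H}
variable (D : StdData M Ω) {e : ι → H →L[ℂ] H}

theorem isBlock_pair {t u : H →L[ℂ] H} (ht : t ∈ M) (hu : u ∈ M) (htp : IsStarProjection t)
    (hup : IsStarProjection u) (htu : t * u = 0) : IsBlock M ![t, u, 1 - t - u] := by
  have hut : u * t = 0 := by
    simpa [htp.isSelfAdjoint.star_eq, hup.isSelfAdjoint.star_eq] using congrArg star htu
  have h3 : IsStarProjection (1 - t - u) := by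
    rw [sub_sub]; exact (htp.add hup htu).one_sub
  refine ⟨fun i => ?_, fun i => ?_, fun i j hij => ?_, ?_⟩
  · fin_cases i
    · exact ht
    · exact hu
    · exact sub_mem (sub_mem (one_mem M) ht) hu
  · fin_cases i
    · exact htp
    · exact hup
    · exact h3
  · fin_cases i <;> fin_cases j <;> first
      | exact absurd rfl hij
      | simp [mul_sub, sub_mul, htu, hut, htp.isIdempotentElem.eq, hup.isIdempotentElem.eq]
  · simp [Fin.sum_univ_three]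

/-- `z ζ = z Ω t` if `z = z t`. -/
theorem apply_blk (he : IsBlock M e) {k : ι} {z : H →L[ℂ] H} (hz : z ∈ M) (h : z * e k = z) :
    z (blk D e) = D.R (e k) (z Ω) := by
  rw [← h, mul_apply_eq_comp, left_blk D he, D.R_comm hz (he.mem k), mul_apply_eq_comp]

/-- `ζ z = t Ω z` if `z = t z`. -/
theorem R_apply_blk (he : IsBlock M e) {k : ι} {z : H →L[ℂ] H} (hz : z ∈ M) (h : e k * z = z) :
    D.R z (blk D e) = e k (D.R z Ω) := by
  conv_lhs => rw [← h]
  rw [D.R_mul, mul_apply_eq_comp, R_blk D he, D.R_R, h, ← D.R_comm (he.mem k) hz]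

/-- Inside a block the corners of `ζ` are those of `Ω`. -/
theorem R_corner_blk (he : IsBlock M e) {k : ι} {z P : H →L[ℂ] H} (hz : z ∈ M)
    (h : z * e k = z) (hP : e k * P = P) : D.R P (z (blk D e)) = D.R P (z Ω) := by
  rw [apply_blk D he hz h, D.R_R, hP]

theorem left_corner_blk (he : IsBlock M e) {k : ι} {z Q : H →L[ℂ] H} (hz : z ∈ M)
    (h : e k * z = z) (hQ : Q * e k = Q) : Q (D.R z (blk D e)) = Q (D.R z Ω) := by
  rw [R_apply_blk D he hz h, ← mul_apply_eq_comp Q, hQ]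

/-- For a projection `P` of a block. -/
theorem proj_blk_facts (he : IsBlock M e) {k : ι} {P : H →L[ℂ] H} (hPM : P ∈ M)
    (hPp : IsStarProjection P) (hP : e k * P = P) :
    ‖P (D.R P Ω)‖ ≤ ‖P (blk D e)‖ ∧
      ‖P (blk D e)‖ ≤ ‖P (D.R P Ω)‖ + ‖P (blk D e) - D.R P (blk D e)‖ ∧
      ‖P (D.R (e k - P) Ω)‖ ≤ ‖P (blk D e) - D.R P (blk D e)‖ := by
  have hP' := proj_le_comm (he.proj k) hPp hP
  have e1 : P (D.R P (blk D e)) = P (D.R P Ω) := left_corner_blk D he hPM hP hP'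
  have e2 : P (blk D e) = P (D.R (e k) Ω) := by
    rw [apply_blk D he hPM hP', D.R_comm hPM (he.mem k)]
  refine ⟨?_, ?_, ?_⟩
  · rw [← e1, D.R_comm hPM hPM]
    exact norm_proj_le (D.R_proj hPp) _
  · have h := norm_le_insert' (P (blk D e)) (P (D.R P (blk D e)))
    rw [e1] at h
    refine h.trans (add_le_add le_rfl ?_)
    calc ‖P (blk D e) - P (D.R P Ω)‖ = ‖P (P (blk D e) - D.R P (blk D e))‖ := by
          rw [map_sub, proj_apply hPp, e1]
      _ ≤ _ := norm_proj_le hPp _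
  · calc ‖P (D.R (e k - P) Ω)‖ = ‖P (P (blk D e) - D.R P (blk D e))‖ := by
          rw [map_sub, proj_apply hPp, e1, e2, D.R_sub, sub_apply, map_sub]
      _ ≤ _ := norm_proj_le hPp _

theorem le_of_sq_le_exists_pi {a b r ρ : ℝ} (h : a ^ 2 ≤ (4 * r ^ 2 + 8 * r) * b ^ 2)
    (hb : 0 ≤ b) (hρ : 0 ≤ ρ) (hρ1 : ρ ≤ 1) (hr : r = ρ ^ 2 / 16) : a ≤ ρ * b := by
  refine le_of_pow_le_pow_left₀ two_ne_zero (mul_nonneg hρ hb) (h.trans ?_)
  rw [mul_pow]
  refine mul_le_mul_of_nonneg_right ?_ (sq_nonneg b)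
  subst hr
  nlinarith [pow_le_one₀ hρ hρ1 (n := 2), sq_nonneg ρ]

theorem exists_pi_corner (he : IsBlock M e) {i j : ι} {c : ℝ} (hc : 0 < c) {ρ : ℝ} (hρ0 : 0 < ρ)
    (hρ : ρ ≤ 1) {y : H →L[ℂ] H} (hyM : y ∈ M) (hye : e j * y * e i = y)
    (hyne : y (blk D e) ≠ 0)
    (hyle : ‖y (blk D e) - (c : ℂ) • D.R y (blk D e)‖ ≤ ρ ^ 2 / 16 * ‖y (blk D e)‖) :
    ∃ v ∈ M, v * (star v * v) = v ∧ e j * v = v ∧ v * e i = v ∧ v (blk D e) ≠ 0 ∧
      ‖v (blk D e) - (c : ℂ) • D.R v (blk D e)‖ ≤ ρ * ‖v (blk D e)‖ := by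
  obtain ⟨v, hvM, hv, hva, hvb, hvne, hvle⟩ :=
    exists_pi (a := e j) (b := e i) D (J_blk D he) hc.le
    (show 0 < ρ ^ 2 / 16 by positivity) hyM
    (by rw [← hye, ← mul_assoc, ← mul_assoc, (he.proj j).isIdempotentElem.eq])
    (by rw [← hye, mul_assoc, (he.proj i).isIdempotentElem.eq]) hyne hyle
  exact ⟨v, hvM, hv, hva, hvb, hvne,
    le_of_sq_le_exists_pi hvle (norm_nonneg _) hρ0.le hρ rfl⟩

/-- Composition with an element of the inverse ratio inside the initial projection. -/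
theorem compose_facts (he : IsBlock M e) {i : ι} {c : ℝ} (hc : 0 < c) {v x : H →L[ℂ] H}
    (hvM : v ∈ M) (hv : v * (star v * v) = v) (hvb : v * e i = v) (hxM : x ∈ M)
    (hsx : star v * v * x = x) (hxs : x * (star v * v) = x) (hxn : ∀ u, ‖x u‖ ≤ ‖u‖) :
    let ζ := blk D e
    let s := star v * v
    let E := ‖v ζ - (c : ℂ) • D.R v ζ‖
    ‖v ζ‖ ≤ ‖s (D.R s Ω)‖ + 2 * E ∧ x * e i = x ∧
      ‖D.R s (x Ω)‖ ≤ ‖(v * x) ζ‖ ∧
      ‖(v * x) ζ - ((1 : ℝ) : ℂ) • D.R (v * x) ζ‖ ≤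
        (2 + 3 / c) * E + ‖s (D.R s (gap D (1 / c) x))‖ := by
  intro ζ s E
  have hζ : D.J ζ = ζ := J_blk D he
  have hsM : s ∈ M := mul_mem (star_mem hvM) hvM
  have hsp : IsStarProjection s :=
    ⟨by rw [IsIdempotentElem, mul_assoc, hv], IsSelfAdjoint.star_mul_self v⟩
  replace hsx : s * x = x := hsx
  replace hxs : x * s = x := hxs
  have hst : s * e i = s := by rw [mul_assoc, hvb]
  have hts : e i * s = s := by
    simpa [star_mul, hsp.isSelfAdjoint.star_eq, (he.proj i).isSelfAdjoint.star_eq]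
      using congrArg star hst
  have hsd : ‖s ζ - D.R s ζ‖ ≤ 2 * E := (norm_tgt_src_sub_le D hζ hc hvM hv).1
  have hxt : x * e i = x := by rw [← hxs, mul_assoc, hst]
  have htx : e i * x = x := by rw [← hsx, ← mul_assoc, hts]
  have k1 : D.R s (x ζ) = D.R s (x Ω) := R_corner_blk D he hxM hxt hts
  have k2 : s (D.R x ζ) = s (D.R x Ω) := left_corner_blk D he hxM htx hst
  have d1 : ‖x ζ - D.R s (x ζ)‖ ≤ 2 * E := by
    have e1 : x ζ - D.R s (x ζ) = x (s (s ζ - D.R s ζ)) := by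
      rw [← D.R_comm hxM hsM, map_sub, proj_apply hsp, map_sub,
        ← mul_apply_eq_comp x s, ← mul_apply_eq_comp x s, hxs]
    rw [e1]
    exact (hxn _).trans ((norm_proj_le hsp _).trans hsd)
  have d2 : ‖D.R x ζ - s (D.R x ζ)‖ ≤ 2 * E := by
    have e1 : D.R x ζ - s (D.R x ζ) = D.R x (D.R s (D.R s ζ - s ζ)) := by
      symm
      rw [D.R_R, hsx, map_sub, D.R_R, hsx, ← D.R_comm hsM hxM]
    rw [e1]
    refine (D.norm_R_le _ _).trans ((mul_le_of_le_one_left (norm_nonneg _)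
      (opNorm_le_one hxn)).trans ?_)
    refine (norm_proj_le (D.R_proj hsp) _).trans ?_
    rwa [norm_sub_rev]
  have hg : s (D.R s (gap D (1 / c) x)) = D.R s (x Ω) - ((1 / c : ℝ) : ℂ) • s (D.R x Ω) := by
    rw [gap, map_sub, map_sub, map_smul, map_smul, D.R_R, hxs, D.R_comm hsM hsM,
      ← mul_apply_eq_comp s x, hsx]
  have hc1 : ‖((1 / c : ℝ) : ℂ)‖ = 1 / c := by
    rw [Complex.norm_real, Real.norm_of_nonneg (by positivity : (0 : ℝ) ≤ 1 / c)]
  have herrx : ‖x ζ - ((1 / c : ℝ) : ℂ) • D.R x ζ‖ ≤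
      2 * E + ‖s (D.R s (gap D (1 / c) x))‖ + 1 / c * (2 * E) := by
    have e1 : x ζ - ((1 / c : ℝ) : ℂ) • D.R x ζ = (x ζ - D.R s (x ζ)) + s (D.R s (gap D (1 / c) x))
        - ((1 / c : ℝ) : ℂ) • (D.R x ζ - s (D.R x ζ)) := by
      rw [hg, k1, k2, smul_sub]; abel
    rw [e1]
    refine (norm_sub_le _ _).trans
      (add_le_add ((norm_add_le _ _).trans (add_le_add d1 le_rfl)) ?_)
    rw [norm_smul, hc1]
    exact mul_le_mul_of_nonneg_left d2 (by positivity)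
  refine ⟨?_, hxt, ?_, ?_⟩
  · rw [norm_pi_apply hv]
    exact ((proj_blk_facts D he hsM hsp hts).2.1).trans (add_le_add le_rfl hsd)
  · rw [mul_apply_eq_comp, norm_pi_apply hv]
    show _ ≤ ‖s (x ζ)‖
    rw [← mul_apply_eq_comp s, hsx, ← k1]
    exact norm_proj_le (D.R_proj hsp) _
  · have e1 : (v * x) ζ - ((1 : ℝ) : ℂ) • D.R (v * x) ζ =
        v (x ζ - ((1 / c : ℝ) : ℂ) • D.R x ζ) +
        ((1 / c : ℝ) : ℂ) • D.R x (v ζ - (c : ℂ) • D.R v ζ) := by
      rw [map_sub, map_smul, D.R_comm hvM hxM, map_sub, map_smul, D.R_R, smul_sub, smul_smul,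
        ← Complex.ofReal_mul, one_div_mul_cancel hc.ne', mul_apply_eq_comp]
      abel
    have h2 : ‖D.R x (v ζ - (c : ℂ) • D.R v ζ)‖ ≤ E :=
      (D.norm_R_le _ _).trans (mul_le_of_le_one_left (norm_nonneg _) (opNorm_le_one hxn))
    rw [e1]
    refine (norm_add_le _ _).trans ((add_le_add ((norm_pi_le hv _).trans herrx) ?_).trans
      (le_of_eq (show 2 * E + ‖s (D.R s (gap D (1 / c) x))‖ + 1 / c * (2 * E) + 1 / c * E = _
        by ring)))
    rw [norm_smul, hc1]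
    exact mul_le_mul_of_nonneg_left h2 (by positivity)

/-- The state of an almost central partial isometry. -/
theorem tri_facts (he : IsBlock M e) {i j : ι} {w : H →L[ℂ] H} (hwM : w ∈ M)
    (hw : w * (star w * w) = w) (hwa : e j * w = w) (hwb : w * e i = w) {K : ℝ} (hK : 0 ≤ K) :
    let ζ := blk D e
    let W : Tri H := ⟨star w * w, w * star w, w⟩
    let E := ‖w ζ - ((1 : ℝ) : ℂ) • D.R w ζ‖
    IsTri M (e i) (e j) W ∧ cost D 1 K (e i) (e j) W ≤ (1 + 8 * K) * E ^ 2 ∧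
      mass D W.P = gain D W ∧ ‖w ζ‖ - 2 * E ≤ ‖W.P (D.R W.P Ω)‖ ∧
      ‖W.Q (D.R W.Q Ω)‖ ≤ ‖w ζ‖ + E := by
  intro ζ W E
  have hζ : D.J ζ = ζ := J_blk D he
  obtain ⟨hdP, hdQ⟩ := norm_tgt_src_sub_le D hζ one_pos hwM hw
  rw [one_mul] at hdQ
  have hw' := star_pi_eq hw
  set P := star w * w with hP
  set Q := w * star w with hQ
  have hPM : P ∈ M := mul_mem (star_mem hwM) hwM
  have hQM : Q ∈ M := mul_mem hwM (star_mem hwM)
  have hPp : IsStarProjection P :=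
    ⟨by rw [hP, IsIdempotentElem, mul_assoc, hw], IsSelfAdjoint.star_mul_self w⟩
  have hQp : IsStarProjection Q :=
    ⟨by rw [hQ, IsIdempotentElem, ← mul_assoc, mul_assoc w, ← hP, hw],
      IsSelfAdjoint.mul_star_self w⟩
  have hPt : e i * P = P := by
    have h := congrArg star hwb
    rw [star_mul, (he.proj i).isSelfAdjoint.star_eq] at h
    rw [hP, ← mul_assoc, h]
  have hQu : e j * Q = Q := by rw [hQ, ← mul_assoc, hwa]
  have hQu' := proj_le_comm (he.proj j) hQp hQu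
  have hwP : w * P = w := hw
  have hQw : Q * w = w := by rw [hQ, mul_assoc, ← hP, hwP]
  obtain ⟨-, hP2, hP3⟩ := proj_blk_facts D he hPM hPp hPt
  obtain ⟨hQ1, -, hQ3⟩ := proj_blk_facts D he hQM hQp hQu
  have hgainP : gain D W = ‖P (D.R P Ω)‖ ^ 2 := by
    show ‖D.R P (w Ω)‖ ^ 2 = _
    rw [← D.R_comm hwM hPM, norm_pi_apply hw]
  have hdef : ‖Q (D.R P (gap D 1 w))‖ ≤ E := by
    have e1 : Q (D.R P (gap D 1 w)) = Q (D.R P (w ζ - ((1 : ℝ) : ℂ) • D.R w ζ)) := by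
      rw [gap, map_sub, map_sub, map_sub, map_sub, map_smul, map_smul, map_smul, map_smul,
        R_corner_blk D he hwM hwb hPt, D.R_R, D.R_R, hwP, left_corner_blk D he hwM hwa hQu']
    rw [e1]
    exact (norm_proj_le hQp _).trans (norm_proj_le (D.R_proj hPp) _)
  refine ⟨⟨hPM, hQM, hwM, hPp, hQp, hPt, hQu, hQw, hwP, norm_pi_le hw⟩, ?_, hgainP.symm, ?_, ?_⟩
  · have l1 := pow_le_pow_left₀ (norm_nonneg _) (hP3.trans hdP) 2
    have l2 := pow_le_pow_left₀ (norm_nonneg _) (hQ3.trans hdQ) 2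
    have l3 := pow_le_pow_left₀ (norm_nonneg _) hdef 2
    have l4 := mul_le_mul_of_nonneg_left (add_le_add l1 l2) hK
    show ‖Q (D.R P (gap D 1 w))‖ ^ 2 + K * (leak D (e i) P + leak D (e j) Q) ≤ _
    simp only [leak]
    linarith
  · show _ ≤ ‖P (D.R P Ω)‖
    have e1 : ‖P ζ‖ = ‖w ζ‖ := (norm_pi_apply hw ζ).symm
    linarith
  · show ‖Q (D.R Q Ω)‖ ≤ _
    refine hQ1.trans ?_
    have e1 : ‖Q ζ‖ = ‖D.R w ζ‖ := by
      rw [D.R_apply, D.norm_J, hζ, norm_pi_apply hw', star_star]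
    rw [e1]
    simp only [E, Complex.ofReal_one, one_smul]
    exact norm_le_insert _ _

theorem stmtLocal (hMax : StmtMax.{u}) (hC : StmtCorner.{u}) : StmtLocal.{u} := by
  intro H _ _ _ M Ω D hΩ h3 hfull t ht uu huu htp hup htu ht0 hu0 K ε hK hε
  obtain ⟨e, he, rfl, rfl⟩ :
      ∃ e : Fin 3 → H →L[ℂ] H, IsBlock M e ∧ e 0 = t ∧ e 1 = uu :=
    ⟨_, isBlock_pair ht huu htp hup htu, rfl, rfl⟩
  obtain ⟨S, hS, hS1, hS2⟩ := h3.equiv_one _ ht htp ht0
  obtain ⟨T, hT, hT1, hT2⟩ := h3.equiv_one _ huu hup hu0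
  have hy0 : e 1 * (T * star S) * e 0 = T * star S := by
    rw [← hS2, ← hT2, show T * star T * (T * star S) * (S * star S) =
      T * ((star T * T) * (star S * S)) * star S by noncomm_ring, hT1, hS1, one_mul, mul_one]
  have hy0' : T * star S ≠ 0 := by
    intro h
    have h1 : star T * (T * star S) * S = 0 := by rw [h, mul_zero, zero_mul]
    rw [← mul_assoc, hT1, one_mul, hS1] at h1
    exact ht0 (by rw [← mul_one (e 0), h1, mul_zero])
  obtain ⟨c, hc, hy⟩ := exists_ratio D hΩ hMax he 0 1 (mul_mem hT (star_mem hS)) hy0 hy0'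
  obtain ⟨κ, hκ, hcor⟩ := hC H M Ω D hΩ h3 hfull (1 / c) (by positivity)
  set η := min ε 1 / (10 * (1 + 8 * K)) with hη
  have hη0 : 0 < η := div_pos (lt_min hε one_pos) (by positivity)
  have hηK : (1 + 8 * K) * η = min ε 1 / 10 := by rw [hη]; field_simp
  have hη10 : η ≤ 1 / 10 := by
    have h1 := mul_nonneg hK hη0.le
    have h2 := min_le_right ε (1 : ℝ)
    linarith
  set r₂ := η ^ 2 / 16 with hr₂
  have hr₂0 : 0 < r₂ := by positivity
  set B := 4 + 6 / c with hB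
  have hB0 : 0 < B := by positivity
  set ρ := min (1 / 4) (κ * r₂ / (2 * B)) with hρ
  have hρ0 : 0 < ρ := lt_min (by norm_num) (by positivity)
  have hρ4 : ρ ≤ 1 / 4 := min_le_left _ _
  have hρB : B * ρ ≤ κ * r₂ / 2 :=
    (mul_le_mul_of_nonneg_left (min_le_right _ _) hB0.le).trans_eq (by field_simp)
  obtain ⟨y, hyM, hye, hyne, hyle⟩ := hy (ρ ^ 2 / 16) (by positivity)
  obtain ⟨v, hvM, hv, hva, hvb, hvne, herr⟩ :=
    exists_pi_corner D he hc hρ0 (by linarith) hyM hye hyne hyle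
  have hs0 : star v * v ≠ 0 := fun h => hvne (by rw [← hv, h, mul_zero]; rfl)
  obtain ⟨x, hxM, hsx, hxs, hxn, hxg, hxκ⟩ := hcor _ (mul_mem (star_mem hvM) hvM)
    ⟨by rw [IsIdempotentElem, mul_assoc, hv], IsSelfAdjoint.star_mul_self v⟩ hs0
    (κ * r₂ / 2) (by positivity)
  obtain ⟨hTm, hxt, hzlow, hzerr⟩ := compose_facts D he hc hvM hv hvb hxM hsx hxs hxn
  set ζ := blk D e with hζdef
  set m := ‖(star v * v) (D.R (star v * v) Ω)‖ with hm
  set E := ‖v ζ - (c : ℂ) • D.R v ζ‖ with hE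
  have hTpos : 0 < ‖v ζ‖ := norm_pos_iff.2 hvne
  have hρT : ρ * ‖v ζ‖ ≤ 1 / 4 * ‖v ζ‖ := mul_le_mul_of_nonneg_right hρ4 hTpos.le
  have hT2m : ‖v ζ‖ ≤ 2 * m := by linarith
  have hm0 : 0 < m := by linarith
  have hzlow' : κ * m ≤ ‖(v * x) ζ‖ := hxκ.trans hzlow
  have hEB : (2 + 3 / c) * E ≤ κ * r₂ / 2 * m :=
    calc (2 + 3 / c) * E ≤ (2 + 3 / c) * (ρ * (2 * m)) :=
          mul_le_mul_of_nonneg_left (herr.trans (mul_le_mul_of_nonneg_left hT2m hρ0.le))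
            (by positivity)
      _ = B * ρ * m := by rw [hB]; ring
      _ ≤ κ * r₂ / 2 * m := mul_le_mul_of_nonneg_right hρB hm0.le
  have hzle : ‖(v * x) ζ - ((1 : ℝ) : ℂ) • D.R (v * x) ζ‖ ≤ η ^ 2 / 16 * ‖(v * x) ζ‖ := by
    rw [← hr₂]
    refine hzerr.trans (le_trans ?_ (mul_le_mul_of_nonneg_left hzlow' hr₂0.le))
    linarith
  have hzne : (v * x) ζ ≠ 0 := fun h => by
    rw [h, norm_zero] at hzlow'
    linarith [mul_pos hκ hm0]
  obtain ⟨w, hwM, hw, hwa, hwb, hwne, herr2⟩ := exists_pi_corner D he (i := 0) (j := 1) one_pos hη0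
    (by linarith) (mul_mem hvM hxM) (by rw [← mul_assoc, hva, mul_assoc, hxt]) hzne hzle
  obtain ⟨htri, hcost, hmP, hgl, hQl⟩ := tri_facts D he hwM hw hwa hwb hK
  rw [← hζdef] at hwne herr2 hcost hgl hQl
  set W : Tri H := ⟨star w * w, w * star w, w⟩ with hW
  set E₂ := ‖w ζ - ((1 : ℝ) : ℂ) • D.R w ζ‖ with hE₂
  set T₂ := ‖w ζ‖ with hT₂
  have hT₂0 : 0 < T₂ := norm_pos_iff.2 hwne
  have hηT : η * T₂ ≤ 1 / 10 * T₂ := mul_le_mul_of_nonneg_right hη10 hT₂0.le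
  have hgain : (4 / 5 * T₂) ^ 2 ≤ gain D W := by
    rw [← hmP]
    exact pow_le_pow_left₀ (by positivity) (le_trans (by linarith) hgl) 2
  have hmQ : mass D W.Q ≤ (11 / 10 * T₂) ^ 2 :=
    pow_le_pow_left₀ (norm_nonneg _) (hQl.trans (by linarith)) 2
  have hKE : (1 + 8 * K) * E₂ ^ 2 ≤ min ε 1 / 100 * T₂ ^ 2 := by
    calc (1 + 8 * K) * E₂ ^ 2 ≤ (1 + 8 * K) * (η * T₂) ^ 2 :=
          mul_le_mul_of_nonneg_left (pow_le_pow_left₀ (norm_nonneg _) herr2 2) (by positivity)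
      _ = min ε 1 / 10 * (η * T₂ ^ 2) := by rw [← hηK]; ring
      _ ≤ min ε 1 / 10 * (1 / 10 * T₂ ^ 2) :=
          mul_le_mul_of_nonneg_left (mul_le_mul_of_nonneg_right hη10 (sq_nonneg _))
            (by have := lt_min hε (one_pos : (0 : ℝ) < 1); positivity)
      _ = _ := by ring
  have hT₂2 : 0 < T₂ ^ 2 := by positivity
  have hQ0 : 0 ≤ mass D W.Q := sq_nonneg _
  refine ⟨W, htri, rfl, rfl, ?_, ?_, ?_⟩
  · simp only [size, hmP]
    linarith
  · have h1 := mul_le_mul_of_nonneg_left hgain hε.le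
    have h2 := mul_le_mul_of_nonneg_right (min_le_left ε 1) hT₂2.le
    linarith [mul_pos hε hT₂2]
  · have h2 := mul_le_mul_of_nonneg_right (min_le_right ε 1) hT₂2.le
    simp only [size, hmP]
    linarith

end Vale.Agent.P132.Homog
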