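import Vale.Agent.P132.Homog.Stmt
import Vale.Agent.P132.GNS.Main
import Vale.Agent.P132.Homog.Block

/-!
# Homogeneity from the matching of two halves

Two states are put into the two corners of one state; an almost matching partial isometry of ratio
one gives the unitary.
-/

namespace Vale.Agent.P132.Homog

open scoped InnerProductSpace Topology ComplexOrder
open Filter Vale.Agent.P078.General

universe u

variable {H : Type u} [NormedAddCommGroup H] [InnerProductSpace ℂ H] [CompleteSpace H]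
variable {M : VonNeumannAlgebra H} {Ω : H}

theorem norm_le_one_of_star_mul {V : H →L[ℂ] H} (h : ‖star V * V‖ ≤ 1) : ‖V‖ ≤ 1 := by
  rw [CStarRing.norm_star_mul_self] at h
  nlinarith [norm_nonneg V]

theorem norm_star_mul_proj {V : H →L[ℂ] H} (hV : V * (star V * V) = V) :
    IsStarProjection (star V * V) ∧ ‖V‖ ≤ 1 := by
  have hp : IsStarProjection (star V * V) := by
    refine ⟨?_, ?_⟩
    · show star V * V * (star V * V) = star V * V
      rw [mul_assoc, hV]
    · exact IsSelfAdjoint.star_mul_self V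
  exact ⟨hp, norm_le_one_of_star_mul (opNorm_proj_le_one hp)⟩

theorem norm_proj_apply_sq {p : H →L[ℂ] H} (hp : IsStarProjection p) (v : H) :
    (⟪v, p v⟫_ℂ).re = ‖p v‖ ^ 2 := by
  rw [← inner_self_eq_norm_sq (𝕜 := ℂ), inner_proj hp, proj_apply hp]; rfl

theorem norm_isom_apply {V : H →L[ℂ] H} {p : H →L[ℂ] H} (hp : IsStarProjection p)
    (hV : star V * V = p) (v : H) : ‖V v‖ = ‖p v‖ := by
  refine (pow_left_inj₀ (norm_nonneg _) (norm_nonneg _) two_ne_zero).1 ?_
  rw [← norm_proj_apply_sq hp, ← inner_self_eq_norm_sq (𝕜 := ℂ), inner_left, ← hV]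
  rfl

/-- A projection commuting with `Ω` under the state is fixed by the conjugation. -/
theorem R_omega_of_central (D : StdData M Ω) (hΩ : IsCS M Ω) {p : H →L[ℂ] H} (hp : p ∈ M)
    (hpp : IsStarProjection p) (hc : ∀ y ∈ M, ⟪Ω, (p * y) Ω⟫_ℂ = ⟪Ω, (y * p) Ω⟫_ℂ) :
    D.R p Ω = p Ω := by
  set K := (orbit M (p Ω)).topologicalClosure with hK
  have : CompleteSpace K := (orbit M (p Ω)).isClosed_topologicalClosure.completeSpace_coe
  have hinv : ∀ y ∈ M, ∀ w ∈ K, y w ∈ K := by
    intro y hy w hw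
    refine map_mem_closure y.continuous hw ?_
    rintro _ ⟨z, hz, rfl⟩
    exact ⟨y * z, mul_mem hy hz, rfl⟩
  set Q := K.starProjection with hQ
  have hQp : IsStarProjection Q := isStarProjection_starProjection
  have hQc : Q ∈ M.commutant := by
    rw [VonNeumannAlgebra.mem_commutant_iff]
    intro g hg
    have k : ∀ z ∈ M, Q * z * Q = z * Q := fun z hz => ContinuousLinearMap.ext fun v =>
      Submodule.starProjection_eq_self_iff.2 (hinv z hz _ (K.starProjection_apply_mem v))
    have h2 := congrArg star (k _ (star_mem hg))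
    rw [star_mul, star_mul, star_mul, star_star, hQp.isSelfAdjoint.star_eq, ← mul_assoc,
      k g hg] at h2
    exact h2
  have hQΩ : Q Ω = p Ω := by
    refine Submodule.eq_starProjection_of_mem_of_inner_eq_zero
      ((orbit M (p Ω)).le_topologicalClosure ⟨1, one_mem M, rfl⟩) fun w hw => ?_
    refine Set.EqOn.closure (f := fun w => ⟪Ω - p Ω, w⟫_ℂ) (g := fun _ => (0 : ℂ)) ?_
      (by fun_prop) continuous_const hw
    rintro _ ⟨y, hy, rfl⟩
    have h := hc _ (mul_mem hy hp)
    rw [mul_assoc y p p, hpp.isIdempotentElem.eq] at h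
    simp only [inner_sub_left, inner_proj hpp]
    rw [sub_eq_zero]
    exact h.symm
  obtain ⟨b, hb, hbe⟩ := D.onto Q hQc
  have hQR : D.R (star b) = Q := ContinuousLinearMap.ext fun v => by
    rw [D.R_apply, star_star, hbe v]
  have hbs : star b = b := by
    have h1 : D.R b = D.R (star b) := by
      rw [← star_star b, ← D.star_R, hQR, hQp.isSelfAdjoint.star_eq, ← hQR, star_star]
    have h2 := congrArg (fun T : H →L[ℂ] H => D.J (T Ω)) h1
    simp only [D.R_omega, D.J_invol, star_star] at h2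
    exact sub_eq_zero.1 (hΩ.separating _ (sub_mem (star_mem hb) hb)
      (by rw [sub_apply, h2, sub_self]))
  have hb1 : D.J (b Ω) = p Ω := by rw [← hQΩ, hbe Ω, D.J_omega]
  have hy : p - b = 0 := by
    by_contra h
    have h1 := D.pos _ (sub_mem hp hb) h
    rw [star_sub, hbs, hpp.isSelfAdjoint.star_eq] at h1
    have h2 : D.J ((p - b) Ω) = -((p - b) Ω) := by
      rw [sub_apply, D.J_sub, ← hb1, D.J_invol, hb1, neg_sub]
    rw [h2, inner_neg_right, Complex.neg_re] at h1
    have h3 : 0 ≤ (⟪(p - b) Ω, (p - b) Ω⟫_ℂ).re := inner_self_nonneg (𝕜 := ℂ)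
    linarith
  rw [D.R_omega, hpp.isSelfAdjoint.star_eq]
  conv_lhs => rw [sub_eq_zero.1 hy]
  exact hb1

/-- Subprojections of small mass, at both ends of a partial isometry. -/
theorem exists_small (hΩ : IsCS M Ω) (h3 : IsTypeIII M) {V : H →L[ℂ] H} (hV : V ∈ M)
    (hV1 : V * (star V * V) = V) (hV0 : V ≠ 0) {δ : ℝ} (hδ : 0 < δ) :
    ∃ e ∈ M, IsStarProjection e ∧ e ≠ 0 ∧ star V * V * e = e ∧ ‖e Ω‖ ≤ δ ∧
      ‖(V * e * star V) Ω‖ ≤ δ := by
  obtain ⟨r, hr, hrp, hr0, hr1⟩ := h3.proper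
  obtain ⟨S, hS, hS1, hS2⟩ := h3.equiv_one r hr hrp hr0
  have hP := (norm_star_mul_proj hV1).1
  have hP0 : star V * V ≠ 0 := fun h => hV0 (by rw [← hV1, h, mul_zero])
  obtain ⟨T, hT, hT1, hT2⟩ := h3.equiv_one _ (mul_mem (star_mem hV) hV) hP hP0
  set q : ℕ → H →L[ℂ] H := fun n => S ^ n * (1 - r) with hq
  set U : ℕ → H →L[ℂ] H := fun n => T * q n with hU
  have hUM : ∀ n, U n ∈ M := fun n => mul_mem hT (mul_mem (pow_mem hS n) (sub_mem (one_mem M) hr))
  have hSn : ∀ n, star (S ^ n) * S ^ n = 1 := by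
    intro n
    induction n with
    | zero => simp
    | succ n ih => rw [pow_succ', star_mul, mul_assoc, ← mul_assoc (star S), hS1, one_mul, ih]
  have hrS : (1 - r) * S = 0 := by rw [sub_mul, one_mul, ← hS2, mul_assoc, hS1, mul_one, sub_self]
  have hlt : ∀ n m, n < m → star (U n) * U m = 0 := by
    intro n m hnm
    obtain ⟨k, rfl⟩ : ∃ k, m = n + (k + 1) := ⟨m - n - 1, by omega⟩
    have hU' : star (U n) * U (n + (k + 1)) = (1 - r) * S ^ (k + 1) * (1 - r) := by
      simp only [hU, hq, star_mul, hrp.one_sub.isSelfAdjoint.star_eq]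
      rw [show (1 - r) * star (S ^ n) * star T * (T * (S ^ (n + (k + 1)) * (1 - r))) =
        (1 - r) * (star (S ^ n) * (star T * T) * S ^ (n + (k + 1))) * (1 - r) by noncomm_ring,
        hT1, mul_one, pow_add, ← mul_assoc (star (S ^ n)), hSn, one_mul]
    rw [hU', pow_succ', ← mul_assoc, hrS, zero_mul, zero_mul]
  set e : ℕ → H →L[ℂ] H := fun n => U n * star (U n) with he
  have hUU : ∀ n, star (U n) * U n = 1 - r := fun n => by
    simp only [hU, hq, star_mul, hrp.one_sub.isSelfAdjoint.star_eq]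
    rw [show (1 - r) * star (S ^ n) * star T * (T * (S ^ n * (1 - r))) =
      (1 - r) * (star (S ^ n) * (star T * T) * S ^ n) * (1 - r) by noncomm_ring, hT1, mul_one, hSn,
      mul_one, hrp.one_sub.isIdempotentElem.eq]
  have hU1 : ∀ n, U n * (1 - r) = U n := fun n => by
    simp only [hU, hq, mul_assoc, hrp.one_sub.isIdempotentElem.eq]
  have hep : ∀ n, IsStarProjection (e n) := fun n => ⟨by
    show U n * star (U n) * (U n * star (U n)) = U n * star (U n)
    rw [mul_assoc, ← mul_assoc (star (U n)), hUU, ← mul_assoc, hU1],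
    IsSelfAdjoint.mul_star_self _⟩
  have horth : ∀ n m, n ≠ m → e n * e m = 0 := by
    intro n m hnm
    have h0 : star (U n) * U m = 0 := by
      rcases lt_or_gt_of_ne hnm with h | h
      · exact hlt n m h
      · rw [← star_star (U m), ← star_mul, hlt m n h, star_zero]
    simp only [he]
    rw [mul_assoc, ← mul_assoc (star (U n)), h0, zero_mul, mul_zero]
  have hPe : ∀ n, star V * V * e n = e n := fun n => by
    have h0 : star V * V * T = T := by rw [← hT2, mul_assoc, hT1, mul_one]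
    simp only [he, hU, ← mul_assoc, h0]
  have hne : ∀ n, e n ≠ 0 := by
    intro n h
    have h1 : star (U n) * U n * (star (U n) * U n) = 0 := by
      rw [show star (U n) * U n * (star (U n) * U n) = star (U n) * (U n * star (U n)) * U n by
        simp only [mul_assoc], show U n * star (U n) = e n from rfl, h, mul_zero, zero_mul]
    rw [hUU, hrp.one_sub.isIdempotentElem.eq, sub_eq_zero] at h1
    exact hr1 h1.symm
  set g : ℕ → H →L[ℂ] H := fun n => V * e n * star V with hg
  have heP : ∀ n, e n * (star V * V) = e n := fun n => by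
    simpa only [star_mul, star_star, (hep n).isSelfAdjoint.star_eq] using congrArg star (hPe n)
  have hgg : ∀ n m, g n * g m = V * (e n * e m) * star V := fun n m => by
    simp only [hg]
    rw [show V * e n * star V * (V * e m * star V) = V * (e n * (star V * V) * e m) * star V by
      noncomm_ring, heP]
  have hgp : ∀ n, IsStarProjection (g n) := fun n => ⟨by
    show g n * g n = g n
    rw [hgg, (hep n).isIdempotentElem.eq], by
    show star (g n) = g n
    simp only [hg, star_mul, star_star, (hep n).isSelfAdjoint.star_eq, mul_assoc]⟩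
  have hsum : ∀ (f : ℕ → H →L[ℂ] H), (∀ n, IsStarProjection (f n)) →
      (∀ n m, n ≠ m → f n * f m = 0) → ∀ N, ∑ n ∈ Finset.range N, ‖f n Ω‖ ^ 2 ≤ 1 := by
    intro f hf hfo N
    set F := ∑ n ∈ Finset.range N, f n with hF
    have hFp : IsStarProjection F := by
      refine ⟨?_, ?_⟩
      · show F * F = F
        rw [hF, Finset.sum_mul_sum]
        refine Finset.sum_congr rfl fun n hn => ?_
        rw [Finset.sum_eq_single n (fun m _ hm => hfo n m (Ne.symm hm))
          (fun h => absurd hn h), (hf n).isIdempotentElem.eq]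
      · show star F = F
        simp only [hF, star_sum, (hf _).isSelfAdjoint.star_eq]
    have h1 : ∑ n ∈ Finset.range N, ‖f n Ω‖ ^ 2 = ‖F Ω‖ ^ 2 := by
      rw [← norm_proj_apply_sq hFp, hF, sum_apply, inner_sum, Complex.re_sum]
      simp only [norm_proj_apply_sq (hf _)]
    rw [h1]
    have h2 := norm_proj_le hFp Ω
    rw [hΩ.norm] at h2
    exact pow_le_one₀ (norm_nonneg _) h2
  obtain ⟨N, hN⟩ := exists_nat_gt (2 / δ ^ 2)
  have hN0 : 0 < N := by
    have h := (show (0 : ℝ) < 2 / δ ^ 2 by positivity).trans hN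
    exact_mod_cast h
  obtain ⟨n, -, hn⟩ := Finset.exists_le_of_sum_le (Finset.nonempty_range_iff.2 hN0.ne')
    (f := fun n => ‖e n Ω‖ ^ 2 + ‖g n Ω‖ ^ 2) (g := fun _ => δ ^ 2) (by
      rw [Finset.sum_add_distrib, Finset.sum_const, Finset.card_range, nsmul_eq_mul]
      have := hsum e hep horth N
      have := hsum g hgp (fun n m h => by rw [hgg, horth n m h, mul_zero, zero_mul]) N
      rw [div_lt_iff₀ (by positivity)] at hN
      linarith)
  refine ⟨e n, mul_mem (hUM n) (star_mem (hUM n)), hep n, hne n, hPe n, ?_, ?_⟩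
  · exact le_of_pow_le_pow_left₀ two_ne_zero hδ.le
      ((le_add_of_nonneg_right (sq_nonneg _)).trans hn)
  · exact le_of_pow_le_pow_left₀ two_ne_zero hδ.le
      ((le_add_of_nonneg_left (sq_nonneg _)).trans hn)

/-- Completion of an almost full partial isometry between `p` and `1 - p`. -/
theorem exists_complete (hΩ : IsCS M Ω) (h3 : IsTypeIII M) {p V : H →L[ℂ] H} (hp : p ∈ M)
    (hpp : IsStarProjection p) (hp0 : p ≠ 0) (hp1 : p ≠ 1) (hV : V ∈ M)
    (hV1 : V * (star V * V) = V) (hV2 : (1 - p) * V * p = V) {ε : ℝ} (hε : 0 < ε)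
    (hVp : ‖(p - star V * V) Ω‖ ≤ ε) :
    ∃ W ∈ M, star W * W = p ∧ W * star W = 1 - p ∧ ‖(W - V) Ω‖ ≤ 3 * ε := by
  have hqp : IsStarProjection (1 - p) := hpp.one_sub
  have hVp' : V * p = V := by
    calc V * p = (1 - p) * V * p * p := by rw [hV2]
      _ = (1 - p) * V * (p * p) := mul_assoc _ _ _
      _ = V := by rw [hpp.isIdempotentElem.eq, hV2]
  have hqV : (1 - p) * V = V := by
    calc (1 - p) * V = (1 - p) * ((1 - p) * V * p) := by rw [hV2]
      _ = (1 - p) * (1 - p) * V * p := by noncomm_ring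
      _ = V := by rw [hqp.isIdempotentElem.eq, hV2]
  obtain ⟨e, he, hep, hPe, hne, hee⟩ : ∃ e ∈ M, IsStarProjection e ∧ star V * V * e = e ∧
      (V = 0 ∨ e ≠ 0) ∧ ‖e Ω‖ ≤ ε := by
    by_cases hV0 : V = 0
    · exact ⟨0, zero_mem M, .zero _, mul_zero _, .inl hV0, by simpa using hε.le⟩
    · obtain ⟨e, he, hep, he0, hPe, h1, -⟩ := exists_small hΩ h3 hV hV1 hV0 hε
      exact ⟨e, he, hep, hPe, .inr he0, h1⟩
  set P := star V * V with hP
  have hPp := (norm_star_mul_proj hV1).1
  rw [← hP] at hPp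
  have heP : e * P = e := by
    simpa only [star_mul, hPp.isSelfAdjoint.star_eq, hep.isSelfAdjoint.star_eq] using
      congrArg star hPe
  set V' := V * (1 - e) with hV'
  set P' := P - e with hP'
  have hP1 : star V' * V' = P' := by
    rw [hV', star_mul, star_sub, star_one, hep.isSelfAdjoint.star_eq, mul_assoc,
      ← mul_assoc (star V), ← hP, mul_sub, mul_one, hPe, mul_sub, sub_mul, sub_mul, one_mul,
      one_mul, heP, hep.isIdempotentElem.eq, hP']
    abel
  have hP'p : IsStarProjection P' := by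
    refine ⟨?_, hPp.isSelfAdjoint.sub hep.isSelfAdjoint⟩
    show P' * P' = P'
    rw [hP', sub_mul, mul_sub, mul_sub, hPp.isIdempotentElem.eq, hPe, heP,
      hep.isIdempotentElem.eq]
    abel
  have hPp' : P * p = P := by rw [hP, mul_assoc, hVp']
  have hP'pp : P' * p = P' := by
    rw [hP', sub_mul, hPp']
    congr 1
    rw [← heP, mul_assoc, hPp']
  have hpP' : p * P' = P' := by
    simpa only [star_mul, hP'p.isSelfAdjoint.star_eq, hpp.isSelfAdjoint.star_eq] using
      congrArg star hP'pp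
  have hV'1 : V' * P' = V' := by
    rw [hV', hP', show V * (1 - e) * (P - e) = V * (P - e - (e * P - e * e)) by noncomm_ring, heP,
      hep.isIdempotentElem.eq, sub_self, sub_zero, mul_sub, mul_sub, mul_one, hP, hV1]
  set Q' := V' * star V' with hQ'
  have hQ'p : IsStarProjection Q' := ⟨by
    show Q' * Q' = Q'
    rw [hQ', mul_assoc, ← mul_assoc (star V'), hP1, ← mul_assoc, hV'1],
    IsSelfAdjoint.mul_star_self _⟩
  have hqQ' : (1 - p) * Q' = Q' := by rw [hQ', hV', ← mul_assoc, ← mul_assoc, hqV]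
  have hQ'q : Q' * (1 - p) = Q' := by
    simpa only [star_mul, hQ'p.isSelfAdjoint.star_eq, hqp.isSelfAdjoint.star_eq] using
      congrArg star hqQ'
  have hsp : IsStarProjection (p - P') := ⟨by
    show (p - P') * (p - P') = p - P'
    rw [show (p - P') * (p - P') = p * p - p * P' - P' * p + P' * P' by noncomm_ring,
      hpp.isIdempotentElem.eq, hpP', hP'pp, hP'p.isIdempotentElem.eq]; abel, hpp.isSelfAdjoint.sub hP'p.isSelfAdjoint⟩
  have hsq : IsStarProjection (1 - p - Q') := ⟨by
    show (1 - p - Q') * (1 - p - Q') = 1 - p - Q'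
    rw [show (1 - p - Q') * (1 - p - Q') =
        (1 - p) * (1 - p) - (1 - p) * Q' - Q' * (1 - p) + Q' * Q' by noncomm_ring,
      hqp.isIdempotentElem.eq, hqQ', hQ'q, hQ'p.isIdempotentElem.eq]; abel, hqp.isSelfAdjoint.sub hQ'p.isSelfAdjoint⟩
  have hV'M : V' ∈ M := mul_mem hV (sub_mem (one_mem M) he)
  have hsp0 : p - P' ≠ 0 := by
    intro h
    rcases hne with h0 | h0
    · apply hp0
      rw [sub_eq_zero] at h
      rw [h, ← hP1, hV', h0, zero_mul, star_zero, zero_mul]
    · apply h0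
      have h1 : (p - P') * e = 0 := by rw [h, zero_mul]
      have h2 : p * e = e := by
        rw [← hPe, ← mul_assoc]
        congr 1
        simpa only [star_mul, hPp.isSelfAdjoint.star_eq, hpp.isSelfAdjoint.star_eq] using
          congrArg star hPp'
      rw [sub_mul, h2, hP', sub_mul, hPe, hep.isIdempotentElem.eq, sub_self, sub_zero] at h1
      exact h1
  have hsq0 : 1 - p - Q' ≠ 0 := by
    intro h
    rcases hne with h0 | h0
    · apply hp1
      rw [hQ', hV', h0, zero_mul, zero_mul, sub_zero, sub_eq_zero] at h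
      exact h.symm
    · apply h0
      have h1 : star V * (1 - p - Q') * V * e = 0 := by rw [h, mul_zero, zero_mul, zero_mul]
      have h2 : star V' * (V * e) = 0 := by
        rw [hV', star_mul, star_sub, star_one, hep.isSelfAdjoint.star_eq, mul_assoc,
          ← mul_assoc (star V), ← hP, hPe, sub_mul, one_mul, hep.isIdempotentElem.eq, sub_self]
      rw [show star V * (1 - p - Q') * V * e = star V * ((1 - p) * V) * e - star V * (Q' * (V * e))
        by noncomm_ring, hqV, ← hP, hPe, hQ', mul_assoc V', h2, mul_zero, mul_zero, sub_zero] at h1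
      exact h1
  obtain ⟨S, hS, hS1, hS2⟩ := h3.equiv_one _ (sub_mem hp (hP1 ▸ mul_mem (star_mem hV'M) hV'M)) hsp hsp0
  obtain ⟨T, hT, hT1, hT2⟩ := h3.equiv_one _
    (sub_mem (sub_mem (one_mem M) hp) (mul_mem hV'M (star_mem hV'M))) hsq hsq0
  set U := T * star S with hU
  have hU1 : star U * U = p - P' := by
    rw [hU, star_mul, star_star, mul_assoc, ← mul_assoc (star T), hT1, one_mul, hS2]
  have hU2 : U * star U = 1 - p - Q' := by
    rw [hU, star_mul, star_star, mul_assoc, ← mul_assoc (star S), hS1, one_mul, hT2]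
  have hUr : U * (p - P') = U := by
    rw [← hS2, hU, mul_assoc, ← mul_assoc (star S), hS1, one_mul]
  have hUl : (1 - p - Q') * U = U := by
    rw [← hT2, hU, mul_assoc, ← mul_assoc (star T), hT1, one_mul]
  have hVU : star V' * U = 0 := by
    have hz : star V' * (1 - p - Q') = 0 := by
      have hl : star V' * Q' = star V' := by
        rw [hQ', ← mul_assoc, hP1]
        simpa only [star_mul, hP'p.isSelfAdjoint.star_eq] using congrArg star hV'1
      have hr : star V' * (1 - p) = star V' := by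
        have h : (1 - p) * V' = V' := by rw [hV', ← mul_assoc, hqV]
        simpa only [star_mul, hqp.isSelfAdjoint.star_eq] using congrArg star h
      rw [mul_sub, hl, hr, sub_self]
    rw [← hUl, ← mul_assoc, hz, zero_mul]
  have hVU' : V' * star U = 0 := by
    have hz : V' * (p - P') = 0 := by
      rw [mul_sub, hV'1]
      rw [show V' * p = V' * P' * p by rw [hV'1], mul_assoc, hP'pp, hV'1, sub_self]
    rw [← hUr, star_mul, hsp.isSelfAdjoint.star_eq, ← mul_assoc, hz, zero_mul]
  refine ⟨V' + U, add_mem hV'M (mul_mem hT (star_mem hS)), ?_, ?_, ?_⟩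
  · have h : star U * V' = 0 := by simpa [star_mul] using congrArg star hVU
    rw [star_add, add_mul, mul_add, mul_add, hP1, hU1, hVU, h]; abel
  · have h : U * star V' = 0 := by simpa [star_mul] using congrArg star hVU'
    rw [star_add, add_mul, mul_add, mul_add, ← hQ', hU2, hVU', h]; abel
  · have hUn : ‖U Ω‖ = ‖(p - P') Ω‖ := norm_isom_apply hsp hU1 Ω
    have hpn : ‖(p - P') Ω‖ ≤ 2 * ε := by
      rw [hP', show p - (P - e) = (p - P) + e by abel, add_apply]
      linarith [norm_add_le ((p - P) Ω) (e Ω)]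
    have hVe : ‖(V * e) Ω‖ ≤ ε := by
      refine (V.le_opNorm _).trans ?_
      exact (mul_le_of_le_one_left (norm_nonneg _) (norm_star_mul_proj hV1).2).trans hee
    rw [show V' + U - V = U - V * e by rw [hV', mul_sub, mul_one]; abel, sub_apply]
    linarith [norm_sub_le (U Ω) ((V * e) Ω)]

/-- The state whose two corners are `f` and `g`. -/
noncomputable def mixState (S T : H →L[ℂ] H) (f g : (H →L[ℂ] H) →ₗ[ℂ] ℂ) :
    (H →L[ℂ] H) →ₗ[ℂ] ℂ :=
  (2⁻¹ : ℂ) •
    (f ∘ₗ LinearMap.mulLeft ℂ (star S) ∘ₗ LinearMap.mulRight ℂ S +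
      g ∘ₗ LinearMap.mulLeft ℂ (star T) ∘ₗ LinearMap.mulRight ℂ T)

theorem mixState_apply (S T : H →L[ℂ] H) (f g : (H →L[ℂ] H) →ₗ[ℂ] ℂ) (y : H →L[ℂ] H) :
    mixState S T f g y = 2⁻¹ * (f (star S * (y * S)) + g (star T * (y * T))) := rfl

theorem mixState_isState {f g : (H →L[ℂ] H) →ₗ[ℂ] ℂ} (hf : IsState M f) (hg : IsState M g)
    {S T : H →L[ℂ] H} (hS : S ∈ M) (hT : T ∈ M) (hS1 : star S * S = 1) (hT1 : star T * T = 1)
    (hsum : S * star S + T * star T = 1) : IsState M (mixState S T f g) := by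
  classical
  have hn : ∀ A : H →L[ℂ] H, star A * A = 1 → ‖A‖ ≤ 1 := fun A hA =>
    norm_le_one_of_star_mul (by rw [hA]; exact ContinuousLinearMap.norm_id_le)
  have hsmall : ∀ (A : H →L[ℂ] H), ‖A‖ ≤ 1 → ∀ y v, ‖(star A * (y * A)) v‖ ≤ ‖y (A v)‖ := by
    intro A hA y v
    exact ((star A).le_opNorm _).trans
      (mul_le_of_le_one_left (norm_nonneg _) (by rwa [norm_star]))
  have hball : ∀ (A : H →L[ℂ] H), ‖A‖ ≤ 1 → ∀ y : H →L[ℂ] H, ‖y‖ ≤ 1 → ‖star A * (y * A)‖ ≤ 1 :=
    fun A hA y hy => (norm_mul_le _ _).trans (by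
      rw [norm_star]
      exact (mul_le_of_le_one_left (norm_nonneg _) hA).trans
        ((norm_mul_le _ _).trans ((mul_le_of_le_one_left (norm_nonneg _) hy).trans hA)))
  have hsq : ∀ (A y : H →L[ℂ] H), star A * (star y * y * A) = star (y * A) * (y * A) :=
    fun A y => by rw [star_mul]; noncomm_ring
  refine ⟨fun δ hδ => ?_, fun y hy => ?_, ?_, fun y hy h => ?_⟩
  · obtain ⟨F, η, hη, hF⟩ := hf.cont δ hδ
    obtain ⟨G, θ, hθ, hG⟩ := hg.cont δ hδ
    refine ⟨F.image S ∪ G.image T, min η θ, lt_min hη hθ, fun y hy hy1 hv => ?_⟩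
    have h1 := hF _ (mul_mem (star_mem hS) (mul_mem hy hS)) (hball S (hn S hS1) y hy1) fun v hv' =>
      (hsmall S (hn S hS1) y v).trans ((hv _ (Finset.mem_union_left _
        (Finset.mem_image_of_mem _ hv'))).trans (min_le_left _ _))
    have h2 := hG _ (mul_mem (star_mem hT) (mul_mem hy hT)) (hball T (hn T hT1) y hy1) fun v hv' =>
      (hsmall T (hn T hT1) y v).trans ((hv _ (Finset.mem_union_right _
        (Finset.mem_image_of_mem _ hv'))).trans (min_le_right _ _))
    rw [mixState_apply, norm_mul, norm_inv, Complex.norm_ofNat]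
    linarith [norm_add_le (f (star S * (y * S))) (g (star T * (y * T)))]
  · rw [mixState_apply, hsq, hsq]
    exact mul_nonneg (by norm_num [Complex.le_def])
      (add_nonneg (hf.pos _ (mul_mem hy hS)) (hg.pos _ (mul_mem hy hT)))
  · rw [mixState_apply, one_mul, one_mul, hS1, hT1, hf.unital, hg.unital]; norm_num
  · rw [mixState_apply, hsq, hsq, mul_eq_zero] at h
    rcases h with h | h
    · norm_num at h
    have a := hf.pos _ (mul_mem hy hS)
    have b := hg.pos _ (mul_mem hy hT)
    obtain ⟨ha, hb⟩ := (add_eq_zero_iff_of_nonneg a b).1 h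
    calc y = y * S * star S + y * T * star T := by
          rw [mul_assoc, mul_assoc, ← mul_add, hsum, mul_one]
      _ = 0 := by
          rw [hf.faithful _ (mul_mem hy hS) ha, hg.faithful _ (mul_mem hy hT) hb, zero_mul,
            zero_mul, add_zero]

/-- Homogeneity from matching of halves. -/
theorem homog_of.{v} (hStd : StmtStd.{v}) (hP : StmtPair.{v}) : Iface.StmtHomog.{v} := by
  intro H _ _ _ _ M Ω _ h3 hS f g hf hg ε hε
  obtain ⟨r, hr, hrp, hr0, hr1⟩ := h3.proper
  obtain ⟨S, hSm, hS1, hS2⟩ := h3.equiv_one r hr hrp hr0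
  obtain ⟨T, hTm, hT1, hT2⟩ := h3.equiv_one (1 - r) (sub_mem (one_mem M) hr) hrp.one_sub
    (fun h => hr1 (sub_eq_zero.1 h).symm)
  have hsum : S * star S + T * star T = 1 := by rw [hS2, hT2]; abel
  have hTS : star T * S = 0 := by
    calc star T * S = star T * (T * star T) * (S * star S) * S := by
          rw [← mul_assoc (star T), hT1, one_mul, mul_assoc (star T), mul_assoc, hS1, mul_one]
      _ = 0 := by
          rw [hS2, hT2, mul_assoc (star T), sub_mul, one_mul, hrp.isIdempotentElem.eq, sub_self,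
            mul_zero, zero_mul]
  have hST : star S * T = 0 := by simpa [star_mul] using congrArg star hTS
  set χ := mixState S T f g with hχ
  have hχs : IsState M χ := mixState_isState hf hg hSm hTm hS1 hT1 hsum
  obtain ⟨K, _, _, _, _, N, ξ, ρ, hR, hN, hCS, hN3, hNS⟩ := GNS.exists_gns hχs
  obtain ⟨D⟩ := hStd K N ξ hCS
  have hrT : r * T = 0 := by rw [← hS2, mul_assoc, hST, mul_zero]
  have hTr : star T * r = 0 := by rw [← hS2, ← mul_assoc, hTS, zero_mul]
  have hrS : r * S = S := by rw [← hS2, mul_assoc, hS1, mul_one]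
  have hSr : star S * r = star S := by rw [← hS2, ← mul_assoc, hS1, one_mul]
  set p := ρ r with hp
  have hpN : p ∈ N := GNS.IsRep.mem_image hN hr
  have hpp : IsStarProjection p := ⟨by
    show p * p = p
    rw [hp, ← hR.mul _ hr _ hr, hrp.isIdempotentElem.eq], by
    show star p = p
    rw [hp, ← hR.star_eq _ hr, hrp.isSelfAdjoint.star_eq]⟩
  have hpfix : D.R p ξ = p ξ := by
    refine R_omega_of_central D hCS hpN hpp fun y hy => ?_
    obtain ⟨x, hx, rfl⟩ := (hN y).1 hy
    rw [hp, ← hR.mul _ hr _ hx, ← hR.mul _ hx _ hr, hR.inner_omega (mul_mem hr hx),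
      hR.inner_omega (mul_mem hx hr), hχ, mixState_apply, mixState_apply, mul_assoc x r, hrS,
      mul_assoc x r, hrT, mul_assoc r, ← mul_assoc (star S) r, hSr, mul_assoc r x T,
      ← mul_assoc (star T) r, hTr, mul_zero, mul_zero, zero_mul]
  have hmass : ‖p ξ‖ ^ 2 = 1 / 2 := by
    rw [← norm_proj_apply_sq hpp, hp, hR.inner_omega hr, hχ, mixState_apply, hrS, hrT, mul_zero,
      hS1, hf.unital, map_zero, add_zero, mul_one]
    norm_num
  obtain ⟨V, hV, hV1, hV2, hVp, hVq, hVd⟩ :=
    hP K N ξ D hCS (hN3 h3) (hNS hS) p hpN hpp hpfix hmass (ε / 24) (by positivity)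
  have hp0 : p ≠ 0 := fun h => by rw [h] at hmass; norm_num at hmass
  have hp1 : p ≠ 1 := fun h => by
    rw [h, one_apply_eq_self, hCS.norm] at hmass; norm_num at hmass
  obtain ⟨W, hW, hW1, hW2, hWV⟩ :=
    exists_complete hCS (hN3 h3) hpN hpp hp0 hp1 hV hV1 hV2 (by positivity : 0 < ε / 24) hVp
  obtain ⟨x, hx, -, rfl⟩ := hR.exists_lift hN hχs hW
  have hx1 : star x * x = r := hR.inj hχs (mul_mem (star_mem hx) hx) hr (by
    rw [hR.mul _ (star_mem hx) _ hx, hR.star_eq _ hx, hW1])
  have hr' : (1 : H →L[ℂ] H) - r ∈ M := sub_mem (one_mem M) hr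
  have hx2 : x * star x = 1 - r := hR.inj hχs (mul_mem hx (star_mem hx)) hr' (by
    rw [hR.mul _ hx _ (star_mem hx), hR.star_eq _ hx, hW2, hR.sub (one_mem M) hr, hR.one])
  have hxT : x * T = 0 := by
    have h : star (x * T) * (x * T) = 0 := by
      rw [star_mul, mul_assoc, ← mul_assoc (star x), hx1, hrT, mul_zero]
    exact CStarRing.star_mul_self_eq_zero_iff _ |>.1 h
  set u := star T * (x * S) with hu
  refine ⟨u, mul_mem (star_mem hTm) (mul_mem hx hSm), ?_, ?_, fun y hy => ?_⟩
  · calc star u * u = star S * (star x * (T * star T) * x) * S := by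
          simp only [hu, star_mul, star_star]; noncomm_ring
      _ = 1 := by
          rw [hT2, ← hx2, show star x * (x * star x) * x = star x * x * (star x * x) by
            noncomm_ring, hx1, hrp.isIdempotentElem.eq, hSr, hS1]
  · calc u * star u = star T * (x * (S * star S) * star x) * T := by
          simp only [hu, star_mul, star_star]; noncomm_ring
      _ = 1 := by
          rw [hS2, ← hx1, show x * (star x * x) * star x = x * star x * (x * star x) by
            noncomm_ring, hx2, hrp.one_sub.isIdempotentElem.eq, ← hT2, ← mul_assoc (star T), hT1,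
            one_mul, hT1]
  set a := T * (y * star T) with ha
  have haM : a ∈ M := mul_mem hTm (mul_mem hy (star_mem hTm))
  set A := ρ a with hA
  have hAn : ‖A‖ ≤ ‖y‖ := by
    have hTn : ‖T‖ ≤ 1 := norm_le_one_of_star_mul (by
      rw [hT1]; exact ContinuousLinearMap.norm_id_le)
    refine (hR.norm_le _ haM).trans ((norm_mul_le _ _).trans ?_)
    refine (mul_le_of_le_one_left (norm_nonneg _) hTn).trans ((norm_mul_le _ _).trans ?_)
    exact mul_le_of_le_one_right (norm_nonneg _) (by rwa [norm_star])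
  have e1 : f (star u * y * u) = 2 * ⟪ρ x ξ, A (ρ x ξ)⟫_ℂ := by
    rw [hA, hR.apply_apply haM hx, hR.inner_eq x hx _ (mul_mem haM hx), hχ, mixState_apply,
      show star x * (a * x) * T = star x * (a * (x * T)) by noncomm_ring, hxT, mul_zero, mul_zero,
      mul_zero, map_zero, add_zero, mul_inv_cancel_left₀ (two_ne_zero' ℂ)]
    congr 1
    simp only [hu, ha, star_mul, star_star]
    noncomm_ring
  have e2 : g y = 2 * ⟪ξ, A ξ⟫_ℂ := by
    rw [hA, hR.inner_omega haM, hχ, mixState_apply,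
      show star S * (a * S) = star S * T * (y * star T * S) by rw [ha]; noncomm_ring, hST, zero_mul,
      map_zero, zero_add, mul_inv_cancel_left₀ (two_ne_zero' ℂ)]
    congr 1
    rw [ha, show star T * (T * (y * star T) * T) = star T * T * y * (star T * T) by noncomm_ring,
      hT1, one_mul, mul_one]
  set v := D.R V ξ with hv
  set Q := V * star V with hQ
  have hVn : ‖V‖ ≤ 1 := (norm_star_mul_proj hV1).2
  have hWn : ‖ρ x ξ‖ ≤ 1 := by
    rw [norm_isom_apply hpp hW1]
    exact (norm_proj_le hpp ξ).trans hCS.norm.le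
  have hvn : ‖v‖ ≤ 1 := by
    refine (D.norm_R_le V ξ).trans ?_
    rw [hCS.norm, mul_one]; exact hVn
  have hd : ‖ρ x ξ - v‖ ≤ ε / 6 := by
    have := norm_sub_le_norm_sub_add_norm_sub (ρ x ξ) (V ξ) v
    rw [sub_apply] at hWV
    linarith
  have hfix : D.R (1 - p) ξ = (1 - p) ξ := by
    rw [D.R_sub, D.R_one, sub_apply, sub_apply, one_apply_eq_self, hpfix]
  have hvA : ⟪v, A v⟫_ℂ = ⟪ξ, A (D.R Q ξ)⟫_ℂ := by
    rw [hv, inner_left (D.R V), D.star_R, ← D.R_comm (hN _ |>.2 ⟨a, haM, rfl⟩) (star_mem hV),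
      D.R_R]
  have hAq : A ((1 - p) ξ) = A ξ := by
    have h0 : A * p = 0 := by
      rw [hA, hp, ← hR.mul _ haM _ hr,
        show a * r = T * (y * (star T * r)) by rw [ha]; noncomm_ring, hTr, mul_zero, mul_zero,
        hR.zero]
    rw [sub_apply, one_apply_eq_self, map_sub, ← mul_apply_eq_comp, h0, zero_apply, sub_zero]
  have hQd : ‖D.R Q ξ - (1 - p) ξ‖ ≤ ε / 24 := by
    rw [← hfix, ← sub_apply, ← D.R_sub, D.R_omega, D.norm_J, star_sub,
      (IsSelfAdjoint.mul_star_self V).star_eq, hpp.one_sub.isSelfAdjoint.star_eq, sub_apply,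
      norm_sub_rev, ← sub_apply]
    exact hVq
  have hop : ∀ b c : K, ‖⟪b, A c⟫_ℂ‖ ≤ ‖y‖ * (‖b‖ * ‖c‖) := fun b c => by
    refine (norm_inner_le_norm _ _).trans ?_
    calc ‖b‖ * ‖A c‖ ≤ ‖b‖ * (‖y‖ * ‖c‖) := mul_le_mul_of_nonneg_left
          ((A.le_opNorm c).trans (mul_le_mul_of_nonneg_right hAn (norm_nonneg _))) (norm_nonneg _)
      _ = ‖y‖ * (‖b‖ * ‖c‖) := by ring
  have hdec : ⟪ρ x ξ, A (ρ x ξ)⟫_ℂ - ⟪ξ, A ξ⟫_ℂ = ⟪ρ x ξ - v, A (ρ x ξ)⟫_ℂ +
      ⟪v, A (ρ x ξ - v)⟫_ℂ + ⟪ξ, A (D.R Q ξ - (1 - p) ξ)⟫_ℂ := by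
    simp only [map_sub, inner_sub_left, inner_sub_right, hAq, hvA]
    ring
  rw [e1, e2, ← mul_sub, norm_mul, Complex.norm_ofNat, hdec]
  have t1 := hop (ρ x ξ - v) (ρ x ξ)
  have t2 := hop v (ρ x ξ - v)
  have t3 := hop ξ (D.R Q ξ - (1 - p) ξ)
  rw [hCS.norm, one_mul] at t3
  have b1 : ‖ρ x ξ - v‖ * ‖ρ x ξ‖ ≤ ε / 6 :=
    (mul_le_of_le_one_right (norm_nonneg _) hWn).trans hd
  have b2 : ‖v‖ * ‖ρ x ξ - v‖ ≤ ε / 6 := (mul_le_of_le_one_left (norm_nonneg _) hvn).trans hd
  have hy0 := norm_nonneg y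
  nlinarith [norm_add₃_le (a := ⟪ρ x ξ - v, A (ρ x ξ)⟫_ℂ) (b := ⟪v, A (ρ x ξ - v)⟫_ℂ)
    (c := ⟪ξ, A (D.R Q ξ - (1 - p) ξ)⟫_ℂ), mul_le_mul_of_nonneg_left b1 hy0,
    mul_le_mul_of_nonneg_left b2 hy0, mul_le_mul_of_nonneg_left hQd hy0]

end Vale.Agent.P132.Homog
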