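import Vale.Agent.P132.Homog.Pair
import Vale.Agent.P132.Homog.Local
import Vale.Agent.P132.Homog.Corner
import Vale.Agent.P132.Homog.Bridge
import Vale.Agent.P132.Homog.Reduce

/-!
# Connes-Stormer homogeneity
-/

namespace Vale.Agent.P132.Homog

/-- Any two faithful normal states of a type III factor with full spectrum are approximately
unitarily equivalent. -/
theorem stmtHomog.{v} (hMod : Iface.StmtModular.{v}) : Iface.StmtHomog.{v} :=
  homog_of (stmtStd hMod)
    (stmtPair (stmtLocal (stmtMax hMod) (stmtCorner (stmtMax hMod))))

end Vale.Agent.P132.Homog
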