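import Vale.Agent.P132.Homog.Std

/-!
# Interfaces inside Homog
-/

namespace Vale.Agent.P132.Homog

open scoped InnerProductSpace Topology ComplexOrder
open Filter

/-- Exhaustion: `p` and `1 - p` are almost matched by a partial isometry of ratio one. -/
def StmtPair.{v} : Prop :=
  ∀ (H : Type v) [NormedAddCommGroup H] [InnerProductSpace ℂ H] [CompleteSpace H]
    [TopologicalSpace.SeparableSpace H] (M : VonNeumannAlgebra H) (Ω : H) (D : StdData M Ω),
    IsCS M Ω → IsTypeIII M → HasFullSpectrum M → ∀ p ∈ M, IsStarProjection p →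
      D.R p Ω = p Ω → ‖p Ω‖ ^ 2 = 1 / 2 → ∀ ε : ℝ, 0 < ε →
        ∃ V ∈ M, V * (star V * V) = V ∧ (1 - p) * V * p = V ∧
          ‖(p - star V * V) Ω‖ ≤ ε ∧ ‖(1 - p - V * star V) Ω‖ ≤ ε ∧ ‖V Ω - D.R V Ω‖ ≤ ε

end Vale.Agent.P132.Homog
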