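import Vale.Agent.P132.Homog.Steps
import Vale.Agent.P132.Homog.Stmt

/-!
# Matching the two halves
-/

namespace Vale.Agent.P132.Homog

open scoped InnerProductSpace Topology ComplexOrder
open Filter Vale.Agent.P078.General

universe u

variable {H : Type u} [NormedAddCommGroup H] [InnerProductSpace ℂ H] [CompleteSpace H]
variable {M : VonNeumannAlgebra H} {Ω : H}

theorem norm_sq_sub_proj {p P : H →L[ℂ] H} (hp : IsStarProjection p) (hP : IsStarProjection P)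
    (h : p * P = P) (v : H) : ‖p v‖ ^ 2 = ‖P v‖ ^ 2 + ‖(p - P) v‖ ^ 2 := by
  rw [← norm_sq_add (inner_proj_proj hP (by
    rw [mul_sub, proj_le_comm hp hP h, hP.isIdempotentElem.eq, sub_self]) v v), sub_apply,
    add_sub_cancel]

theorem norm_apply_eq_proj {x P : H →L[ℂ] H} (hP : IsStarProjection P) (h : star x * x = P)
    (v : H) : ‖x v‖ = ‖P v‖ := by
  rw [@norm_eq_sqrt_re_inner ℂ, @norm_eq_sqrt_re_inner ℂ _ _ _ _ (P v), inner_left,
    ← mul_apply_eq_comp, h, inner_proj hP, proj_apply hP]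

/-- A state of the two halves is almost of ratio one. -/
theorem gap_le (D : StdData M Ω) {p : H →L[ℂ] H} (hpM : p ∈ M) (hp : IsStarProjection p)
    (hR : D.R p Ω = p Ω) {Z : Tri H} (hZ : IsTri M p (1 - p) Z) :
    ‖gap D 1 Z.x‖ ≤ ‖Z.Q (D.R Z.P (gap D 1 Z.x))‖ + ‖Z.P (D.R (p - Z.P) Ω)‖ +
      ‖Z.Q (D.R (1 - p - Z.Q) Ω)‖ := by
  obtain ⟨P, Q, x⟩ := Z
  obtain ⟨hPM, hQM, hxM, hP, hQ, hPp, hQq, hxQ, hxP, hx⟩ := hZ
  simp only at *
  have hq : IsStarProjection (1 - p) := hp.one_sub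
  have hpP : P * p = P := proj_le_comm hp hP hPp
  have hPq : P * (1 - p) = 0 := by rw [mul_sub, mul_one, hpP, sub_self]
  have hpQ : p * Q = 0 := by
    rw [← hQq, ← mul_assoc, mul_sub, mul_one, hp.isIdempotentElem.eq, sub_self, zero_mul]
  have hqM : 1 - p ∈ M := sub_mem (one_mem M) hpM
  have e1 : x Ω - Q (D.R P (x Ω)) = x (P (D.R (p - P) Ω)) := by
    have k1 : Q (D.R P (x Ω)) = D.R P (x Ω) := by
      rw [D.R_comm hQM hPM, ← mul_apply_eq_comp Q, hxQ]
    have k2 : P (D.R (1 - p) Ω) = 0 := by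
      rw [D.R_sub, D.R_one, sub_apply, one_apply_eq_self, hR, map_sub, ← mul_apply_eq_comp P, hpP,
        sub_self]
    have k4 : P (D.R (1 - P) Ω) = P (D.R (p - P) Ω) := by
      rw [show (1 : H →L[ℂ] H) - P = (p - P) + (1 - p) by abel, D.R_add, add_apply, map_add, k2,
        add_zero]
    rw [k1, ← D.R_comm hxM hPM, ← k4, ← mul_apply_eq_comp x P, hxP, D.R_sub, D.R_one, sub_apply,
      one_apply_eq_self, map_sub]
  have e2 : D.R x Ω - Q (D.R P (D.R x Ω)) = D.R x ((1 - p - Q) (D.R Q Ω)) := by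
    have k1 : D.R P (D.R x Ω) = D.R x Ω := by rw [D.R_R, hxP]
    have k2 : p (D.R Q Ω) = 0 := by
      rw [D.R_comm hpM hQM, ← hR, D.R_R, hpQ, D.R_zero, zero_apply]
    have k4 : D.R x Ω = D.R x (D.R Q Ω) := by rw [D.R_R, hxQ]
    rw [k1, D.R_comm hQM hxM, sub_apply, sub_apply, one_apply_eq_self, map_sub, map_sub, k2,
      map_zero, sub_zero, ← k4]
    congr 1
    rw [← D.R_comm hQM hxM Ω, k4, D.R_comm hQM hxM]
  have hg : gap D 1 x = Q (D.R P (gap D 1 x)) + (x Ω - Q (D.R P (x Ω))) -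
      (D.R x Ω - Q (D.R P (D.R x Ω))) := by
    simp only [gap, Complex.ofReal_one, one_smul, map_sub]; abel
  conv_lhs => rw [hg]
  refine (norm_sub_le _ _).trans (add_le_add ((norm_add_le _ _).trans (add_le_add le_rfl ?_)) ?_)
  · rw [e1]; exact hx _
  · rw [e2, norm_cross_symm D hQ (sub_proj hq hQ hQq) hQM (sub_mem hqM hQM)]
    exact (D.norm_R_le _ _).trans (mul_le_of_le_one_left (norm_nonneg _) (opNorm_le_one hx))

/-- The matching theorem. -/
theorem stmtPair.{v} (hL : StmtLocal.{v}) : StmtPair.{v} := by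
  intro H _ _ _ _ M Ω D hΩ h3 hS p hpM hp hR hmass ε hε
  set δ := min ε (ε ^ 2 / 4) with hδdef
  have hδ : 0 < δ := lt_min hε (by positivity)
  set e := (δ / 3) ^ 2 with hedef
  have he : 0 < e := by positivity
  set q := (1 : H →L[ℂ] H) - p with hqdef
  have hq : IsStarProjection q := hp.one_sub
  have hqM : q ∈ M := sub_mem (one_mem M) hpM
  have hpq : p * q = 0 := by rw [hqdef, mul_sub, mul_one, hp.isIdempotentElem.eq, sub_self]
  obtain ⟨Z, hZ, hsmall⟩ := exhaust D (c := 1) (K := 12) (ε := e) (κ := 1 / 4) zero_le_one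
    (by norm_num) (by norm_num) he.le
    (Φ := fun Z : Tri H => star Z.x * Z.x = Z.P ∧ Z.x * star Z.x = Z.Q)
    (by simp [Tri.zero]) hp hq hpM hqM
    (fun Z W hZ hW tZ tW => by
      have h1 : Z.P * W.P = 0 := by
        rw [← tW.leP, ← mul_assoc, mul_sub, proj_le_comm hp tZ.projP tZ.leP,
          tZ.projP.isIdempotentElem.eq, sub_self, zero_mul]
      have h2 : Z.Q * W.Q = 0 := by
        rw [← tW.leQ, ← mul_assoc, mul_sub, proj_le_comm hq tZ.projQ tZ.leQ,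
          tZ.projQ.isIdempotentElem.eq, sub_self, zero_mul]
      have h3' : star Z.x * W.x = 0 := by
        calc star Z.x * W.x = star (Z.Q * Z.x) * (W.Q * W.x) := by rw [tZ.left, tW.left]
          _ = star Z.x * (Z.Q * W.Q) * W.x := by
            rw [star_mul, tZ.projQ.isSelfAdjoint.star_eq]; noncomm_ring
          _ = 0 := by rw [h2]; simp
      have h4 : Z.x * star W.x = 0 := by
        calc Z.x * star W.x = (Z.x * Z.P) * star (W.x * W.P) := by rw [tZ.right, tW.right]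
          _ = Z.x * (Z.P * W.P) * star W.x := by
            rw [star_mul, tW.projP.isSelfAdjoint.star_eq]; noncomm_ring
          _ = 0 := by rw [h1]; simp
      have h5 : star W.x * Z.x = 0 := by simpa using congrArg star h3'
      have h6 : W.x * star Z.x = 0 := by simpa using congrArg star h4
      constructor
      · simp [Tri.add, add_mul, mul_add, h3', h5, hZ.1, hW.1]
      · simp [Tri.add, add_mul, mul_add, h4, h6, hZ.2, hW.2])
    (fun t ht u hu hpt hqu h1 h2 _ ht0 hu0 => by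
      have htu : t * u = 0 := by
        rw [← proj_le_comm hp hpt h1, ← h2, mul_assoc, ← mul_assoc p, hpq, zero_mul, mul_zero]
      obtain ⟨W, hW, hW1, hW2, hW0, hW4, hW5⟩ :=
        hL H M Ω D hΩ h3 hS t ht u hu hpt hqu htu ht0 hu0 12 e (by norm_num) he
      exact ⟨W, hW, ⟨hW1, hW2⟩, hW0, hW4, hW5⟩)
    (η := ε / 2) (half_pos hε)
  obtain ⟨hT, ⟨hP', hQ'⟩, hcost, -⟩ := hZ
  have hgain : gain D Z ≤ 1 := by
    refine pow_le_one₀ (norm_nonneg _) ((norm_proj_le (D.R_proj hT.projP) _).trans ?_)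
    exact (hT.bound Ω).trans hΩ.norm.le
  have hc : cost D 1 12 p q Z ≤ e := hcost.trans (mul_le_of_le_one_right he.le hgain)
  have hl1 : 0 ≤ leak D p Z.P := sq_nonneg _
  have hl2 : 0 ≤ leak D q Z.Q := sq_nonneg _
  have hd0 : 0 ≤ ‖Z.Q (D.R Z.P (gap D 1 Z.x))‖ ^ 2 := sq_nonneg _
  simp only [cost] at hc
  have hroot : ∀ r : ℝ, r ^ 2 ≤ e → r ≤ δ / 3 := fun r h =>
    (le_abs_self r).trans (abs_le_of_sq_le_sq h (by positivity))
  have hg : ‖gap D 1 Z.x‖ ≤ δ := by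
    refine (gap_le D hpM hp hR hT).trans ?_
    have k1 := hroot ‖Z.Q (D.R Z.P (gap D 1 Z.x))‖ (by linarith)
    have k2 := hroot ‖Z.P (D.R (p - Z.P) Ω)‖ (by simp only [leak] at hc hl1 hl2 ⊢; linarith)
    have k3 := hroot ‖Z.Q (D.R (q - Z.Q) Ω)‖ (by simp only [leak] at hc hl1 hl2 ⊢; linarith)
    linarith
  have hxP : ‖Z.x Ω‖ = ‖Z.P Ω‖ := norm_apply_eq_proj hT.projP hP' Ω
  have hxQ : ‖D.R Z.x Ω‖ = ‖Z.Q Ω‖ := by
    rw [D.R_omega, D.norm_J, norm_apply_eq_proj hT.projQ (by rw [star_star]; exact hQ') Ω]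
  have hdiff : |‖Z.P Ω‖ - ‖Z.Q Ω‖| ≤ δ := by
    rw [← hxP, ← hxQ]
    refine (abs_norm_sub_norm_le _ _).trans ?_
    simpa [gap] using hg
  have hP1 : ‖Z.P Ω‖ ≤ 1 := (norm_proj_le hT.projP _).trans hΩ.norm.le
  have hQ1 : ‖Z.Q Ω‖ ≤ 1 := (norm_proj_le hT.projQ _).trans hΩ.norm.le
  have hP2 := norm_sq_sub_proj hp hT.projP hT.leP Ω
  have hQ2 := norm_sq_sub_proj hq hT.projQ hT.leQ Ω
  have hqm : ‖q Ω‖ ^ 2 = 1 / 2 := by
    have := norm_sq_sub_proj (IsStarProjection.one (R := H →L[ℂ] H)) hp (one_mul p) Ω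
    rw [one_apply_eq_self, hΩ.norm, hmass] at this
    rw [hqdef]; linarith
  rw [hmass] at hP2
  rw [hqm] at hQ2
  have hsq : |‖Z.P Ω‖ ^ 2 - ‖Z.Q Ω‖ ^ 2| ≤ 2 * δ := by
    rw [sq_sub_sq, abs_mul, abs_of_nonneg (add_nonneg (norm_nonneg _) (norm_nonneg _))]
    exact mul_le_mul (by linarith) hdiff (abs_nonneg _) zero_le_two
  have hδε : δ ≤ ε := min_le_left _ _
  have hδε2 : δ ≤ ε ^ 2 / 4 := min_le_right _ _
  have hboth : ‖(p - Z.P) Ω‖ ^ 2 ≤ ε ^ 2 ∧ ‖(q - Z.Q) Ω‖ ^ 2 ≤ ε ^ 2 := by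
    rw [abs_le] at hsq
    obtain ⟨s1, s2⟩ := hsq
    have hε2 : 0 ≤ ε ^ 2 := sq_nonneg ε
    rcases hsmall with h | h
    · have h' := pow_le_pow_left₀ (norm_nonneg _) h 2
      rw [show (ε / 2) ^ 2 = ε ^ 2 / 4 by ring] at h'
      exact ⟨by linarith, by linarith⟩
    · have h' := pow_le_pow_left₀ (norm_nonneg _) h 2
      rw [show (ε / 2) ^ 2 = ε ^ 2 / 4 by ring] at h'
      exact ⟨by linarith, by linarith⟩
  refine ⟨Z.x, hT.memx, by rw [hP', hT.right], ?_, ?_, ?_, ?_⟩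
  · calc q * Z.x * p = q * (Z.Q * Z.x) * p := by rw [hT.left]
      _ = Z.Q * (Z.x * Z.P) * p := by rw [hT.right, ← mul_assoc q, hT.leQ, hT.left]
      _ = Z.Q * Z.x * (Z.P * p) := by noncomm_ring
      _ = Z.x := by rw [proj_le_comm hp hT.projP hT.leP, hT.left, hT.right]
  · rw [hP']; exact le_of_pow_le_pow_left₀ two_ne_zero hε.le hboth.1
  · rw [hQ']; exact le_of_pow_le_pow_left₀ two_ne_zero hε.le hboth.2
  · exact le_trans (by simpa [gap] using hg) hδε

end Vale.Agent.P132.Homog
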