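import Vale.Agent.P132.Homog.Ratio

/-!
# Every ratio inside a corner, from the spectral hypothesis

The state of `s ζ` transported by an isometry with range `s` has full modular spectrum; testing
against `m y ζ + ζ y`, which is dense, gives approximate eigenvectors `x ζ ≈ c ζ x` in the corner.
-/

namespace Vale.Agent.P132.Homog

open scoped InnerProductSpace Topology ComplexOrder
open Filter Vale.Agent.P078.General

universe u

variable {H : Type u} [NormedAddCommGroup H] [InnerProductSpace ℂ H] [CompleteSpace H]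
variable {ι : Type*} [Fintype ι] {M : VonNeumannAlgebra H} {Ω : H}
variable (D : StdData M Ω) {e : ι → H →L[ℂ] H}

theorem norm_R_blk (he : IsBlock M e) (y : H →L[ℂ] H) :
    ‖D.R y (blk D e)‖ = ‖star y (blk D e)‖ := by
  rw [D.R_apply, J_blk D he, D.norm_J]

theorem inner_R_blk (he : IsBlock M e) (y x : H →L[ℂ] H) :
    ⟪D.R y (blk D e), D.R x (blk D e)⟫_ℂ = ⟪star x (blk D e), star y (blk D e)⟫_ℂ := by
  rw [D.R_apply, D.R_apply, J_blk D he, D.J_inner]

/-- `m y ζ + ζ y` is dense. -/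
theorem denseRange_mix (hΩ : IsCS M Ω) (hMax : StmtMax.{u}) (he : IsBlock M e) {m : ℝ}
    (hm : 0 < m) :
    DenseRange fun y : mSub M => (m : ℂ) • y.1 (blk D e) + D.R y.1 (blk D e) := by
  obtain ⟨A, hAs, hAe, hA01, -, -⟩ := exists_A D hΩ hMax he
  set G : H →L[ℂ] H := 1 + ((m : ℂ) - 1) • A with hG
  have hpos : ∀ v, min m 1 * ‖v‖ ^ 2 ≤ (⟪G v, v⟫_ℂ).re := by
    intro v
    obtain ⟨a0, a1⟩ := hA01 v
    have hn : (⟪v, v⟫_ℂ).re = ‖v‖ ^ 2 := inner_self_eq_norm_sq (𝕜 := ℂ) v
    have e1 : (⟪G v, v⟫_ℂ).re = ‖v‖ ^ 2 + (m - 1) * (⟪A v, v⟫_ℂ).re := by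
      rw [hG, add_apply, one_apply_eq_self, smul_apply, inner_add_left, inner_smul_left, map_sub,
        Complex.conj_ofReal, map_one, Complex.add_re, hn, ← Complex.ofReal_one,
        ← Complex.ofReal_sub, Complex.re_ofReal_mul]
    rw [e1]
    rcases le_total m 1 with h | h
    · rw [min_eq_left h]; nlinarith
    · rw [min_eq_right h]; nlinarith
  have hu : IsUnit G := by
    have h0 : 0 < min m 1 := lt_min hm one_pos
    refine ContinuousLinearMap.isUnit_of_forall_le_norm_inner_map G (c := ⟨min m 1, h0.le⟩)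
      h0 fun v => ?_
    show ‖v‖ ^ 2 * min m 1 ≤ _
    calc ‖v‖ ^ 2 * min m 1 ≤ (⟪G v, v⟫_ℂ).re := by rw [mul_comm]; exact hpos v
      _ ≤ _ := Complex.re_le_norm _
  obtain ⟨U, hU⟩ := hu
  have hsurj : Function.Surjective G := fun v => ⟨U.inv v, by
    rw [← hU, ← mul_apply_eq_comp, Units.inv_eq_val_inv, Units.mul_inv, one_apply_eq_self]⟩
  have h := hsurj.denseRange.comp (denseRange_plusMap D hΩ hMax he) G.continuous
  have heq : (fun y : mSub M => (m : ℂ) • y.1 (blk D e) + D.R y.1 (blk D e)) =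
      G ∘ plusMap D (blk D e) := by
    funext y
    rw [Function.comp_apply, plusMap_apply, hG, add_apply, one_apply_eq_self, smul_apply,
      hAe _ y.2, sub_smul, one_smul]
    abel
  rw [heq]
  exact h

/-- The state of `s ζ` transported by `S`. -/
noncomputable def cornerState (S : H →L[ℂ] H) (v : H) : (H →L[ℂ] H) →ₗ[ℂ] ℂ :=
  (((‖v‖ ^ 2)⁻¹ : ℝ) : ℂ) •
    (vecState v ∘ₗ LinearMap.mulLeft ℂ S ∘ₗ LinearMap.mulRight ℂ (star S))

theorem cornerState_apply (S : H →L[ℂ] H) (v : H) (y : H →L[ℂ] H) :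
    cornerState S v y = (((‖v‖ ^ 2)⁻¹ : ℝ) : ℂ) * ⟪v, (S * (y * star S)) v⟫_ℂ := rfl

theorem cornerState_sq (S : H →L[ℂ] H) (v : H) (y : H →L[ℂ] H) :
    cornerState S v (star y * y) = (((‖v‖ ^ 2)⁻¹ * ‖y (star S v)‖ ^ 2 : ℝ) : ℂ) := by
  have h : ⟪v, (S * (star y * y * star S)) v⟫_ℂ = ((‖y (star S v)‖ ^ 2 : ℝ) : ℂ) := by
    rw [show S * (star y * y * star S) = star (y * star S) * (y * star S) by
      rw [star_mul, star_star]; noncomm_ring, mul_apply_eq_comp,
      inner_right (star (y * star S)), star_star, inner_self_eq_norm_sq_to_K]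
    simp
  rw [cornerState_apply, h, Complex.ofReal_mul]

/-- Every ratio inside a corner. -/
theorem exists_eigen (hMax : StmtMax.{u}) (hΩ : IsCS M Ω) (h3 : IsTypeIII M)
    (hS : HasFullSpectrum M) (he : IsBlock M e) (k : ι) (hk : e k ≠ 0) {c : ℝ} (hc : 0 < c)
    {ε : ℝ} (hε : 0 < ε) :
    ∃ x ∈ M, e k * x * e k = x ∧ x (blk D e) ≠ 0 ∧
      ‖x (blk D e) - (c : ℂ) • D.R x (blk D e)‖ ≤ ε * ‖x (blk D e)‖ := by
  set ζ := blk D e with hζ
  obtain ⟨s, hs⟩ : ∃ s, s = e k := ⟨_, rfl⟩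
  rw [← hs] at hk ⊢
  have hsp : IsStarProjection s := hs ▸ he.proj k
  have hsM : s ∈ M := hs ▸ he.mem k
  obtain ⟨S, hSm, hS1, hS2⟩ := h3.equiv_one s hsM hsp hk
  have hsS : s * S = S := by rw [← hS2, mul_assoc, hS1, mul_one]
  have hSs : star S * s = star S := by rw [← hS2, ← mul_assoc, hS1, one_mul]
  have hr : 0 < ‖s ζ‖ := norm_pos_iff.2 fun h => hk (blk_separating D he hsM h)
  set r := ‖s ζ‖ with hrdef
  set χ := cornerState S (s ζ) with hχ
  have hst : IsState M χ := by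
    refine ⟨fun δ hδ => ?_, fun y _ => ?_, ?_, fun y hy h => ?_⟩
    · refine ⟨{star S (s ζ)}, δ * r / (‖S‖ + 1), by positivity, fun y _ _ hv => ?_⟩
      have hv' := hv _ (Finset.mem_singleton_self _)
      have h1 : ‖⟪s ζ, (S * (y * star S)) (s ζ)⟫_ℂ‖ ≤ r * (δ * r) := by
        refine (norm_inner_le_norm _ _).trans (mul_le_mul_of_nonneg_left ?_ (norm_nonneg _))
        simp only [mul_apply_eq_comp]
        refine (S.le_opNorm _).trans ?_
        refine (mul_le_mul (le_add_of_nonneg_right zero_le_one) hv' (norm_nonneg _)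
          (by positivity)).trans_eq ?_
        rw [mul_comm, div_mul_cancel₀ _ (by positivity)]
      rw [hχ, cornerState_apply, norm_mul, Complex.norm_real, ← hrdef,
        Real.norm_of_nonneg (by positivity), inv_mul_le_iff₀ (by positivity)]
      linarith
    · rw [hχ, cornerState_sq, Complex.zero_le_real]
      positivity
    · have h := cornerState_sq S (s ζ) 1
      rw [star_one, one_mul, one_apply_eq_self] at h
      have h2 : ‖star S (s ζ)‖ = r := by
        refine (pow_left_inj₀ (norm_nonneg _) hr.le two_ne_zero).1 ?_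
        rw [← inner_self_eq_norm_sq (𝕜 := ℂ), hrdef, ← inner_self_eq_norm_sq (𝕜 := ℂ),
          inner_left (star S), star_star, ← mul_apply_eq_comp S (star S), hS2,
          proj_apply hsp]
      rw [hχ, h, h2, ← hrdef, inv_mul_cancel₀ (by positivity), Complex.ofReal_one]
    · rw [hχ, cornerState_sq, Complex.ofReal_eq_zero, mul_eq_zero, ← hrdef] at h
      rcases h with h | h
      · exact absurd h (by positivity)
      have h2 : (y * star S) ζ = 0 := by
        rw [← hSs, ← mul_assoc]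
        exact norm_eq_zero.1 (pow_eq_zero_iff two_ne_zero |>.1 h)
      calc y = y * star S * S := by rw [mul_assoc, hS1, mul_one]
        _ = 0 := by rw [blk_separating D he (mul_mem hy (star_mem hSm)) h2, zero_mul]
  set m := c⁻¹ with hm
  have hm0 : 0 < m := inv_pos.2 hc
  set μ := min m 1 with hμ
  have hμ0 : 0 < μ := lt_min hm0 one_pos
  obtain ⟨x0, hx0, hx1, hxy⟩ := hS χ hst (m ^ 2) (sq_nonneg m) (ε * μ / c) (by positivity)
  set x := S * x0 * star S with hx
  have hxM : x ∈ M := mul_mem (mul_mem hSm hx0) (star_mem hSm)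
  have hxs : s * x * s = x := by
    rw [hx, show s * (S * x0 * star S) * s = s * S * x0 * (star S * s) by noncomm_ring, hsS, hSs]
  have hfix : ∀ y : H →L[ℂ] H, s * y * s = y → y * s = y ∧ star y * s = star y := by
    intro y hy
    constructor
    · conv_rhs => rw [← hy]
      conv_lhs => rw [← hy]
      rw [mul_assoc (s * y) s s, hsp.isIdempotentElem.eq]
    · have hl : s * y = y := by
        conv_rhs => rw [← hy]
        conv_lhs => rw [← hy]
        rw [← mul_assoc, ← mul_assoc, hsp.isIdempotentElem.eq]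
      simpa only [star_mul, hsp.isSelfAdjoint.star_eq] using congrArg star hl
  -- `χ (star a * b)` for `a`, `b` transported to the corner
  have htr : ∀ a b : H →L[ℂ] H, χ (star a * b) =
      (((r ^ 2)⁻¹ : ℝ) : ℂ) * ⟪(S * a * star S) ζ, (S * b * star S) ζ⟫_ℂ := by
    intro a b
    rw [hχ, cornerState_apply, ← hrdef,
      show S * (star a * b * star S) = star (S * a * star S) * (S * b * star S) by
        simp only [star_mul, star_star]
        rw [show S * (star a * star S) * (S * b * star S) =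
          S * star a * (star S * S) * b * star S by noncomm_ring, hS1, mul_one]
        noncomm_ring,
      mul_apply_eq_comp, inner_right (star (S * a * star S)), star_star,
      show (S * a * star S) (s ζ) = (S * a * (star S * s)) ζ from rfl, hSs,
      show (S * b * star S) (s ζ) = (S * b * (star S * s)) ζ from rfl, hSs]
  have hxn : ‖x ζ‖ = r := by
    rw [htr, ← hx, inner_self_eq_norm_sq_to_K] at hx1
    have h : (r ^ 2)⁻¹ * ‖x ζ‖ ^ 2 = 1 := by
      have h' := congrArg Complex.re hx1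
      rw [Complex.re_ofReal_mul, Complex.one_re] at h'
      simpa [← Complex.ofReal_pow] using h'
    rw [inv_mul_eq_iff_eq_mul₀ (by positivity), mul_one] at h
    exact (pow_left_inj₀ (norm_nonneg _) hr.le two_ne_zero).1 h
  refine ⟨x, hxM, hxs, fun h => hr.ne' (by rw [← hxn, h, norm_zero]), ?_⟩
  set θ := (m : ℂ) • x ζ - D.R x ζ with hθ
  set κ := r * (ε / c) with hκ
  have hcorner : ∀ y ∈ M, s * y * s = y →
      ‖⟪(m : ℂ) • y ζ + D.R y ζ, θ⟫_ℂ‖ ≤ κ * ‖(m : ℂ) • y ζ + D.R y ζ‖ := by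
    intro y hy hys
    set y0 := star S * y * S with hy0
    have hy0M : y0 ∈ M := mul_mem (mul_mem (star_mem hSm) hy) hSm
    have e0 : S * y0 * star S = y := by
      rw [hy0, show S * (star S * y * S) * star S = S * star S * y * (S * star S) by noncomm_ring,
        hS2, hys]
    have e0' : S * star y0 * star S = star y := by
      have h := congrArg star e0
      simpa only [star_mul, star_star, mul_assoc] using h
    have e1 : S * star x0 * star S = star x := by
      simp only [hx, star_mul, star_star, mul_assoc]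
    have h := hxy y0 hy0M
    have t1 : χ (x0 * star y0) = (((r ^ 2)⁻¹ : ℝ) : ℂ) * ⟪D.R y ζ, D.R x ζ⟫_ℂ := by
      rw [hζ, inner_R_blk D he, ← hζ, ← e0', ← e1, ← htr, star_star]
    have t2 : χ (star y0 * x0) = (((r ^ 2)⁻¹ : ℝ) : ℂ) * ⟪y ζ, x ζ⟫_ℂ := by
      rw [htr, e0, ← hx]
    have t3 : (χ (star y0 * y0)).re = (r ^ 2)⁻¹ * ‖y ζ‖ ^ 2 := by
      rw [htr, e0, inner_self_eq_norm_sq_to_K, Complex.re_ofReal_mul]
      simp [← Complex.ofReal_pow]
    have t4 : (χ (y0 * star y0)).re = (r ^ 2)⁻¹ * ‖D.R y ζ‖ ^ 2 := by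
      have := htr (star y0) (star y0)
      rw [star_star] at this
      rw [this, e0', inner_self_eq_norm_sq_to_K, Complex.re_ofReal_mul, hζ, norm_R_blk D he]
      simp [← Complex.ofReal_pow]
    rw [t1, t2, t3, t4, ← mul_add, Real.sqrt_mul (by positivity), Real.sqrt_inv,
      Real.sqrt_sq hr.le, mul_left_comm _ (((r ^ 2)⁻¹ : ℝ) : ℂ), ← mul_sub, norm_mul,
      Complex.norm_real, Real.norm_of_nonneg (by positivity), inv_mul_le_iff₀ (by positivity)] at h
    have hinner : ⟪(m : ℂ) • y ζ + D.R y ζ, θ⟫_ℂ =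
        -(⟪D.R y ζ, D.R x ζ⟫_ℂ - ((m ^ 2 : ℝ) : ℂ) * ⟪y ζ, x ζ⟫_ℂ) := by
      have hb := B_blk_symm D he hy hxM
      rw [← hζ] at hb
      simp only [hθ, inner_add_left, inner_sub_right, inner_smul_left, inner_smul_right,
        Complex.conj_ofReal, hb, Complex.ofReal_pow]
      ring
    have hw : μ * √(‖y ζ‖ ^ 2 + ‖D.R y ζ‖ ^ 2) ≤ ‖(m : ℂ) • y ζ + D.R y ζ‖ := by
      refine le_of_pow_le_pow_left₀ two_ne_zero (norm_nonneg _) ?_
      have h0 := B_blk_self_nonneg D he hy
      rw [← hζ] at h0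
      rw [mul_pow, Real.sq_sqrt (by positivity), @norm_add_sq ℂ, norm_smul, Complex.norm_real,
        Real.norm_of_nonneg hm0.le, inner_smul_left, Complex.conj_ofReal]
      simp only [RCLike.re_to_complex, Complex.re_ofReal_mul]
      have l1 : μ ^ 2 ≤ m ^ 2 := pow_le_pow_left₀ hμ0.le (min_le_left _ _) 2
      have l2 : μ ^ 2 ≤ 1 := pow_le_one₀ hμ0.le (min_le_right _ _)
      nlinarith [mul_le_mul_of_nonneg_right l1 (sq_nonneg ‖y ζ‖),
        mul_le_mul_of_nonneg_right l2 (sq_nonneg ‖D.R y ζ‖), mul_nonneg hm0.le h0]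
    rw [hinner, norm_neg]
    refine h.trans ?_
    calc r ^ 2 * (ε * μ / c * (r⁻¹ * √(‖y ζ‖ ^ 2 + ‖D.R y ζ‖ ^ 2)))
        = κ * (μ * √(‖y ζ‖ ^ 2 + ‖D.R y ζ‖ ^ 2)) := by rw [hκ]; field_simp
      _ ≤ _ := mul_le_mul_of_nonneg_left hw (by positivity)
  obtain ⟨P, hP⟩ : ∃ P, P = s * D.R s := ⟨_, rfl⟩
  have hPp : IsStarProjection P :=
    hP ▸ hsp.mul (D.R_proj hsp) (ContinuousLinearMap.ext fun v => D.R_comm hsM hsM v)
  have hP1 : ∀ y ∈ M, P (y ζ) = (s * y * s) ζ := fun y hy => by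
    rw [hP, mul_apply_eq_comp, ← D.R_comm hy hsM, hζ, hs, ← left_eq_R_blk D he,
      mul_apply_eq_comp, mul_apply_eq_comp]
  have hP2 : ∀ y ∈ M, P (D.R y ζ) = D.R (s * y * s) ζ := fun y hy => by
    rw [hP, mul_apply_eq_comp, D.R_R, D.R_comm hsM (mul_mem hy hsM), hζ, hs,
      left_eq_R_blk D he, D.R_R, mul_assoc]
  have hPθ : P θ = θ := by rw [hθ, map_sub, map_smul, hP1 x hxM, hP2 x hxM, hxs]
  have hall : ∀ v : H, ‖⟪v, θ⟫_ℂ‖ ≤ κ * ‖v‖ := fun v => by
    refine (denseRange_mix D hΩ hMax he hm0).induction_on v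
      (isClosed_le (by fun_prop) (by fun_prop)) fun y => ?_
    have e2 : P ((m : ℂ) • y.1 ζ + D.R y.1 ζ) =
        (m : ℂ) • (s * y.1 * s) ζ + D.R (s * y.1 * s) ζ := by
      rw [map_add, map_smul, hP1 _ y.2, hP2 _ y.2]
    have hys : s * (s * y.1 * s) * s = s * y.1 * s := by
      rw [show s * (s * y.1 * s) * s = s * s * y.1 * (s * s) by noncomm_ring,
        hsp.isIdempotentElem.eq]
    have h := hcorner _ (mul_mem (mul_mem hsM y.2) hsM) hys
    rw [← e2, inner_proj hPp, hPθ] at h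
    exact h.trans (mul_le_mul_of_nonneg_left (norm_proj_le hPp _) (by positivity))
  have hθn : ‖θ‖ ≤ κ := by
    have h := hall θ
    rw [inner_self_eq_norm_sq_to_K] at h
    simp only [norm_pow, RCLike.norm_ofReal, abs_norm] at h
    rcases (norm_nonneg θ).eq_or_lt with h0 | h0
    · rw [← h0]; positivity
    · exact le_of_mul_le_mul_right (by linarith) h0
  have e3 : x ζ - (c : ℂ) • D.R x ζ = (c : ℂ) • θ := by
    rw [hθ, smul_sub, smul_smul, ← Complex.ofReal_mul, hm, mul_inv_cancel₀ hc.ne',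
      Complex.ofReal_one, one_smul]
  rw [e3, norm_smul, Complex.norm_real, Real.norm_of_nonneg hc.le, hxn]
  calc c * ‖θ‖ ≤ c * κ := mul_le_mul_of_nonneg_left hθn hc.le
    _ = ε * r := by rw [hκ]; field_simp

end Vale.Agent.P132.Homog
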