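import Vale.Agent.P132.Iface
import Vale.Agent.P078.General.Ops

/-!
# The standard form facts used for homogeneity, and the right action
-/

namespace Vale.Agent.P132.Homog

open scoped InnerProductSpace Topology ComplexOrder
open Filter

universe u

variable {H : Type u} [NormedAddCommGroup H] [InnerProductSpace ℂ H] [CompleteSpace H]

/-- The facts about `(M, Ω)` that homogeneity uses. -/
structure StdData (M : VonNeumannAlgebra H) (Ω : H) where
  /-- the modular conjugation -/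
  J : H → H
  J_add : ∀ v w, J (v + w) = J v + J w
  J_smul : ∀ (c : ℂ) v, J (c • v) = starRingEnd ℂ c • J v
  J_invol : ∀ v, J (J v) = v
  J_inner : ∀ v w, ⟪J v, J w⟫_ℂ = ⟪w, v⟫_ℂ
  J_omega : J Ω = Ω
  J_comm : ∀ x ∈ M, ∀ y ∈ M, ∀ v, x (J (y (J v))) = J (y (J (x v)))
  onto : ∀ x' ∈ M.commutant, ∃ x ∈ M, ∀ v, x' v = J (x (J v))
  real : ∀ y ∈ M, (⟪y Ω, J (star y Ω)⟫_ℂ).im = 0
  pos : ∀ y ∈ M, y ≠ 0 → 0 < (⟪y Ω, J (star y Ω)⟫_ℂ).re

/-- The modular facts for a cyclic separating vector. -/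
def StmtStd.{v} : Prop :=
  ∀ (H : Type v) [NormedAddCommGroup H] [InnerProductSpace ℂ H] [CompleteSpace H]
    (M : VonNeumannAlgebra H) (Ω : H), IsCS M Ω → Nonempty (StdData M Ω)

/-- Maximality of the closure of `x Ω ↦ x* Ω`. -/
def StmtMax.{v} : Prop :=
  ∀ (H : Type v) [NormedAddCommGroup H] [InnerProductSpace ℂ H] [CompleteSpace H]
    (M : VonNeumannAlgebra H) (Ω : H), IsCS M Ω → ∀ η θ : H,
      (∀ y ∈ M.commutant, ⟪η, y Ω⟫_ℂ = ⟪star y Ω, θ⟫_ℂ) →
        ∀ e : ℝ, 0 < e → ∃ z ∈ M, ‖z Ω - η‖ ≤ e ∧ ‖star z Ω - θ‖ ≤ e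

theorem inner_left (x : H →L[ℂ] H) (v w : H) : ⟪x v, w⟫_ℂ = ⟪v, star x w⟫_ℂ := by
  rw [ContinuousLinearMap.star_eq_adjoint, ContinuousLinearMap.adjoint_inner_right]

theorem inner_right (x : H →L[ℂ] H) (v w : H) : ⟪v, x w⟫_ℂ = ⟪star x v, w⟫_ℂ := by
  rw [inner_left, star_star]

theorem proj_apply {p : H →L[ℂ] H} (hp : IsStarProjection p) (v : H) : p (p v) = p v :=
  congrArg (fun f : H →L[ℂ] H => f v) hp.isIdempotentElem.eq

theorem inner_proj {p : H →L[ℂ] H} (hp : IsStarProjection p) (v w : H) :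
    ⟪p v, w⟫_ℂ = ⟪v, p w⟫_ℂ := by
  rw [inner_left, hp.isSelfAdjoint.star_eq]

namespace StdData

variable {M : VonNeumannAlgebra H} {Ω : H} (D : StdData M Ω)

theorem norm_J (v : H) : ‖D.J v‖ = ‖v‖ := by
  rw [@norm_eq_sqrt_re_inner ℂ, @norm_eq_sqrt_re_inner ℂ _ _ _ _ v, D.J_inner]

theorem J_zero : D.J 0 = 0 := by
  simpa using norm_eq_zero.1 ((D.norm_J 0).trans norm_zero)

theorem J_neg (v : H) : D.J (-v) = -D.J v := by
  rw [← neg_one_smul ℂ v, D.J_smul, map_neg, map_one, neg_one_smul]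

theorem J_sub (v w : H) : D.J (v - w) = D.J v - D.J w := by
  rw [sub_eq_add_neg, D.J_add, D.J_neg, ← sub_eq_add_neg]

theorem J_sum {ι : Type*} (s : Finset ι) (f : ι → H) :
    D.J (∑ i ∈ s, f i) = ∑ i ∈ s, D.J (f i) :=
  map_sum (AddMonoidHom.mk' D.J D.J_add) f s

theorem inner_J_left (v w : H) : ⟪D.J v, w⟫_ℂ = ⟪D.J w, v⟫_ℂ := by
  conv_lhs => rw [← D.J_invol w, D.J_inner]

theorem inner_J_right (v w : H) : ⟪v, D.J w⟫_ℂ = ⟪w, D.J v⟫_ℂ := by
  conv_lhs => rw [← D.J_invol v, D.J_inner]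

theorem continuous_J : Continuous D.J :=
  Metric.continuous_iff.2 fun v ε hε => ⟨ε, hε, fun w hw => by
    rwa [dist_eq_norm, ← D.J_sub, D.norm_J, ← dist_eq_norm]⟩

/-- The right action `v a = J a* J v`. -/
noncomputable def R (a : H →L[ℂ] H) : H →L[ℂ] H :=
  LinearMap.mkContinuous
    { toFun := fun v => D.J (star a (D.J v))
      map_add' := fun v w => by rw [D.J_add, map_add, D.J_add]
      map_smul' := fun c v => by
        rw [D.J_smul, map_smul, D.J_smul, Complex.conj_conj, RingHom.id_apply] }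
    ‖a‖ fun v => by
      show ‖D.J (star a (D.J v))‖ ≤ _
      rw [D.norm_J]
      refine ((star a).le_opNorm _).trans (le_of_eq ?_)
      rw [norm_star, D.norm_J]

theorem R_apply (a : H →L[ℂ] H) (v : H) : D.R a v = D.J (star a (D.J v)) := rfl

theorem norm_R_le (a : H →L[ℂ] H) (v : H) : ‖D.R a v‖ ≤ ‖a‖ * ‖v‖ := by
  rw [D.R_apply, D.norm_J]
  exact ((star a).le_opNorm _).trans_eq (by rw [norm_star, D.norm_J])

theorem R_one : D.R 1 = 1 := by
  ext v
  simp [R_apply, D.J_invol]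

theorem R_mul (a b : H →L[ℂ] H) : D.R (a * b) = D.R b * D.R a := by
  ext v
  simp [R_apply, star_mul, D.J_invol]

theorem R_add (a b : H →L[ℂ] H) : D.R (a + b) = D.R a + D.R b := by
  ext v
  simp [R_apply, D.J_add]

theorem R_zero : D.R 0 = 0 := by
  ext v
  simp [R_apply, D.J_zero]

theorem R_sub (a b : H →L[ℂ] H) : D.R (a - b) = D.R a - D.R b := by
  rw [eq_sub_iff_add_eq, ← D.R_add, sub_add_cancel]

theorem R_smul (c : ℂ) (a : H →L[ℂ] H) : D.R (c • a) = c • D.R a := by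
  ext v
  simp [R_apply, D.J_smul]

theorem R_sum {ι : Type*} (s : Finset ι) (f : ι → H →L[ℂ] H) :
    D.R (∑ i ∈ s, f i) = ∑ i ∈ s, D.R (f i) :=
  map_sum (AddMonoidHom.mk' D.R D.R_add) f s

theorem star_R (a : H →L[ℂ] H) : star (D.R a) = D.R (star a) := by
  refine ContinuousLinearMap.ext fun v => ext_inner_left ℂ fun w => ?_
  rw [inner_right, star_star, R_apply, R_apply, star_star, D.inner_J_left, D.inner_J_right,
    inner_right (star a) (D.J v), star_star]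

theorem R_proj {p : H →L[ℂ] H} (hp : IsStarProjection p) : IsStarProjection (D.R p) where
  isIdempotentElem := by
    show D.R p * D.R p = D.R p
    rw [← D.R_mul, hp.isIdempotentElem.eq]
  isSelfAdjoint := by
    show star (D.R p) = D.R p
    rw [D.star_R, hp.isSelfAdjoint.star_eq]

theorem R_comm {x a : H →L[ℂ] H} (hx : x ∈ M) (ha : a ∈ M) (v : H) :
    x (D.R a v) = D.R a (x v) :=
  D.J_comm x hx (star a) (star_mem ha) v

theorem J_left (x : H →L[ℂ] H) (v : H) : D.J (x v) = D.R (star x) (D.J v) := by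
  rw [R_apply, star_star, D.J_invol]

theorem J_R (a : H →L[ℂ] H) (v : H) : D.J (D.R a v) = star a (D.J v) := by
  rw [R_apply, D.J_invol]

theorem R_omega (a : H →L[ℂ] H) : D.R a Ω = D.J (star a Ω) := by
  rw [R_apply, D.J_omega]

theorem R_R (a b : H →L[ℂ] H) (v : H) : D.R b (D.R a v) = D.R (a * b) v := by
  rw [D.R_mul, mul_apply_eq_comp]

theorem B_self_im {y : H →L[ℂ] H} (hy : y ∈ M) : (⟪y Ω, D.R y Ω⟫_ℂ).im = 0 := by
  rw [D.R_omega]; exact D.real y hy

theorem B_self_pos {y : H →L[ℂ] H} (hy : y ∈ M) (h0 : y ≠ 0) :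
    0 < (⟪y Ω, D.R y Ω⟫_ℂ).re := by
  rw [D.R_omega]; exact D.pos y hy h0

theorem B_self_nonneg {y : H →L[ℂ] H} (hy : y ∈ M) : 0 ≤ (⟪y Ω, D.R y Ω⟫_ℂ).re := by
  rcases eq_or_ne y 0 with rfl | h
  · simp
  · exact (D.B_self_pos hy h).le

theorem B_symm {y z : H →L[ℂ] H} (hy : y ∈ M) (hz : z ∈ M) :
    ⟪y Ω, D.R z Ω⟫_ℂ = ⟪D.R y Ω, z Ω⟫_ℂ := by
  rw [← inner_conj_symm (D.R y Ω) (z Ω)]
  have h1 := D.B_self_im (add_mem hy hz)
  have hI : Complex.I • z ∈ M := P078.General.smul_mem' M hz _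
  have h2 := D.B_self_im (add_mem hy hI)
  have h3 := D.B_self_im hy
  have h4 := D.B_self_im hz
  simp only [D.R_add, D.R_smul, add_apply, smul_apply, inner_add_left, inner_add_right,
    inner_smul_left, inner_smul_right, Complex.conj_I, Complex.add_im] at h1 h2
  simp only [Complex.add_re, Complex.add_im, Complex.mul_im, Complex.mul_re, Complex.neg_re,
    Complex.neg_im, Complex.I_re, Complex.I_im] at h2
  apply Complex.ext <;> simp only [Complex.conj_re, Complex.conj_im] <;> linarith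

end StdData

end Vale.Agent.P132.Homog
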